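import Vale.Agent.P297.H72.Special
import Vale.Agent.P297.H2.Integral

/-!
The last step for the quotients of the double cover of an octic surface: the classes of the pairs
of points over the same point of the Steiner surface give the classes of the points.
-/

set_option linter.unusedSectionVars false
set_option linter.style.haveILetI false
set_option linter.unusedSimpArgs false

open CategoryTheory AlgebraicGeometry IntermediateField Polynomial

namespace Vale.Agent.P297.C8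

open Vale.Agent.P297 Vale.Agent.P297.H729 Vale.Agent.P297.H516 Vale.Agent.P297.H839
open Vale.Agent.P297.H72 Vale.Agent.P297.H777

variable {K K₁ N : Type} [Field K] [Algebra ℂ K] [Field K₁] [Algebra ℂ K₁] [Field N] [Algebra ℂ N]

/-- **Integral criterion** for the group `Rel 0`. -/
theorem pointsEquivalent_of_rel (φ : K →ₐ[ℂ] N) {n : ℤ} (hn : n ≠ 0)
    (h : Finsupp.single φ n ∈ Rel 0 K N) : PointsEquivalent K := by
  intro S _ f _ hS x y
  refine H2.ratEquiv_of_nsmul f (n := n.natAbs) (Int.natAbs_ne_zero.2 hn) (fun u v => ?_) x y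
  have h1 := Rel.criterion_zero φ n h f hS u v
  rcases Int.natAbs_eq n with h2 | h2
  · rw [h2] at h1
    exact h1
  · have h3 := (Rat f).neg_mem h1
    rw [← neg_smul] at h3
    have h4 : -n = (n.natAbs : ℤ) := by omega
    rw [h4] at h3
    exact h3

/-- Restriction of the points of a field to a subfield. -/
noncomputable def resK (ι : K →ₐ[ℂ] K₁) : ((K₁ →ₐ[ℂ] N) →₀ ℤ) →+ ((K →ₐ[ℂ] N) →₀ ℤ) :=
  Finsupp.mapDomain.addMonoidHom (fun ψ : K₁ →ₐ[ℂ] N => ψ.comp ι)

theorem resK_apply (ι : K →ₐ[ℂ] K₁) (v : (K₁ →ₐ[ℂ] N) →₀ ℤ) :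
    resK ι v = Finsupp.mapDomain (fun ψ : K₁ →ₐ[ℂ] N => ψ.comp ι) v := rfl

theorem resK_single (ι : K →ₐ[ℂ] K₁) (ψ : K₁ →ₐ[ℂ] N) (n : ℤ) :
    resK ι (Finsupp.single ψ n) = Finsupp.single (ψ.comp ι) n := Finsupp.mapDomain_single

/-- The last step. -/
theorem camp_glue [IsAlgClosed N] {Q : Web} (hQ : ∀ i, (Q i).IsSymm) (hfin : NoBase Q)
    (hirr : Irreducible (octic Q)) (hsp : ∃ a : Fin 4 → ℂ, Three Q a)
    {x : Fin 4 → K₁} (hx : IsFF Q x) (ι : K →ₐ[ℂ] K₁) (φ : K₁ →ₐ[ℂ] N) {n : ℤ} (hn : n ≠ 0)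
    (link : ∀ o o' : Fin 4 → N, GenW Q o → GenW Q o' → qq Q o' = qq Q o → o' ≠ o → o' ≠ -o →
      n • resK ι (pt x o + pt x o') ∈ Rel 0 K N) :
    PointsEquivalent K := by
  let o : Fin 4 → N := fun j => φ (x j)
  have ho : GenW Q o := GenW.of_phi hx φ
  obtain ⟨a, b, ha, hb, hqa, hqb, h1, h2, h3, h4, h5, h6⟩ := oct hQ hfin hirr hsp ho
  have e1 := link o a ho ha hqa h1 h2
  have e2 := link o b ho hb hqb h3 h4
  have e3 := link a b ha hb (hqb.trans hqa.symm) h5 h6
  have e4 := (Rel 0 K N).sub_mem ((Rel 0 K N).add_mem e1 e2) e3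
  have e5 : n • resK ι (pt x o + pt x a) + n • resK ι (pt x o + pt x b) -
      n • resK ι (pt x a + pt x b) = (n * 2) • resK ι (pt x o) := by
    simp only [map_add, smul_add, mul_smul, two_smul]
    abel
  rw [e5, pt_phi hx, resK_single] at e4
  have e6 : (n * 2) • (Finsupp.single (φ.comp ι) (1 : ℤ) : (K →ₐ[ℂ] N) →₀ ℤ) =
      Finsupp.single (φ.comp ι) (n * 2) := by
    rw [Finsupp.smul_single, smul_eq_mul, mul_one]
  rw [e6] at e4
  exact pointsEquivalent_of_rel (φ.comp ι) (mul_ne_zero hn two_ne_zero) e4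

/-- Points that differ by an automorphism over the subfield have the same restriction. -/
theorem resK_pt_eq {Q : Web} {x : Fin 4 → K₁} (hx : IsFF Q x) (ι : K →ₐ[ℂ] K₁)
    (g : K₁ →ₐ[ℂ] K₁) (hg : g.comp ι = ι) {o o' : Fin 4 → N} (ho : GenW Q o)
    (h : ∀ φ : K₁ →ₐ[ℂ] N, (∀ j, φ (x j) = o j / o 0) → ∀ j, φ (g (x j)) = o' j / o' 0) :
    resK ι (pt x o') = resK ι (pt x o) := by
  obtain ⟨φ, hφ, hp⟩ := ho.exists_pt hx
  have h1 : pt x o' = Finsupp.single (φ.comp g) 1 := pt_eq hx fun j => h φ hφ j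
  rw [h1, hp, resK_single, resK_single, AlgHom.comp_assoc, hg]

end Vale.Agent.P297.C8
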