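import Vale.Agent.P297.H72.FamConst
import Vale.Agent.P297.H600.Big

/-!
The group of relations between `N`-valued points of a function field which hold for every proper
model, and its functoriality: maps of fields, specialisation.
-/

set_option linter.unusedSectionVars false
set_option linter.style.haveILetI false

open CategoryTheory AlgebraicGeometry IntermediateField Polynomial

namespace Vale.Agent.P297.H72

open Vale.Agent.P297 Vale.Agent.P297.H729

/-- The cycles of embeddings `K → N` whose specialisations on every proper model are constant,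
modulo every group of cycles that contains the relations and the differences of two points times
`m`. -/
def Rel (m : ℤ) (K N : Type) [Field K] [Algebra ℂ K] [Field N] [Algebra ℂ N] :
    AddSubgroup ((K →ₐ[ℂ] N) →₀ ℤ) where
  carrier := {v | ∀ (S : Scheme.{0}) (f : S ⟶ Spec (.of ℂ)) [IsProper f] (C : Type) [CommRing C]
    [Algebra ℂ C] [Algebra.FiniteType ℂ C] (j : Spec (.of C) ⟶ S)
    (hj : j ≫ f = Spec.map (CommRingCat.ofHom (algebraMap ℂ C))) (i : C →ₐ[ℂ] K)
    (R : AddSubgroup (ZeroCycle S)), Rat f ≤ R →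
    (∀ x y : closedPoints S, m • (Finsupp.single x (1 : ℤ) - Finsupp.single y 1) ∈ R) →
    Finsupp.mapDomain (fun φ : K →ₐ[ℂ] N => φ.comp i) v ∈ Good f j hj R N}
  zero_mem' := by
    intro S f _ C _ _ _ j hj i R _ _
    rw [Finsupp.mapDomain_zero]
    exact AddSubgroup.zero_mem _
  add_mem' := by
    intro v w hv hw S f _ C _ _ _ j hj i R hR hm
    rw [Finsupp.mapDomain_add]
    exact AddSubgroup.add_mem _ (hv S f C j hj i R hR hm) (hw S f C j hj i R hR hm)
  neg_mem' := by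
    intro v hv S f _ C _ _ _ j hj i R hR hm
    have h2 : Finsupp.mapDomain (fun φ : K →ₐ[ℂ] N => φ.comp i) =
        Finsupp.mapDomain.addMonoidHom (fun φ : K →ₐ[ℂ] N => φ.comp i) (M := ℤ) := rfl
    rw [h2, map_neg, ← h2]
    exact AddSubgroup.neg_mem _ (hv S f C j hj i R hR hm)

section

variable {K N N' : Type} [Field K] [Algebra ℂ K] [Field N] [Algebra ℂ N] [Field N'] [Algebra ℂ N']
  {m : ℤ}

theorem mem_Rel {v : (K →ₐ[ℂ] N) →₀ ℤ} : v ∈ Rel m K N ↔
    ∀ (S : Scheme.{0}) (f : S ⟶ Spec (.of ℂ)) [IsProper f] (C : Type) [CommRing C]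
    [Algebra ℂ C] [Algebra.FiniteType ℂ C] (j : Spec (.of C) ⟶ S)
    (hj : j ≫ f = Spec.map (CommRingCat.ofHom (algebraMap ℂ C))) (i : C →ₐ[ℂ] K)
    (R : AddSubgroup (ZeroCycle S)), Rat f ≤ R →
    (∀ x y : closedPoints S, m • (Finsupp.single x (1 : ℤ) - Finsupp.single y 1) ∈ R) →
    Finsupp.mapDomain (fun φ : K →ₐ[ℂ] N => φ.comp i) v ∈ Good f j hj R N := Iff.rfl

/-- Stable relations are relations. -/
theorem Rel.of_stable [IsAlgClosed N] {v : (K →ₐ[ℂ] N) →₀ ℤ} (hv : v ∈ stableRelations K N) :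
    v ∈ Rel m K N := by
  intro S f _ C _ _ _ j hj i R hR _
  exact Good.mono hR (good_of_stable hv i)

/-- Relations in the Chow group are relations modulo `m`. -/
theorem Rel.of_zero {v : (K →ₐ[ℂ] N) →₀ ℤ} (hv : v ∈ Rel 0 K N) : v ∈ Rel m K N := by
  intro S f _ C _ _ _ j hj i R hR _
  exact hv S f C j hj i R hR (fun x y => by rw [zero_smul]; exact R.zero_mem)

/-- Extension of the field of values. -/
theorem Rel.map (μ : N →ₐ[ℂ] N') {v : (K →ₐ[ℂ] N) →₀ ℤ} (hv : v ∈ Rel m K N) :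
    Finsupp.mapDomain (fun φ : K →ₐ[ℂ] N => μ.comp φ) v ∈ Rel m K N' := by
  intro S f _ C _ _ _ j hj i R hR hm
  have h1 := Good.map μ (hv S f C j hj i R hR hm)
  rw [← Finsupp.mapDomain_comp] at h1 ⊢
  exact h1

/-- Composition with an embedding of function fields. -/
theorem Rel.precomp {K' : Type} [Field K'] [Algebra ℂ K'] (μ : K' →ₐ[ℂ] K)
    {v : (K →ₐ[ℂ] N) →₀ ℤ} (hv : v ∈ Rel m K N) :
    Finsupp.mapDomain (fun φ : K →ₐ[ℂ] N => φ.comp μ) v ∈ Rel m K' N := by
  intro S f _ C _ _ _ j hj i R hR hm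
  have h1 := hv S f C j hj (μ.comp i) R hR hm
  rw [← Finsupp.mapDomain_comp]
  exact h1

open Classical in
/-- `m` times any cycle. -/
theorem Rel.smul_mem (v : (K →ₐ[ℂ] N) →₀ ℤ) : m • v ∈ Rel m K N := by
  induction v using Finsupp.induction_linear with
  | zero =>
    rw [smul_zero]
    exact AddSubgroup.zero_mem _
  | add v w hv hw =>
    rw [smul_add]
    exact AddSubgroup.add_mem _ hv hw
  | single φ n =>
    intro S f _ C _ _ _ j hj i R hR hm
    rw [Finsupp.smul_single, Finsupp.mapDomain_single]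
    refine ⟨(φ.comp i).range, ?_, fun B hB ξ₁ ξ₂ => ?_⟩
    · rw [← Algebra.map_top]
      exact (Algebra.FiniteType.out).map _
    · have hc : ∀ c, (φ.comp i) c ∈ B := fun c => hB ⟨c, rfl⟩
      rw [pair_single, pair_single, cyc_of_mem f _ _ B ξ₁ (φ.comp i) hc,
        cyc_of_mem f _ _ B ξ₂ (φ.comp i) hc, ← smul_sub, smul_eq_mul, mul_comm, mul_smul]
      exact R.zsmul_mem (hm _ _) n

/-- **Specialisation.** -/
theorem Rel.specialize (O : Subalgebra ℂ N) (p : O →ₐ[ℂ] N') {ι : Type} [Fintype ι] (n : ι → ℤ)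
    (φ : ι → (K →ₐ[ℂ] O))
    (h : ∑ k, Finsupp.single (O.val.comp (φ k)) (n k) ∈ Rel m K N) :
    ∑ k, Finsupp.single (p.comp (φ k)) (n k) ∈ Rel m K N' := by
  classical
  intro S f _ C _ _ _ j hj i R hR hm
  have h1 := h S f C j hj i R hR hm
  rw [Finsupp.mapDomain_finsetSum] at h1 ⊢
  simp only [Finsupp.mapDomain_single] at h1 ⊢
  obtain ⟨A₀, hA₀, h2⟩ := h1
  obtain ⟨s, hs⟩ := (inferInstance : Algebra.FiniteType ℂ C).out
  let D : Subalgebra ℂ O := Algebra.adjoin ℂ (⋃ k, (fun c => φ k (i c)) '' (s : Set C))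
  have hDfg : D.FG := by
    have hfin : (⋃ k, (fun c => φ k (i c)) '' (s : Set C)).Finite :=
      Set.finite_iUnion fun k => s.finite_toSet.image _
    exact ⟨hfin.toFinset, by simp only [Set.Finite.coe_toFinset]; rfl⟩
  haveI : Algebra.FiniteType ℂ D := (Subalgebra.fg_iff_finiteType D).1 hDfg
  have hmem : ∀ k c, ((φ k).comp i) c ∈ D := by
    intro k c
    have hc : c ∈ Algebra.adjoin ℂ (s : Set C) := by rw [hs]; trivial
    have h3 : ((φ k).comp i) c ∈ (Algebra.adjoin ℂ (s : Set C)).map ((φ k).comp i) := ⟨c, hc, rfl⟩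
    rw [AlgHom.map_adjoin] at h3
    refine Algebra.adjoin_mono ?_ h3
    exact Set.subset_iUnion (fun k => (fun c => φ k (i c)) '' (s : Set C)) k
  let θ : ι → (C →ₐ[ℂ] D) := fun k => ((φ k).comp i).codRestrict D (hmem k)
  let ιD : D →ₐ[ℂ] N := O.val.comp D.val
  have hιD : Function.Injective ιD := fun x y hxy => Subtype.ext (Subtype.ext hxy)
  let B : Subalgebra ℂ N := A₀ ⊔ ιD.range
  have hBfg : B.FG := by
    apply hA₀.sup
    rw [← Algebra.map_top]
    exact (Algebra.FiniteType.out).map ιD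
  have hBD : ∀ d, ιD d ∈ B := fun d => (le_sup_right : ιD.range ≤ B) ⟨d, rfl⟩
  obtain ⟨b, hb, hext⟩ := Gen.exists_extend_gen ιD hιD B hBfg hBD
  have hθ : ∀ k c, ((O.val.comp (φ k)).comp i) c = ιD (θ k c) := fun k c => rfl
  have hpair : ∀ (ψ : D →ₐ[ℂ] ℂ) (ξ : B →ₐ[ℂ] ℂ), (∀ d, ξ ⟨ιD d, hBD d⟩ = ψ d) →
      pair f j hj B ξ (∑ k, Finsupp.single ((O.val.comp (φ k)).comp i) (n k)) =
        famCyc f j hj n θ ψ := by
    intro ψ ξ hξ
    rw [map_sum]
    unfold famCyc
    refine Finset.sum_congr rfl fun k _ => ?_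
    have hc : ∀ c, ((O.val.comp (φ k)).comp i) c ∈ B := fun c => by
      rw [hθ]
      exact hBD _
    rw [pair_single, cyc_of_mem f _ _ B ξ _ hc]
    congr 3
    apply AlgHom.ext
    intro c
    exact hξ (θ k c)
  have hconst := famCyc_const f j hj n θ R hR b hb (by
    intro ψ₁ ψ₂ h1 h2'
    obtain ⟨ξ₁, hξ₁⟩ := hext ψ₁ h1
    obtain ⟨ξ₂, hξ₂⟩ := hext ψ₂ h2'
    rw [← hpair ψ₁ ξ₁ hξ₁, ← hpair ψ₂ ξ₂ hξ₂]
    exact h2 B le_sup_left ξ₁ ξ₂)
  let pD : D →ₐ[ℂ] N' := p.comp D.val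
  refine ⟨pD.range, ?_, fun B' hB' ξ₁ ξ₂ => ?_⟩
  · rw [← Algebra.map_top]
    exact (Algebra.FiniteType.out).map pD
  have hpB : ∀ d, pD d ∈ B' := fun d => hB' ⟨d, rfl⟩
  have hpair' : ∀ (ξ : B' →ₐ[ℂ] ℂ),
      pair f j hj B' ξ (∑ k, Finsupp.single ((p.comp (φ k)).comp i) (n k)) =
        famCyc f j hj n θ (ξ.comp (pD.codRestrict B' hpB)) := by
    intro ξ
    rw [map_sum]
    unfold famCyc
    refine Finset.sum_congr rfl fun k _ => ?_
    have hθ' : ∀ c, ((p.comp (φ k)).comp i) c = pD (θ k c) := fun c => rfl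
    have hc : ∀ c, ((p.comp (φ k)).comp i) c ∈ B' := fun c => by
      rw [hθ']
      exact hpB _
    rw [pair_single, cyc_of_mem f _ _ B' ξ _ hc]
    rfl
  rw [hpair', hpair']
  exact hconst _ _

/-- **Criterion.** -/
theorem Rel.criterion (φ : K →ₐ[ℂ] N) (n : ℤ) (hn : Finsupp.single φ n ∈ Rel m K N)
    {S : Scheme.{0}} [IsIntegral S] (f : S ⟶ Spec (.of ℂ)) [IsProper f]
    (hS : IsFunctionFieldOf f K) (R : AddSubgroup (ZeroCycle S)) (hR : Rat f ≤ R)
    (hm : ∀ x y : closedPoints S, m • (Finsupp.single x (1 : ℤ) - Finsupp.single y 1) ∈ R)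
    (x y : ClosedPt S) : n • (Finsupp.single x (1 : ℤ) - Finsupp.single y 1) ∈ R := by
  obtain ⟨U, hU, hne, hi⟩ := exists_chart f hS
  letI := chartAlg f hU
  haveI := chart_finiteType f hU
  obtain ⟨i, hi, hfrac⟩ := hi
  have hφ : Function.Injective φ := φ.toRingHom.injective
  refine Gen.global_of_good' f hU n R hR (φ.comp i) (hφ.comp hi) ?_ x y
  have h1 := hn S f Γ(S, U) hU.fromSpec (chart_hj f hU) i R hR hm
  rw [Finsupp.mapDomain_single] at h1
  exact h1

/-- **Criterion** for the Chow group. -/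
theorem Rel.criterion_zero (φ : K →ₐ[ℂ] N) (n : ℤ) (hn : Finsupp.single φ n ∈ Rel 0 K N)
    {S : Scheme.{0}} [IsIntegral S] (f : S ⟶ Spec (.of ℂ)) [IsProper f]
    (hS : IsFunctionFieldOf f K) (x y : ClosedPt S) :
    n • (Finsupp.single x (1 : ℤ) - Finsupp.single y 1) ∈ Rat f :=
  Rel.criterion φ n hn f hS (Rat f) le_rfl
    (fun _ _ => by rw [zero_smul]; exact (Rat f).zero_mem) x y

end

end Vale.Agent.P297.H72
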