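import Vale.Agent.P297.H72.Rel
import Mathlib.RingTheory.Valuation.LocalSubring

/-!
Places of `N(t)`-algebraic fields over `t = a`, and specialisation of relations along them.
-/

set_option linter.unusedSectionVars false
set_option linter.style.haveILetI false

open IntermediateField Polynomial

namespace Vale.Agent.P297.H72

/-- An `N`-place of `N₁` with values in `N`. -/
structure Plc (N N₁ : Type) [Field N] [Field N₁] [Algebra N N₁] where
  /-- the valuation ring -/
  V : ValuationSubring N₁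
  /-- the place -/
  p : V →+* N
  mem : ∀ a, algebraMap N N₁ a ∈ V
  const : ∀ a, p ⟨algebraMap N N₁ a, mem a⟩ = a
  inv : ∀ x : V, p x ≠ 0 → (x : N₁)⁻¹ ∈ V

/-- Extension of a specialisation to a valuation ring. -/
theorem exists_valuation_of_ker {K R k : Type} [Field K] [CommRing R] [Field k] (Φ : R →+* K)
    (Ψ : R →+* k) (h : ∀ a, Φ a = 0 → Ψ a = 0) :
    ∃ V : ValuationSubring K, (∀ a, Φ a ∈ V) ∧ ∀ a, Ψ a = 0 → Φ a ∈ V.nonunits := by
  have hI : Ideal.map Φ.rangeRestrict (RingHom.ker Ψ) ≠ ⊤ := by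
    intro htop
    have h1 : (1 : Φ.range) ∈ Ideal.map Φ.rangeRestrict (RingHom.ker Ψ) := by
      rw [htop]; trivial
    obtain ⟨a, ha, ha1⟩ := (Ideal.mem_map_iff_of_surjective _ Φ.rangeRestrict_surjective).1 h1
    have h2 : Φ (a - 1) = 0 := by
      have h3 : Φ a = 1 := congrArg Subtype.val ha1
      rw [map_sub, h3, map_one, sub_self]
    have h3 := h _ h2
    rw [map_sub, map_one, (RingHom.mem_ker).1 ha, zero_sub, neg_eq_zero] at h3
    exact one_ne_zero h3
  obtain ⟨V, hV, hV2⟩ := Ideal.image_subset_nonunits_valuationSubring _ hI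
  refine ⟨V, fun a => hV ⟨a, rfl⟩, fun a ha => hV2 ?_⟩
  exact ⟨Φ.rangeRestrict a, Ideal.mem_map_of_mem _ ((RingHom.mem_ker).2 ha), rfl⟩

/-- A primitive equation. -/
theorem exists_primitive {N N₁ : Type} [Field N] [Field N₁] [Algebra N N₁] {t : N₁}
    (ht : Transcendental N t) {x : N₁} (hx : IsAlgebraic (Algebra.adjoin N {t}) x) :
    ∃ F : N[X][X], F.IsPrimitive ∧ F.eval₂ (aeval t : N[X] →ₐ[N] N₁).toRingHom x = 0 := by
  classical
  have hinj : Function.Injective (aeval t : N[X] →ₐ[N] N₁) := transcendental_iff_injective.1 ht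
  obtain ⟨q, hq0, hq⟩ := hx
  have hlift : q.map (algebraMap (Algebra.adjoin N {t}) N₁) ∈
      Polynomial.lifts (aeval t : N[X] →ₐ[N] N₁).toRingHom := by
    rw [Polynomial.lifts_iff_coeff_lifts]
    intro n
    rw [coeff_map]
    obtain ⟨r, hr⟩ := (Algebra.adjoin_singleton_eq_range_aeval N t).le (q.coeff n).2
    exact ⟨r, hr⟩
  obtain ⟨G, hG⟩ := (Polynomial.mem_lifts _).1 hlift
  have hG0 : G ≠ 0 := by
    rintro rfl
    rw [Polynomial.map_zero] at hG
    apply hq0
    apply Polynomial.map_injective _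
      (FaithfulSMul.algebraMap_injective (Algebra.adjoin N {t}) N₁)
    rw [← hG, Polynomial.map_zero]
  have hGx : G.eval₂ (aeval t : N[X] →ₐ[N] N₁).toRingHom x = 0 := by
    rw [← Polynomial.eval_map, hG, Polynomial.eval_map]
    exact hq
  letI : NormalizedGCDMonoid N[X] := UniqueFactorizationMonoid.toNormalizedGCDMonoid N[X]
  refine ⟨G.primPart, G.isPrimitive_primPart, ?_⟩
  have h2 := G.eq_C_content_mul_primPart
  rw [h2, Polynomial.eval₂_mul, Polynomial.eval₂_C] at hGx
  refine (mul_eq_zero.1 hGx).resolve_left ?_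
  intro h0
  have h3 : G.content = 0 := hinj (by rw [map_zero]; exact h0)
  exact hG0 (Polynomial.content_eq_zero_iff.1 h3)

/-- **Existence of places.** -/
theorem exists_plc {N N₁ : Type} [Field N] [IsAlgClosed N] [Field N₁] [Algebra N N₁] {t : N₁}
    (ht : Transcendental N t) (halg : ∀ x : N₁, IsAlgebraic (Algebra.adjoin N {t}) x) (a : N) :
    ∃ P : Plc N N₁, ∃ h : t ∈ P.V, P.p ⟨t, h⟩ = a := by
  classical
  obtain ⟨V, hV, hV0⟩ := exists_valuation_of_ker (aeval t : N[X] →ₐ[N] N₁).toRingHom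
    (evalRingHom a) (by
      intro q hq
      have h1 : q = 0 := transcendental_iff_injective.1 ht (by rw [map_zero]; exact hq)
      rw [h1, map_zero])
  have hc : ∀ b, algebraMap N N₁ b ∈ V := by
    intro b
    have h1 := hV (C b)
    have h2 : (aeval t : N[X] →ₐ[N] N₁).toRingHom (C b) = algebraMap N N₁ b := aeval_C t b
    rwa [h2] at h1
  have ht' : t ∈ V := by
    have h1 := hV X
    have h2 : (aeval t : N[X] →ₐ[N] N₁).toRingHom X = t := aeval_X t
    rwa [h2] at h1
  let k := IsLocalRing.ResidueField V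
  let c : N →+* V := (algebraMap N N₁).codRestrict V hc
  let res : V →+* k := IsLocalRing.residue V
  let e : N →+* k := res.comp c
  have hta : res ⟨t, ht'⟩ = e a := by
    have h1 := hV0 (X - C a) (by simp)
    have h2 : (aeval t : N[X] →ₐ[N] N₁).toRingHom (X - C a) = t - algebraMap N N₁ a := by
      rw [map_sub]
      congr 1
      · exact aeval_X t
      · exact aeval_C t a
    rw [h2, V.mem_nonunits_iff_exists_mem_maximalIdeal] at h1
    obtain ⟨h3, h4⟩ := h1
    have h5 : res (⟨t, ht'⟩ - c a) = 0 := by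
      rw [IsLocalRing.residue_eq_zero_iff]
      exact h4
    rw [map_sub, sub_eq_zero] at h5
    exact h5
  have hsurj : Function.Surjective e := by
    intro z
    obtain ⟨x, rfl⟩ := IsLocalRing.residue_surjective z
    obtain ⟨F, hF, hFx⟩ := exists_primitive ht (halg (x : N₁))
    have hF0 : F.map (evalRingHom a) ≠ 0 := by
      intro h0
      have h1 : C (X - C a) ∣ F := by
        rw [Polynomial.C_dvd_iff_dvd_coeff]
        intro i
        rw [Polynomial.dvd_iff_isRoot]
        have h2 := congrArg (fun q => q.coeff i) h0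
        simp only [coeff_map, coeff_zero] at h2
        exact h2
      exact Polynomial.not_isUnit_X_sub_C a (hF _ h1)
    -- the equation in `V`
    let Φ : N[X] →+* V := (aeval t : N[X] →ₐ[N] N₁).toRingHom.codRestrict V hV
    have h3 : F.eval₂ Φ x = 0 := by
      apply Subtype.ext
      have h4 := Polynomial.hom_eval₂ F Φ V.subtype x
      have h5 : V.subtype.comp Φ = (aeval t : N[X] →ₐ[N] N₁).toRingHom := rfl
      rw [h5] at h4
      rw [show ((F.eval₂ Φ x : V) : N₁) = V.subtype (F.eval₂ Φ x) from rfl, h4]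
      exact hFx
    have h6 : res.comp Φ = e.comp (evalRingHom a) := by
      apply Polynomial.ringHom_ext
      · intro b
        change res (Φ (C b)) = e (eval a (C b))
        rw [eval_C]
        change res (Φ (C b)) = res (c b)
        congr 1
        exact Subtype.ext (aeval_C t b)
      · change res (Φ X) = e (eval a X)
        rw [eval_X, ← hta]
        congr 1
        exact Subtype.ext (aeval_X t)
    have h7 : (F.map (evalRingHom a)).eval₂ e (res x) = 0 := by
      rw [Polynomial.eval₂_map, ← h6, ← Polynomial.hom_eval₂, h3, map_zero]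
    have h8 := IsAlgClosed.splits (F.map (evalRingHom a))
    have h9 := h8.eq_prod_roots
    rw [h9, Polynomial.eval₂_mul, Polynomial.eval₂_C, Polynomial.eval₂_multiset_prod,
      mul_eq_zero] at h7
    rcases h7 with h7 | h7
    · exfalso
      rw [map_eq_zero, leadingCoeff_eq_zero] at h7
      exact hF0 h7
    · rw [Multiset.prod_eq_zero_iff, Multiset.mem_map] at h7
      obtain ⟨r, hr, hr0⟩ := h7
      rw [Multiset.mem_map] at hr
      obtain ⟨b, -, rfl⟩ := hr
      rw [Polynomial.eval₂_sub, Polynomial.eval₂_X, Polynomial.eval₂_C, sub_eq_zero] at hr0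
      exact ⟨b, hr0.symm⟩
  let E : N ≃+* k := RingEquiv.ofBijective e ⟨e.injective, hsurj⟩
  refine ⟨{ V := V, p := E.symm.toRingHom.comp res, mem := hc, const := ?_, inv := ?_ }, ht', ?_⟩
  · intro b
    change E.symm (e b) = b
    exact E.symm_apply_apply b
  · intro x hx
    have h1 : res x ≠ 0 := by
      intro h0
      apply hx
      change E.symm (res x) = 0
      rw [h0, map_zero]
    rw [Ne, IsLocalRing.residue_eq_zero_iff, IsLocalRing.mem_maximalIdeal, mem_nonunits_iff,
      not_not] at h1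
    obtain ⟨u, hu⟩ := h1
    have h2 : (x : N₁) * ((u⁻¹ : Vˣ) : V) = 1 := by
      rw [← hu]
      have h3 := congrArg (Subtype.val) (u.mul_inv)
      exact h3
    rw [← eq_inv_of_mul_eq_one_right h2]
    exact ((u⁻¹ : Vˣ) : V).2
  · change E.symm (res ⟨t, ht'⟩) = a
    rw [hta]
    exact E.symm_apply_apply a

namespace Plc

variable {N N₁ : Type} [Field N] [Field N₁] [Algebra N N₁] (P : Plc N N₁)

/-- `x` is finite at the place with value `a` -/
def Val (x : N₁) (a : N) : Prop := ∃ h : x ∈ P.V, P.p ⟨x, h⟩ = a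

theorem Val.mem {P : Plc N N₁} {x : N₁} {a : N} (h : P.Val x a) : x ∈ P.V := h.1

theorem val_const (a : N) : P.Val (algebraMap N N₁ a) a := ⟨P.mem a, P.const a⟩

theorem val_zero : P.Val 0 0 := ⟨P.V.zero_mem, map_zero P.p⟩

theorem val_one : P.Val 1 1 := ⟨P.V.one_mem, map_one P.p⟩

theorem Val.add {P : Plc N N₁} {x y : N₁} {a b : N} (hx : P.Val x a) (hy : P.Val y b) :
    P.Val (x + y) (a + b) := by
  obtain ⟨h1, rfl⟩ := hx
  obtain ⟨h2, rfl⟩ := hy
  exact ⟨P.V.add_mem _ _ h1 h2, map_add P.p ⟨x, h1⟩ ⟨y, h2⟩⟩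

theorem Val.mul {P : Plc N N₁} {x y : N₁} {a b : N} (hx : P.Val x a) (hy : P.Val y b) :
    P.Val (x * y) (a * b) := by
  obtain ⟨h1, rfl⟩ := hx
  obtain ⟨h2, rfl⟩ := hy
  exact ⟨P.V.mul_mem _ _ h1 h2, map_mul P.p ⟨x, h1⟩ ⟨y, h2⟩⟩

theorem Val.neg {P : Plc N N₁} {x : N₁} {a : N} (hx : P.Val x a) : P.Val (-x) (-a) := by
  obtain ⟨h1, rfl⟩ := hx
  exact ⟨P.V.neg_mem _ h1, map_neg P.p ⟨x, h1⟩⟩

theorem Val.sub {P : Plc N N₁} {x y : N₁} {a b : N} (hx : P.Val x a) (hy : P.Val y b) :
    P.Val (x - y) (a - b) := by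
  rw [sub_eq_add_neg, sub_eq_add_neg]
  exact hx.add hy.neg

theorem Val.inv {P : Plc N N₁} {x : N₁} {a : N} (hx : P.Val x a) (ha : a ≠ 0) :
    P.Val x⁻¹ a⁻¹ := by
  obtain ⟨h1, rfl⟩ := hx
  have h2 := P.inv ⟨x, h1⟩ ha
  refine ⟨h2, ?_⟩
  have hx0 : x ≠ 0 := by
    rintro rfl
    exact ha (map_zero P.p)
  apply eq_inv_of_mul_eq_one_left
  rw [← map_mul, ← map_one P.p]
  congr 1
  exact Subtype.ext (inv_mul_cancel₀ hx0)

theorem Val.div {P : Plc N N₁} {x y : N₁} {a b : N} (hx : P.Val x a) (hy : P.Val y b)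
    (hb : b ≠ 0) : P.Val (x / y) (a / b) := by
  rw [div_eq_mul_inv, div_eq_mul_inv]
  exact hx.mul (hy.inv hb)

theorem Val.pow {P : Plc N N₁} {x : N₁} {a : N} (hx : P.Val x a) (n : ℕ) :
    P.Val (x ^ n) (a ^ n) := by
  obtain ⟨h1, rfl⟩ := hx
  exact ⟨P.V.pow_mem h1 n, map_pow P.p ⟨x, h1⟩ n⟩

theorem Val.unique {P : Plc N N₁} {x : N₁} {a b : N} (h : P.Val x a) (h' : P.Val x b) :
    a = b := by
  obtain ⟨h1, rfl⟩ := h
  obtain ⟨h2, rfl⟩ := h'
  rfl

theorem Val.sum {P : Plc N N₁} {ι : Type} (s : Finset ι) {x : ι → N₁} {a : ι → N}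
    (h : ∀ i ∈ s, P.Val (x i) (a i)) : P.Val (∑ i ∈ s, x i) (∑ i ∈ s, a i) := by
  classical
  induction s using Finset.induction_on with
  | empty => exact P.val_zero
  | insert i s hi ih =>
    rw [Finset.sum_insert hi, Finset.sum_insert hi]
    exact (h i (Finset.mem_insert_self _ _)).add
      (ih fun k hk => h k (Finset.mem_insert_of_mem hk))

theorem Val.prod {P : Plc N N₁} {ι : Type} (s : Finset ι) {x : ι → N₁} {a : ι → N}
    (h : ∀ i ∈ s, P.Val (x i) (a i)) : P.Val (∏ i ∈ s, x i) (∏ i ∈ s, a i) := by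
  classical
  induction s using Finset.induction_on with
  | empty => exact P.val_one
  | insert i s hi ih =>
    rw [Finset.prod_insert hi, Finset.prod_insert hi]
    exact (h i (Finset.mem_insert_self _ _)).mul
      (ih fun k hk => h k (Finset.mem_insert_of_mem hk))

/-- Values are not zero when they are not zero at the place. -/
theorem Val.ne_zero {P : Plc N N₁} {x : N₁} {a : N} (h : P.Val x a) (ha : a ≠ 0) : x ≠ 0 := by
  rintro rfl
  exact ha (h.unique P.val_zero)

/-- Either `x` is finite, or its inverse has value zero. -/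
theorem val_or (x : N₁) : (∃ a, P.Val x a) ∨ P.Val x⁻¹ 0 := by
  rcases P.V.mem_or_inv_mem x with h | h
  · exact Or.inl ⟨_, h, rfl⟩
  · by_cases h0 : P.p ⟨x⁻¹, h⟩ = 0
    · exact Or.inr ⟨h, h0⟩
    · left
      have h1 := P.inv ⟨x⁻¹, h⟩ h0
      rw [inv_inv] at h1
      exact ⟨_, h1, rfl⟩

/-- The value of a polynomial whose coefficients are finite. -/
theorem val_eval₂ {R : Type} [CommRing R] (Φ : R →+* N₁) (Ψ : R →+* N)
    (h : ∀ r, P.Val (Φ r) (Ψ r)) (F : R[X]) {x : N₁} {a : N} (hx : P.Val x a) :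
    P.Val (F.eval₂ Φ x) (F.eval₂ Ψ a) := by
  rw [Polynomial.eval₂_eq_sum_range, Polynomial.eval₂_eq_sum_range]
  exact Val.sum _ fun i _ => (h _).mul (hx.pow i)

/-- The roots of a polynomial whose leading coefficient is a unit at the place are finite. -/
theorem finite_of_root {R : Type} [CommRing R] (Φ : R →+* N₁) (Ψ : R →+* N)
    (h : ∀ r, P.Val (Φ r) (Ψ r)) (F : R[X]) (hF : Ψ F.leadingCoeff ≠ 0) {x : N₁}
    (hx : F.eval₂ Φ x = 0) : ∃ a, P.Val x a := by
  by_cases hx0 : x = 0
  · exact ⟨0, by rw [hx0]; exact P.val_zero⟩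
  rcases P.val_or x with h1 | h1
  · exact h1
  · exfalso
    have h2 : F.reverse.eval₂ Φ x⁻¹ = 0 := by
      letI := invertibleOfNonzero hx0
      have h5 := (Polynomial.eval₂_reverse_eq_zero_iff Φ x F).2 hx
      rwa [invOf_eq_inv] at h5
    have h3 := P.val_eval₂ Φ Ψ h F.reverse h1
    rw [h2] at h3
    have h4 : F.reverse.eval₂ Ψ 0 = Ψ F.leadingCoeff := by
      rw [Polynomial.eval₂_at_zero, Polynomial.coeff_zero_reverse]
    rw [h4] at h3
    exact hF (h3.unique P.val_zero)

/-- **Lifting of roots.** A root of the reduction, which is not zero, lifts to a root. -/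
theorem exists_root [IsAlgClosed N₁] {R : Type} [CommRing R] (Φ : R →+* N₁) (Ψ : R →+* N)
    (h : ∀ r, P.Val (Φ r) (Ψ r)) (F : R[X]) (hF : F.map Ψ ≠ 0) {a : N}
    (ha : F.eval₂ Ψ a = 0) : ∃ x, P.Val x a ∧ F.eval₂ Φ x = 0 := by
  classical
  by_contra hcon
  push Not at hcon
  -- the translated polynomial
  obtain ⟨b, hb⟩ : ∃ b, b = algebraMap N N₁ a := ⟨_, rfl⟩
  have hbV : P.Val b a := by rw [hb]; exact P.val_const a
  let G : N₁[X] := (F.map Φ).comp (X + C b)
  let G' : N[X] := (F.map Ψ).comp (X + C a)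
  have hG' : G' ≠ 0 := by
    intro h0
    apply hF
    have h1 : G'.comp (X - C a) = F.map Ψ := by
      change ((F.map Ψ).comp (X + C a)).comp (X - C a) = F.map Ψ
      rw [Polynomial.comp_assoc]
      simp
    rw [← h1, h0, Polynomial.zero_comp]
  have hcoef : ∀ n, P.Val (G.coeff n) (G'.coeff n) := by
    intro n
    change P.Val (((F.map Φ).comp (X + C b)).coeff n) (((F.map Ψ).comp (X + C a)).coeff n)
    have e1 : (F.map Φ).comp (X + C b) =
        ∑ i ∈ Finset.range (F.natDegree + 1), C (Φ (F.coeff i)) * (X + C b) ^ i := by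
      rw [Polynomial.comp, Polynomial.eval₂_map, Polynomial.eval₂_eq_sum_range]
      rfl
    have e2 : (F.map Ψ).comp (X + C a) =
        ∑ i ∈ Finset.range (F.natDegree + 1), C (Ψ (F.coeff i)) * (X + C a) ^ i := by
      rw [Polynomial.comp, Polynomial.eval₂_map, Polynomial.eval₂_eq_sum_range]
      rfl
    rw [e1, e2, Polynomial.finsetSum_coeff, Polynomial.finsetSum_coeff]
    refine Val.sum _ fun i _ => ?_
    rw [Polynomial.coeff_C_mul, Polynomial.coeff_C_mul]
    refine (h _).mul ?_
    rw [Polynomial.coeff_X_add_C_pow, Polynomial.coeff_X_add_C_pow]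
    refine (hbV.pow _).mul ?_
    have h3 := P.val_const ((i.choose n : ℕ) : N)
    rwa [map_natCast] at h3
  -- the roots of `G` are the translated roots
  have hG0 : G ≠ 0 := by
    intro h0
    apply hG'
    ext n
    have h1 := hcoef n
    rw [h0, coeff_zero] at h1
    rw [coeff_zero]
    exact h1.unique P.val_zero
  have hroot : ∀ y, G.IsRoot y → P.Val y⁻¹ 0 ∨ ∃ c, P.Val y c ∧ c ≠ 0 := by
    intro y hy
    rcases P.val_or y with ⟨c, hc⟩ | h1
    · right
      refine ⟨c, hc, ?_⟩
      rintro rfl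
      have h2 : P.Val (y + b) a := by
        have h3 := hc.add hbV
        rwa [zero_add] at h3
      apply hcon _ h2
      have h4 : G.eval y = 0 := hy
      change ((F.map Φ).comp (X + C b)).eval y = 0 at h4
      rw [Polynomial.eval_comp, Polynomial.eval_map] at h4
      simpa using h4
    · exact Or.inl h1
  -- `G` is a multiple of a product of factors `1 - X / y`
  have hsplit := IsAlgClosed.splits G
  have hprod := hsplit.eq_prod_roots
  have hc0 : P.Val (G.coeff 0) 0 := by
    have h1 := hcoef 0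
    have h2 : G'.coeff 0 = 0 := by
      change ((F.map Ψ).comp (X + C a)).coeff 0 = 0
      rw [Polynomial.coeff_zero_eq_eval_zero, Polynomial.eval_comp, Polynomial.eval_map]
      simpa using ha
    rwa [h2] at h1
  have key : ∀ s : Multiset N₁, (∀ y ∈ s, G.IsRoot y) → ∃ H : N₁[X], (∀ n, ∃ c, P.Val (H.coeff n) c) ∧
      (s.map fun y => X - C y).prod = C ((s.map fun y => X - C y).prod.coeff 0) * H := by
    intro s
    induction s using Multiset.induction_on with
    | empty =>
      intro _
      refine ⟨1, fun n => ?_, ?_⟩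
      · rw [coeff_one]
        split_ifs
        · exact ⟨1, P.val_one⟩
        · exact ⟨0, P.val_zero⟩
      · simp
    | cons y s ih =>
      intro hs
      obtain ⟨H, hH, hHs⟩ := ih fun z hz => hs z (Multiset.mem_cons_of_mem hz)
      have hy := hroot y (hs y (Multiset.mem_cons_self _ _))
      have hy0 : y ≠ 0 := by
        rintro rfl
        rcases hy with h1 | ⟨c, hc, hc0⟩
        · -- `0` is a root with value `0`
          have h2 : P.Val (0 + b) a := by rw [zero_add]; exact hbV
          apply hcon _ h2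
          have h4 : G.eval 0 = 0 := hs 0 (Multiset.mem_cons_self _ _)
          change ((F.map Φ).comp (X + C b)).eval 0 = 0 at h4
          rw [Polynomial.eval_comp, Polynomial.eval_map] at h4
          simpa using h4
        · exact hc0 (hc.unique P.val_zero)
      have hyi : ∃ c, P.Val y⁻¹ c := by
        rcases hy with h1 | ⟨c, hc, hc0⟩
        · exact ⟨0, h1⟩
        · exact ⟨c⁻¹, hc.inv hc0⟩
      obtain ⟨c, hc⟩ := hyi
      refine ⟨(1 - C y⁻¹ * X) * H, ?_, ?_⟩
      · intro n
        rw [sub_mul, one_mul, coeff_sub, mul_assoc, coeff_C_mul]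
        obtain ⟨c1, hc1⟩ := hH n
        rcases n with _ | n
        · refine ⟨c1 - c * 0, hc1.sub (hc.mul ?_)⟩
          rw [mul_comm, coeff_mul_X_zero]
          exact P.val_zero
        · obtain ⟨c2, hc2⟩ := hH n
          refine ⟨c1 - c * c2, hc1.sub (hc.mul ?_)⟩
          rw [mul_comm, coeff_mul_X]
          exact hc2
      · rw [Multiset.map_cons, Multiset.prod_cons]
        have h5 : (X - C y : N₁[X]) = C (-y) * (1 - C y⁻¹ * X) := by
          rw [mul_sub, mul_one, ← mul_assoc, ← C_mul, neg_mul, mul_inv_cancel₀ hy0]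
          simp only [C_neg, C_1]
          ring
        have h6 : ((X - C y) * (s.map fun y => X - C y).prod : N₁[X]).coeff 0 =
            -y * ((s.map fun y => X - C y).prod : N₁[X]).coeff 0 := by
          rw [mul_coeff_zero]
          simp
        rw [h6, C_mul]
        conv_lhs => rw [h5, hHs]
        ring
  obtain ⟨H, hH, hHG⟩ := key G.roots fun y hy => (Polynomial.mem_roots hG0).1 hy
  have hGH : G = C (G.coeff 0) * H := by
    have h1 : G.coeff 0 = G.leadingCoeff * ((G.roots.map fun y => X - C y).prod : N₁[X]).coeff 0 := by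
      conv_lhs => rw [hprod]
      rw [coeff_C_mul]
    rw [h1, C_mul, mul_assoc, ← hHG]
    exact hprod
  apply hG'
  ext n
  rw [coeff_zero]
  obtain ⟨c, hc⟩ := hH n
  have h1 := hcoef n
  rw [hGH, coeff_C_mul] at h1
  have h2 := h1.unique (hc0.mul hc)
  rw [h2, zero_mul]

end Plc

section

variable {K N N₁ : Type} [Field K] [Algebra ℂ K] [Field N] [Algebra ℂ N] [Field N₁] [Algebra ℂ N₁]
  [Algebra N N₁] [IsScalarTower ℂ N N₁] (P : Plc N N₁)

/-- An embedding with finite values on generators. -/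
theorem Plc.val_of_gens {φ : K →ₐ[ℂ] N₁} {φ₀ : K →ₐ[ℂ] N} {s : Set K}
    (hs : IntermediateField.adjoin ℂ s = ⊤) (h : ∀ x ∈ s, P.Val (φ x) (φ₀ x)) (x : K) :
    P.Val (φ x) (φ₀ x) := by
  have hx : x ∈ IntermediateField.adjoin ℂ s := by rw [hs]; trivial
  induction hx using IntermediateField.adjoin_induction with
  | mem x hx => exact h x hx
  | algebraMap r =>
    rw [φ.commutes, φ₀.commutes, IsScalarTower.algebraMap_apply ℂ N N₁]
    exact P.val_const _
  | add x y _ _ h1 h2 => rw [map_add, map_add]; exact h1.add h2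
  | mul x y _ _ h1 h2 => rw [map_mul, map_mul]; exact h1.mul h2
  | inv x _ h1 =>
    rw [map_inv₀, map_inv₀]
    by_cases hx0 : x = 0
    · rw [hx0, map_zero, map_zero, inv_zero, inv_zero]
      exact P.val_zero
    · exact h1.inv ((map_ne_zero φ₀).2 hx0)

/-- **Specialisation of relations along a place.** -/
theorem Rel.of_plc {m : ℤ} {ι : Type} [Fintype ι] (n : ι → ℤ) (φ : ι → (K →ₐ[ℂ] N₁))
    (φ₀ : ι → (K →ₐ[ℂ] N)) {s : Set K} (hs : IntermediateField.adjoin ℂ s = ⊤)
    (h : ∀ k, ∀ x ∈ s, P.Val (φ k x) (φ₀ k x))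
    (hrel : ∑ k, Finsupp.single (φ k) (n k) ∈ Rel m K N₁) :
    ∑ k, Finsupp.single (φ₀ k) (n k) ∈ Rel m K N := by
  have hall := fun k => P.val_of_gens hs (h k)
  have hC : ∀ r : ℂ, algebraMap ℂ N₁ r ∈ P.V := fun r => by
    rw [IsScalarTower.algebraMap_apply ℂ N N₁]
    exact P.mem _
  let O : Subalgebra ℂ N₁ := { P.V.toSubring with algebraMap_mem' := hC }
  let p : O →ₐ[ℂ] N :=
    { (P.p : P.V →+* N) with
      commutes' := by
        intro r
        change P.p ⟨algebraMap ℂ N₁ r, hC r⟩ = algebraMap ℂ N r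
        have h1 := P.const (algebraMap ℂ N r)
        rw [← h1]
        congr 1
        exact Subtype.ext (IsScalarTower.algebraMap_apply ℂ N N₁ r) }
  let ψ : ι → (K →ₐ[ℂ] O) := fun k => (φ k).codRestrict O (fun x => (hall k x).mem)
  have h1 : ∀ k, O.val.comp (ψ k) = φ k := fun k => AlgHom.ext fun _ => rfl
  have h2 : ∀ k, p.comp (ψ k) = φ₀ k := fun k => AlgHom.ext fun x => (hall k x).2
  have h3 := Rel.specialize (m := m) O p n ψ (by simp only [h1]; exact hrel)
  simp only [h2] at h3
  exact h3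

end

end Vale.Agent.P297.H72

namespace Vale.Agent.P297.H72

/-- The algebraic closure of the field of rational functions in one variable. -/
abbrev EpsField (N : Type) [Field N] : Type := AlgebraicClosure (RatFunc N)

section

variable (N : Type) [Field N]

/-- the variable -/
noncomputable def epsVar : EpsField N := algebraMap (RatFunc N) (EpsField N) RatFunc.X

theorem epsVar_transcendental : Transcendental N (epsVar N) := by
  unfold epsVar
  rw [transcendental_algebraMap_iff (FaithfulSMul.algebraMap_injective (RatFunc N) (EpsField N))]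
  exact RatFunc.transcendental_X

theorem eps_algebraic (x : EpsField N) : IsAlgebraic (Algebra.adjoin N {epsVar N}) x := by
  have h1 : IsAlgebraic (RatFunc N) x := Algebra.IsAlgebraic.isAlgebraic x
  have h2 : IsAlgebraic N[X] x := (IsFractionRing.isAlgebraic_iff N[X] (RatFunc N) _).2 h1
  obtain ⟨q, hq0, hq⟩ := h2
  have hX : ∀ r : N[X], algebraMap N[X] (EpsField N) r = aeval (epsVar N) r := by
    intro r
    have h3 : (IsScalarTower.toAlgHom N N[X] (EpsField N)) = aeval (epsVar N) := by
      apply Polynomial.algHom_ext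
      rw [aeval_X]
      unfold epsVar
      rw [← RatFunc.algebraMap_X, ← IsScalarTower.algebraMap_apply]
      rfl
    exact DFunLike.congr_fun h3 r
  have hmem : ∀ r : N[X], algebraMap N[X] (EpsField N) r ∈ Algebra.adjoin N {epsVar N} := by
    intro r
    rw [hX]
    exact aeval_mem_adjoin_singleton N _
  let c : N[X] →+* Algebra.adjoin N {epsVar N} :=
    (algebraMap N[X] (EpsField N)).codRestrict _ hmem
  refine ⟨q.map c, ?_, ?_⟩
  · intro h0
    apply hq0
    apply Polynomial.map_injective (algebraMap N[X] (EpsField N))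
      (by
        rw [IsScalarTower.algebraMap_eq N[X] (RatFunc N) (EpsField N)]
        exact (algebraMap (RatFunc N) (EpsField N)).injective.comp
          (IsFractionRing.injective N[X] (RatFunc N)))
    have h4 := congrArg (Polynomial.map (algebraMap (Algebra.adjoin N {epsVar N}) (EpsField N))) h0
    rw [Polynomial.map_map, Polynomial.map_zero] at h4
    rw [Polynomial.map_zero]
    exact h4
  · rw [Polynomial.aeval_def, Polynomial.eval₂_map]
    exact hq

/-- **The place over `t = a`** of the algebraic closure of `N(t)`. -/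
theorem exists_eps [IsAlgClosed N] (a : N) : ∃ P : Plc N (EpsField N), P.Val (epsVar N) a := by
  obtain ⟨P, h, h1⟩ := exists_plc (epsVar_transcendental N) (eps_algebraic N) a
  exact ⟨P, h, h1⟩

end

end Vale.Agent.P297.H72
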