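import Vale.Agent.P297.H72.Val

/-!
The involution `Z ↦ -Z` and places over a place of the quotient.
-/

set_option linter.unusedSectionVars false
set_option linter.style.haveILetI false

open CategoryTheory AlgebraicGeometry IntermediateField Polynomial

namespace Vale.Agent.P297.H72

open Vale.Agent.P297

section

variable {N : Type} [Field N] [Algebra ℂ N] {Ψ Δ : ℂ[X][X]} {v l Y Z : N}

/-- `τ` is the involution -/
structure IsInv (τ : N →ₐ[ℂ] N) (v l Y Z : N) : Prop where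
  v : τ v = v
  l : τ l = l
  Y : τ Y = Y
  Z : τ Z = -Z

theorem IsInv.ev {τ : N →ₐ[ℂ] N} (h : IsInv τ v l Y Z) (p : ℂ[X][X]) :
    τ (H72.ev v l p) = H72.ev v l p := by
  rw [map_ev, h.v, h.l]

theorem IsInv.mem {τ : N →ₐ[ℂ] N} (h : IsInv τ v l Y Z) (s : ℂ[X][X]) {b : N}
    (hb : b ∈ Bs s v l Y Z) : τ b ∈ Bs s v l Y Z := by
  have h1 : Bs s v l Y Z ≤ (Bs s v l Y Z).comap τ := by
    apply Bs_le
    · have h2 : τ v ∈ Bs s v l Y Z := by rw [h.v]; exact mem_v s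
      exact h2
    · have h2 : τ l ∈ Bs s v l Y Z := by rw [h.l]; exact mem_l s
      exact h2
    · have h2 : τ (H72.ev v l s)⁻¹ ∈ Bs s v l Y Z := by
        rw [map_inv₀, h.ev]; exact mem_inv s
      exact h2
    · have h2 : τ Y ∈ Bs s v l Y Z := by rw [h.Y]; exact mem_Y s
      exact h2
    · have h2 : τ Z ∈ Bs s v l Y Z := by rw [h.Z]; exact neg_mem (mem_Z s)
      exact h2
  exact h1 hb

/-- the involution on the ring -/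
noncomputable def tauB {τ : N →ₐ[ℂ] N} (h : IsInv τ v l Y Z) (s : ℂ[X][X]) :
    Bs s v l Y Z →ₐ[ℂ] Bs s v l Y Z :=
  (τ.comp (Bs s v l Y Z).val).codRestrict _ (fun b => h.mem s b.2)

theorem tauB_coe {τ : N →ₐ[ℂ] N} (h : IsInv τ v l Y Z) (s : ℂ[X][X]) (b : Bs s v l Y Z) :
    (tauB h s b : N) = τ b := rfl

theorem tauB_v {τ : N →ₐ[ℂ] N} (h : IsInv τ v l Y Z) (s : ℂ[X][X]) :
    tauB h s ⟨v, mem_v s⟩ = ⟨v, mem_v s⟩ := Subtype.ext h.v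

theorem tauB_l {τ : N →ₐ[ℂ] N} (h : IsInv τ v l Y Z) (s : ℂ[X][X]) :
    tauB h s ⟨l, mem_l s⟩ = ⟨l, mem_l s⟩ := Subtype.ext h.l

theorem tauB_Y {τ : N →ₐ[ℂ] N} (h : IsInv τ v l Y Z) (s : ℂ[X][X]) :
    tauB h s ⟨Y, mem_Y s⟩ = ⟨Y, mem_Y s⟩ := Subtype.ext h.Y

theorem tauB_Z {τ : N →ₐ[ℂ] N} (h : IsInv τ v l Y Z) (s : ℂ[X][X]) :
    tauB h s ⟨Z, mem_Z s⟩ = -⟨Z, mem_Z s⟩ := Subtype.ext h.Z

theorem hom_tau_tau {τ : N →ₐ[ℂ] N} (h : IsInv τ v l Y Z) {s : ℂ[X][X]} (hs : H72.ev v l s ≠ 0)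
    {E : Type} [Field E] [Algebra ℂ E] (ρ : Bs s v l Y Z →ₐ[ℂ] E) :
    (ρ.comp (tauB h s)).comp (tauB h s) = ρ := by
  apply hom_ext4 hs
  · simp only [AlgHom.comp_apply, tauB_v]
  · simp only [AlgHom.comp_apply, tauB_l]
  · simp only [AlgHom.comp_apply, tauB_Y]
  · simp only [AlgHom.comp_apply, tauB_Z, map_neg, neg_neg]

theorem hom_eq_or {τ : N →ₐ[ℂ] N} (h : IsInv τ v l Y Z) {s : ℂ[X][X]}
    (hrel : Rel4 Ψ Δ s v l Y Z)
    {E : Type} [Field E] [Algebra ℂ E] {ρ ρ' : Bs s v l Y Z →ₐ[ℂ] E}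
    (h1 : ρ' ⟨v, mem_v s⟩ = ρ ⟨v, mem_v s⟩) (h2 : ρ' ⟨l, mem_l s⟩ = ρ ⟨l, mem_l s⟩)
    (h3 : ρ' ⟨Y, mem_Y s⟩ = ρ ⟨Y, mem_Y s⟩) : ρ' = ρ ∨ ρ' = ρ.comp (tauB h s) := by
  have h4 := (hom_rel4 hrel ρ).hZ
  have h5 := (hom_rel4 hrel ρ').hZ
  rw [h1, h2, ← h4] at h5
  rcases sq_eq_sq_iff_eq_or_eq_neg.1 h5 with h6 | h6
  · exact Or.inl (hom_ext4 hrel.hs h1 h2 h3 h6)
  · right
    apply hom_ext4 hrel.hs
    · rw [AlgHom.comp_apply, tauB_v, h1]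
    · rw [AlgHom.comp_apply, tauB_l, h2]
    · rw [AlgHom.comp_apply, tauB_Y, h3]
    · rw [AlgHom.comp_apply, tauB_Z, map_neg, h6]

/-- the image of the ring lies in a subalgebra that contains the images of the generators -/
theorem image_mem {s : ℂ[X][X]} (hrel : Rel4 Ψ Δ s v l Y Z) {E : Type} [Field E] [Algebra ℂ E]
    (ρ : Bs s v l Y Z →ₐ[ℂ] E) (W : Subalgebra ℂ E) (hv : ρ ⟨v, mem_v s⟩ ∈ W)
    (hl : ρ ⟨l, mem_l s⟩ ∈ W)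
    (hi : (H72.ev (ρ ⟨v, mem_v s⟩) (ρ ⟨l, mem_l s⟩) s)⁻¹ ∈ W) (hY : ρ ⟨Y, mem_Y s⟩ ∈ W)
    (hZ : ρ ⟨Z, mem_Z s⟩ ∈ W) (b : Bs s v l Y Z) : ρ b ∈ W := by
  obtain ⟨F, rfl⟩ := toBs_surjective s v l Y Z b
  have key : ∀ (i : Fin 5) (x : N) (hx : x ∈ Bs s v l Y Z)
      (_ : hom5 s v l Y Z (MvPolynomial.X i) = x), ρ ⟨x, hx⟩ ∈ W →
      ρ (toBs s v l Y Z (MvPolynomial.X i)) ∈ W := by
    intro i x hx hi h6
    have h7 : toBs s v l Y Z (MvPolynomial.X i) = ⟨x, hx⟩ := Subtype.ext hi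
    rw [h7]
    exact h6
  induction F using MvPolynomial.induction_on with
  | C a =>
    have h1 : toBs s v l Y Z (MvPolynomial.C a) = algebraMap ℂ _ a := by
      exact AlgHom.commutes (toBs s v l Y Z) a
    rw [h1, AlgHom.commutes]
    exact W.algebraMap_mem a
  | add F G hF hG => rw [map_add, map_add]; exact add_mem hF hG
  | mul_X F i hF =>
    rw [map_mul, map_mul]
    refine mul_mem hF ?_
    fin_cases i
    · exact key 0 v (mem_v s) (by simp [hom5]) hv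
    · exact key 1 l (mem_l s) (by simp [hom5]) hl
    · refine key 2 _ (mem_inv s) (by simp [hom5]) ?_
      have h5 : ρ ⟨(H72.ev v l s)⁻¹, mem_inv s⟩ =
          (H72.ev (ρ ⟨v, mem_v s⟩) (ρ ⟨l, mem_l s⟩) s)⁻¹ := by
        apply eq_inv_of_mul_eq_one_left
        rw [← hom_ev, ← map_mul]
        have h5 : (⟨(H72.ev v l s)⁻¹, mem_inv s⟩ * ⟨H72.ev v l s, mem_ev s s⟩ :
            Bs s v l Y Z) = 1 := Subtype.ext (inv_mul_cancel₀ hrel.hs)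
        rw [h5, map_one]
      rw [h5]
      exact hi
    · exact key 3 Y (mem_Y s) (by simp [hom5]) hY
    · exact key 4 Z (mem_Z s) (by simp [hom5]) hZ

end

section Places

variable {E : Type} [Field E] [Algebra ℂ E] [IsFF ℂ E]

/-- the valuation ring of a place as a subalgebra -/
def ringAlg (w : PlaceOver ℂ E) : Subalgebra ℂ E :=
  { w.1.ring.toSubring with algebraMap_mem' := w.2 }

theorem mem_ringAlg {w : PlaceOver ℂ E} {x : E} : x ∈ ringAlg w ↔ x ∈ w.1.ring := Iff.rfl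

theorem evalAt_eq_of {w : PlaceOver ℂ E} {x : E} (hx : x ∈ w.1.ring) {c : ℂ}
    (h : x - algebraMap ℂ E c = 0 ∨ (x - algebraMap ℂ E c)⁻¹ ∉ w.1.ring) :
    evalAt w ⟨x, hx⟩ = c := by
  have h1 : evalAt w (⟨x, hx⟩ - constTo w.1 w.2 c) = 0 := by
    rw [evalAt_eq_zero_iff, IsLocalRing.mem_maximalIdeal, mem_nonunits_iff]
    intro hu
    obtain ⟨y, hy⟩ := hu.exists_right_inv
    have h2 : (x - algebraMap ℂ E c) * (y : E) = 1 := congrArg Subtype.val hy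
    rcases h with h | h
    · rw [h, zero_mul] at h2
      exact zero_ne_one h2
    · apply h
      rw [inv_eq_of_mul_eq_one_right h2]
      exact y.2
  rw [map_sub, evalAt_const, sub_eq_zero] at h1
  exact h1

theorem of_evalAt {w : PlaceOver ℂ E} {x : E} (hx : x ∈ w.1.ring) :
    x - algebraMap ℂ E (evalAt w ⟨x, hx⟩) = 0 ∨
      (x - algebraMap ℂ E (evalAt w ⟨x, hx⟩))⁻¹ ∉ w.1.ring := by
  by_contra hcon
  push Not at hcon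
  obtain ⟨h0, hinv⟩ := hcon
  have h1 : evalAt w (⟨x, hx⟩ - constTo w.1 w.2 (evalAt w ⟨x, hx⟩)) = 0 := by
    rw [map_sub, evalAt_const, sub_self]
  rw [evalAt_eq_zero_iff, IsLocalRing.mem_maximalIdeal, mem_nonunits_iff] at h1
  apply h1
  refine IsUnit.of_mul_eq_one (⟨_, hinv⟩ : w.1.ring) ?_
  apply Subtype.ext
  exact mul_inv_cancel₀ h0

/-- values of elements of a subfield at places with the same restriction -/
theorem evalAt_restrict {E₀ : IntermediateField ℂ E} {w w' : PlaceOver ℂ E}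
    (hww : ∀ x ∈ E₀, (x ∈ w'.1.ring ↔ x ∈ w.1.ring)) {x : E} (hx0 : x ∈ E₀)
    (hx : x ∈ w.1.ring) : ∃ hx' : x ∈ w'.1.ring, evalAt w' ⟨x, hx'⟩ = evalAt w ⟨x, hx⟩ := by
  refine ⟨(hww x hx0).2 hx, evalAt_eq_of _ ?_⟩
  rcases of_evalAt hx with h | h
  · exact Or.inl h
  · right
    intro h'
    apply h
    exact (hww _ (E₀.inv_mem (E₀.sub_mem hx0 (E₀.algebraMap_mem _)))).1 h'

theorem mem_of_sq {w : PlaceOver ℂ E} {x : E} (h : x ^ 2 ∈ w.1.ring) : x ∈ w.1.ring := by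
  by_cases hx : x = 0
  · rw [hx]; exact w.1.ring.zero_mem
  · rw [← w.1.ord_nonneg_iff hx]
    have h1 := (w.1.ord_nonneg_iff (pow_ne_zero 2 hx)).2 h
    rw [Place.ord_pow] at h1
    push_cast at h1
    omega

end Places

section Const

variable {N : Type} [Field N] [Algebra ℂ N] {Ψ Δ : ℂ[X][X]} {v l Y Z : N}
  {S : Scheme.{0}} (f : S ⟶ Spec (.of ℂ)) [IsProper f]

/-- `γ₁, γ₂` are the two morphisms attached to a homomorphism `ρ` from the ring. -/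
structure Att {τ : N →ₐ[ℂ] N} (h : IsInv τ v l Y Z) (s : ℂ[X][X])
    {E : Type} [Field E] [Algebra ℂ E] (g : Spec (.of (Bs s v l Y Z)) ⟶ S)
    (ρ : Bs s v l Y Z →ₐ[ℂ] E) (γ₁ γ₂ : Spec (.of E) ⟶ S) : Prop where
  one : γ₁ = sp ρ ≫ g
  two : γ₂ = sp (ρ.comp (tauB h s)) ≫ g

/-- the cycle of a point -/
noncomputable def cy {τ : N →ₐ[ℂ] N} (h : IsInv τ v l Y Z) (s : ℂ[X][X])
    {g : Spec (.of (Bs s v l Y Z)) ⟶ S} (hg : g ≫ f = str (Bs s v l Y Z))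
    (χ : Bs s v l Y Z →ₐ[ℂ] ℂ) : ZeroCycle S :=
  Finsupp.single (pt f g hg χ) 1 + Finsupp.single (pt f g hg (χ.comp (tauB h s))) 1

theorem cy_tau {τ : N →ₐ[ℂ] N} (h : IsInv τ v l Y Z) {s : ℂ[X][X]} (hs : H72.ev v l s ≠ 0)
    {g : Spec (.of (Bs s v l Y Z)) ⟶ S} (hg : g ≫ f = str (Bs s v l Y Z))
    (χ : Bs s v l Y Z →ₐ[ℂ] ℂ) : cy f h s hg (χ.comp (tauB h s)) = cy f h s hg χ := by
  unfold cy
  rw [hom_tau_tau h hs, add_comm]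

theorem class_eq {τ : N →ₐ[ℂ] N} (h : IsInv τ v l Y Z) {s : ℂ[X][X]}
    (R : AddSubgroup (ZeroCycle S))
    {E : Type} [Field E] [Algebra ℂ E] [IsFF ℂ E]
    {g : Spec (.of (Bs s v l Y Z)) ⟶ S} (hg : g ≫ f = str (Bs s v l Y Z))
    {ρ : Bs s v l Y Z →ₐ[ℂ] E} {γ₁ γ₂ : Spec (.of E) ⟶ S} (hatt : Att h s g ρ γ₁ γ₂)
    (h₁ : γ₁ ≫ f = str E) (h₂ : γ₂ ≫ f = str E)
    (A : (PlaceOver ℂ E →₀ ℤ) →+ (ZeroCycle S ⧸ R))
    (hA : ∀ w : PlaceOver ℂ E, A (Finsupp.single w 1) = QuotientAddGroup.mk' R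
      (Finsupp.single (centerMap f γ₁ h₁ w) 1 + Finsupp.single (centerMap f γ₂ h₂ w) 1))
    (w : PlaceOver ℂ E) (χ : Bs s v l Y Z →ₐ[ℂ] ℂ) (hw : ∀ b, ρ b ∈ w.1.ring)
    (hχ : ∀ b, evalAt w ⟨ρ b, hw b⟩ = χ b) :
    A (Finsupp.single w 1) = QuotientAddGroup.mk' R (cy f h s hg χ) := by
  obtain ⟨rfl, rfl⟩ := hatt
  rw [hA]
  have e1 := center_eq f hg ρ χ w hw hχ
  have e2 := center_eq f hg (ρ.comp (tauB h s)) (χ.comp (tauB h s)) w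
    (fun b => hw (tauB h s b)) (fun b => hχ (tauB h s b))
  rw [e1, e2]
  rfl

theorem class_const {τ : N →ₐ[ℂ] N} (h : IsInv τ v l Y Z) {s : ℂ[X][X]}
    (hrel : Rel4 Ψ Δ s v l Y Z) (R : AddSubgroup (ZeroCycle S))
    {E : Type} [Field E] [Algebra ℂ E] [IsFF ℂ E] (E₀ : IntermediateField ℂ E)
    {g : Spec (.of (Bs s v l Y Z)) ⟶ S} (hg : g ≫ f = str (Bs s v l Y Z))
    {ρ : Bs s v l Y Z →ₐ[ℂ] E} (hv : ρ ⟨v, mem_v s⟩ ∈ E₀) (hl : ρ ⟨l, mem_l s⟩ ∈ E₀)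
    (hY : ρ ⟨Y, mem_Y s⟩ ∈ E₀)
    {γ₁ γ₂ : Spec (.of E) ⟶ S} (hatt : Att h s g ρ γ₁ γ₂)
    (h₁ : γ₁ ≫ f = str E) (h₂ : γ₂ ≫ f = str E)
    (A : (PlaceOver ℂ E →₀ ℤ) →+ (ZeroCycle S ⧸ R))
    (hA : ∀ w : PlaceOver ℂ E, A (Finsupp.single w 1) = QuotientAddGroup.mk' R
      (Finsupp.single (centerMap f γ₁ h₁ w) 1 + Finsupp.single (centerMap f γ₂ h₂ w) 1))
    (w w' : PlaceOver ℂ E) (χ : Bs s v l Y Z →ₐ[ℂ] ℂ) (hw : ∀ b, ρ b ∈ w.1.ring)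
    (hχ : ∀ b, evalAt w ⟨ρ b, hw b⟩ = χ b)
    (hww : ∀ x ∈ E₀, (x ∈ w'.1.ring ↔ x ∈ w.1.ring)) :
    A (Finsupp.single w' 1) = A (Finsupp.single w 1) := by
  have hrelρ := hom_rel4 hrel ρ
  have hevE : ∀ p : ℂ[X][X], H72.ev (ρ ⟨v, mem_v s⟩) (ρ ⟨l, mem_l s⟩) p ∈ E₀ := by
    intro p
    have h1 := map_ev E₀.val ⟨_, hv⟩ ⟨_, hl⟩ p
    change _ = H72.ev (ρ ⟨v, mem_v s⟩) (ρ ⟨l, mem_l s⟩) p at h1
    rw [← h1]
    exact Subtype.prop _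
  have hw' : ∀ b, ρ b ∈ w'.1.ring := by
    intro b
    refine image_mem hrel ρ (ringAlg w') ?_ ?_ ?_ ?_ ?_ b
    · exact (hww _ hv).2 (hw _)
    · exact (hww _ hl).2 (hw _)
    · refine (hww _ (E₀.inv_mem (hevE s))).2 ?_
      have h5 : ρ ⟨(H72.ev v l s)⁻¹, mem_inv s⟩ =
          (H72.ev (ρ ⟨v, mem_v s⟩) (ρ ⟨l, mem_l s⟩) s)⁻¹ := by
        apply eq_inv_of_mul_eq_one_left
        rw [← hom_ev, ← map_mul]
        have h5 : (⟨(H72.ev v l s)⁻¹, mem_inv s⟩ * ⟨H72.ev v l s, mem_ev s s⟩ :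
            Bs s v l Y Z) = 1 := Subtype.ext (inv_mul_cancel₀ hrel.hs)
        rw [h5, map_one]
      rw [← h5]
      exact hw _
    · exact (hww _ hY).2 (hw _)
    · apply mem_of_sq
      rw [hrelρ.hZ]
      refine (hww _ (hevE Δ)).2 ?_
      rw [← hom_ev]
      exact hw _
  let ρ' : Bs s v l Y Z →+* w'.1.ring := ρ.toRingHom.codRestrict w'.1.ring hw'
  let χ' : Bs s v l Y Z →ₐ[ℂ] ℂ :=
    { (evalAt w').comp ρ' with
      commutes' := by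
        intro a
        change evalAt w' ⟨ρ (algebraMap ℂ _ a), _⟩ = a
        have h1 : (⟨ρ (algebraMap ℂ _ a), hw' _⟩ : w'.1.ring) = constTo w'.1 w'.2 a :=
          Subtype.ext (ρ.commutes a)
        rw [h1, evalAt_const] }
  have hχ' : ∀ b, evalAt w' ⟨ρ b, hw' b⟩ = χ' b := fun b => rfl
  have key : ∀ b, ρ b ∈ E₀ → χ' b = χ b := by
    intro b hb
    obtain ⟨h3, h4⟩ := evalAt_restrict hww hb (hw b)
    rw [← hχ, ← h4]
    rfl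
  have h5 := hom_eq_or h hrel (ρ := χ) (ρ' := χ') (key _ hv) (key _ hl) (key _ hY)
  rw [class_eq f h R hg hatt h₁ h₂ A hA w χ hw hχ,
    class_eq f h R hg hatt h₁ h₂ A hA w' χ' hw' hχ']
  rcases h5 with h5 | h5
  · rw [h5]
  · rw [h5, cy_tau f h hrel.hs]

end Const

end Vale.Agent.P297.H72
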