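import Vale.Agent.P297.Bdl.B1

/-!
Divisibility by three on a curve of genus one in Weierstrass form: if the classes of all places
agree after multiplication by three, then they agree.
-/

set_option linter.unusedSectionVars false
set_option linter.style.haveILetI false

open IntermediateField Polynomial

namespace Vale.Agent.P297.H72

open Vale.Agent.P297

/-- a point of the curve is the triple of a point, up to sign: the function with divisor
`3 Q + P - 4 ∞` -/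
theorem exists_third (a b : ℂ) (hD : 4 * a ^ 3 + 27 * b ^ 2 ≠ 0) (x₀ : ℂ)
    (hx₀ : x₀ ^ 3 + a * x₀ + b ≠ 0) :
    ∃ β γ δ x₁ : ℂ, β ≠ 0 ∧ x₁ ^ 3 + a * x₁ + b ≠ 0 ∧
      ∀ (R : Type) [CommRing R] [Algebra ℂ R] (x : R),
        (x ^ 2 + algebraMap ℂ R γ * x + algebraMap ℂ R δ) ^ 2 -
          (algebraMap ℂ R β) ^ 2 * (x ^ 3 + algebraMap ℂ R a * x + algebraMap ℂ R b) =
        (x - algebraMap ℂ R x₀) * (x - algebraMap ℂ R x₁) ^ 3 := by
  have hroot : ∃ x : ℂ, (x - x₀) * (3 * x ^ 4 + 6 * a * x ^ 2 + 12 * b * x - a ^ 2) ^ 2 -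
      8 * (x ^ 3 + a * x + b) * (x ^ 6 + 5 * a * x ^ 4 + 20 * b * x ^ 3 - 5 * a ^ 2 * x ^ 2 -
        4 * a * b * x - 8 * b ^ 2 - a ^ 3) = 0 := by
    let p : ℂ[X] := (X - C x₀) * (3 * X ^ 4 + C (6 * a) * X ^ 2 + C (12 * b) * X - C (a ^ 2)) ^ 2 -
      8 * (X ^ 3 + C a * X + C b) * (X ^ 6 + C (5 * a) * X ^ 4 + C (20 * b) * X ^ 3 -
        C (5 * a ^ 2) * X ^ 2 - C (4 * a * b) * X - C (8 * b ^ 2) - C (a ^ 3))
    have hdeg : p.degree = 9 := by
      have h1 : p = X ^ 9 + (C (-9 * x₀) * X ^ 8 + C (-12 * a) * X ^ 7 +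
          C (-36 * a * x₀ - 96 * b) * X ^ 6 + C (30 * a ^ 2 - 72 * b * x₀) * X ^ 5 +
          C (-30 * a ^ 2 * x₀ - 24 * a * b) * X ^ 4 +
          C (36 * a ^ 3 - 144 * a * b * x₀ + 48 * b ^ 2) * X ^ 3 +
          C (12 * a ^ 3 * x₀ + 48 * a ^ 2 * b - 144 * b ^ 2 * x₀) * X ^ 2 +
          C (9 * a ^ 4 + 24 * a ^ 2 * b * x₀ + 96 * a * b ^ 2) * X +
          C (-a ^ 4 * x₀ + 8 * a ^ 3 * b + 64 * b ^ 3)) := by
        simp only [p, map_mul, map_add, map_sub, map_pow, map_neg, map_ofNat]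
        ring
      rw [h1, degree_add_eq_left_of_degree_lt]
      · exact degree_X_pow 9
      · rw [degree_X_pow]
        compute_degree!
    obtain ⟨x, hx⟩ := IsAlgClosed.exists_root p (by rw [hdeg]; norm_num)
    refine ⟨x, ?_⟩
    have h2 : p.eval x = 0 := hx
    simpa [p] using h2
  obtain ⟨x₁, h⟩ := hroot
  obtain ⟨f, hf⟩ : ∃ f : ℂ, f = x₁ ^ 3 + a * x₁ + b := ⟨_, rfl⟩
  obtain ⟨ψ, hψ⟩ : ∃ ψ : ℂ, ψ = 3 * x₁ ^ 4 + 6 * a * x₁ ^ 2 + 12 * b * x₁ - a ^ 2 := ⟨_, rfl⟩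
  have hg6 : x₁ ^ 6 + 5 * a * x₁ ^ 4 + 20 * b * x₁ ^ 3 - 5 * a ^ 2 * x₁ ^ 2 -
      4 * a * b * x₁ - 8 * b ^ 2 - a ^ 3 = (3 * x₁ ^ 2 + a) * ψ - 8 * f ^ 2 := by
    rw [hf, hψ]; ring
  have hp : ψ + (3 * x₁ ^ 2 + a) ^ 2 - 12 * x₁ * f = 0 := by
    rw [hf, hψ]; ring
  have h' : (x₁ - x₀) * ψ ^ 2 - 8 * f * ((3 * x₁ ^ 2 + a) * ψ - 8 * f ^ 2) = 0 := by
    rw [← hg6, hf, hψ]; exact h
  have hψ0 : ψ ≠ 0 := by
    intro h0
    -- then `f` has a double root
    have h1 : f = 0 := by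
      have e1 : f ^ 3 = 0 := by
        linear_combination (1 / 64) * (h' + (8 * f * (3 * x₁ ^ 2 + a) - (x₁ - x₀) * ψ) * h0)
      exact pow_eq_zero_iff (by norm_num) |>.1 e1
    have h2 : (3 * x₁ ^ 2 + a) ^ 2 = 0 := by
      linear_combination 12 * x₁ * h1 - h0 + hp
    have h3 : 3 * x₁ ^ 2 + a = 0 := pow_eq_zero_iff (by norm_num) |>.1 h2
    apply hD
    have h4 : a = - 3 * x₁ ^ 2 := by linear_combination h3
    have h5 : b = 2 * x₁ ^ 3 := by
      rw [hf, h4] at h1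
      linear_combination h1
    rw [h4, h5]
    ring
  have hf0 : f ≠ 0 := by
    intro h0
    have h1 : (x₁ - x₀) * ψ ^ 2 = 0 := by
      linear_combination h' + 8 * h0 * ((3 * x₁ ^ 2 + a) * ψ - 8 * f ^ 2)
    rcases mul_eq_zero.1 h1 with h2 | h2
    · apply hx₀
      rw [← sub_eq_zero.1 h2, ← hf]
      exact h0
    · exact hψ0 (pow_eq_zero_iff (by norm_num) |>.1 h2)
  obtain ⟨y₁, hy₁⟩ := IsAlgClosed.exists_pow_nat_eq f (n := 2) two_pos
  have hy0 : y₁ ≠ 0 := by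
    rintro rfl
    apply hf0
    rw [← hy₁]
    ring
  obtain ⟨β, hβ⟩ : ∃ β : ℂ, β = 8 * y₁ ^ 3 / ψ := ⟨_, rfl⟩
  obtain ⟨γ, hγ⟩ : ∃ γ : ℂ, γ = -2 * x₁ + 4 * f * (3 * x₁ ^ 2 + a) / ψ := ⟨_, rfl⟩
  obtain ⟨δ, hδ⟩ : ∃ δ : ℂ, δ = -x₁ ^ 2 - γ * x₁ + 8 * f ^ 2 / ψ := ⟨_, rfl⟩
  refine ⟨β, γ, δ, x₁, ?_, hf ▸ hf0, ?_⟩
  · rw [hβ]
    exact div_ne_zero (mul_ne_zero (by norm_num) (pow_ne_zero _ hy0)) hψ0
  · have hβ2 : β ^ 2 * ψ ^ 2 = 64 * f ^ 3 := by
      rw [hβ, ← hy₁]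
      field_simp
      ring
    have hγ2 : γ * ψ = -2 * x₁ * ψ + 4 * f * (3 * x₁ ^ 2 + a) := by
      rw [hγ]
      field_simp
    have hδ2 : δ * ψ = (-x₁ ^ 2 - γ * x₁) * ψ + 8 * f ^ 2 := by
      rw [hδ]
      field_simp
    -- compare coefficients
    have hψ2 : ψ ^ 2 ≠ 0 := pow_ne_zero _ hψ0
    have c3 : 2 * γ - β ^ 2 = -(x₀ + 3 * x₁) := by
      apply mul_right_cancel₀ hψ2
      linear_combination 2 * ψ * hγ2 - hβ2 - h'
    have c2 : γ ^ 2 + 2 * δ = 3 * x₁ ^ 2 + 3 * x₀ * x₁ := by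
      apply mul_right_cancel₀ hψ2
      linear_combination (γ * ψ + (-2 * x₁ * ψ + 4 * f * (3 * x₁ ^ 2 + a)) - 2 * x₁ * ψ) * hγ2 +
        2 * ψ * hδ2 + 16 * f ^ 2 * hp + 3 * x₁ * h'
    have c1 : 2 * γ * δ - β ^ 2 * a = - (x₁ ^ 3 + 3 * x₀ * x₁ ^ 2) := by
      apply mul_right_cancel₀ hψ2
      linear_combination 2 * γ * ψ * hδ2 + (-2 * x₁ ^ 2 * ψ -
        2 * x₁ * (γ * ψ + (-2 * x₁ * ψ + 4 * f * (3 * x₁ ^ 2 + a))) + 16 * f ^ 2) * hγ2 -
        a * hβ2 - 32 * x₁ * f ^ 2 * hp - 3 * x₁ ^ 2 * h'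
    have c0 : δ ^ 2 - β ^ 2 * b = x₀ * x₁ ^ 3 := by
      apply mul_right_cancel₀ hψ2
      linear_combination (δ * ψ + ((-x₁ ^ 2 - γ * x₁) * ψ + 8 * f ^ 2)) * hδ2 -
        x₁ * (((-x₁ ^ 2 - γ * x₁) * ψ + 8 * f ^ 2) + (-x₁ ^ 2 * ψ -
          x₁ * (-2 * x₁ * ψ + 4 * f * (3 * x₁ ^ 2 + a)) + 8 * f ^ 2)) * hγ2 -
        b * hβ2 + 16 * x₁ ^ 2 * f ^ 2 * hp + x₁ ^ 3 * h' + 64 * f ^ 3 * hf
    intro R _ _ x
    have d3 := congrArg (algebraMap ℂ R) c3
    have d2 := congrArg (algebraMap ℂ R) c2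
    have d1 := congrArg (algebraMap ℂ R) c1
    have d0 := congrArg (algebraMap ℂ R) c0
    simp only [map_mul, map_add, map_sub, map_pow, map_neg, map_ofNat] at d3 d2 d1 d0
    linear_combination x ^ 3 * d3 + x ^ 2 * d2 + x * d1 + d0

variable {E : Type} [Field E] [Algebra ℂ E]

/-- On a curve of genus one in Weierstrass form, the classes of all places agree if they agree
after multiplication by three. -/
theorem third_const [IsFF ℂ E] {t θ : E} (ht : Transcendental ℂ t) (a b : ℂ)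
    (hD : 4 * a ^ 3 + 27 * b ^ 2 ≠ 0)
    (hθ : θ ^ 2 = t ^ 3 + algebraMap ℂ E a * t + algebraMap ℂ E b)
    (hspan : ∀ x : E, ∃ c ∈ ℂ⟮t⟯, ∃ d ∈ ℂ⟮t⟯, x = c + d * θ) {Q : Type*} [AddCommGroup Q]
    (A : (PlaceOver ℂ E →₀ ℤ) →+ Q) (hdiv : ∀ F : E, A (div ℂ F) = 0)
    (hthree : ∀ w w' : PlaceOver ℂ E, (3 : ℤ) • A (Finsupp.single w 1) =
      (3 : ℤ) • A (Finsupp.single w' 1)) (w w' : PlaceOver ℂ E) :
    A (Finsupp.single w 1) = A (Finsupp.single w' 1) := by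
  classical
  haveI : FiniteDimensional ℂ⟮t⟯ E := IsFF.finiteDimensional ht
  have hinj : Function.Injective (algebraMap ℂ E) := (algebraMap ℂ E).injective
  have ht0 : t ≠ 0 := by
    rintro rfl
    exact ht isAlgebraic_zero
  have htinv : Transcendental ℂ t⁻¹ := fun hc => ht (by simpa using hc.inv)
  -- the value of `θ ^ 2` as a polynomial
  have hq0 : t ^ 3 + algebraMap ℂ E a * t + algebraMap ℂ E b ≠ 0 := by
    intro h0
    have h1 : (X ^ 3 + C a * X + C b : ℂ[X]) ≠ 0 := by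
      intro h2
      have h3 := congrArg (fun p : ℂ[X] => p.coeff 3) h2
      simp at h3
    exact ht ⟨_, h1, by simpa using h0⟩
  have hθ0 : θ ≠ 0 := by
    rintro rfl
    apply hq0
    rw [← hθ]
    ring
  -- places at infinity
  have hev : ∀ x : PlaceOver ℂ E, 0 < x.1.ord t⁻¹ → 2 * x.1.ord θ = 3 * x.1.ord t := by
    intro x hx
    have h1 : x.1.ord (aeval t⁻¹ (1 + C a * X ^ 2 + C b * X ^ 3 : ℂ[X])) = 0 := by
      apply ord_aeval_eq_zero x (α := 0)
      · rw [map_zero, sub_zero]; exact hx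
      · simp
    have h2 : θ ^ 2 = t ^ 3 * aeval t⁻¹ (1 + C a * X ^ 2 + C b * X ^ 3 : ℂ[X]) := by
      rw [hθ]
      simp
      field_simp
    have h3 : aeval t⁻¹ (1 + C a * X ^ 2 + C b * X ^ 3 : ℂ[X]) ≠ 0 := by
      intro h0
      rw [h0, mul_zero] at h2
      exact hθ0 (by simpa using h2)
    have h4 := congrArg x.1.ord h2
    rw [Place.ord_mul _ (pow_ne_zero _ ht0) h3, h1, Place.ord_pow, Place.ord_pow] at h4
    push_cast at h4
    omega
  have hev2 : ∀ x : PlaceOver ℂ E, 0 < x.1.ord t⁻¹ → 2 ≤ x.1.ord t⁻¹ := by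
    intro x hx
    have h1 := hev x hx
    rw [Place.ord_inv] at hx ⊢
    omega
  obtain ⟨p, hp⟩ := exists_zero_place htinv
  have hθK : θ ∉ ℂ⟮t⟯ := by
    intro hmem
    have h1 : ℂ⟮t⟯ = ⊤ := by
      rw [eq_top_iff]
      intro x _
      obtain ⟨c, hc, d, hd, rfl⟩ := hspan x
      exact add_mem hc (mul_mem hd hmem)
    have h2 := deg_zeroPart htinv
    rw [adjoin_inv_eq, h1, IntermediateField.finrank_top] at h2
    have h3 : Finsupp.single p 1 = zeroPart t⁻¹ := by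
      apply eq_of_le_of_deg
      · apply single_le_of (zeroPart_nonneg _)
        rw [zeroPart_apply]
        omega
      · rw [h2, deg_single]; rfl
    have h4 := congrArg (fun z => z p) h3
    simp only [Finsupp.single_eq_same, zeroPart_apply] at h4
    have := hev2 p hp
    omega
  have hfr : Module.finrank ℂ⟮t⟯ E = 2 := finrank_eq_two hθK hspan
  have hZ : ∀ a : ℂ, A (zeroPart (t - algebraMap ℂ E a)) = A (zeroPart t⁻¹) := by
    intro a
    have h1 := hdiv (t - algebraMap ℂ E a)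
    rw [div_eq_sub, map_sub, sub_eq_zero] at h1
    rw [h1, zeroPart_inv_sub t a 0]
    congr 3
    rw [map_zero, sub_zero]
  have hdegZ : ∀ a : ℂ, deg (zeroPart (t - algebraMap ℂ E a)) = 2 := by
    intro a
    rw [deg_zeroPart (transcendental_sub ht a), adjoin_sub, hfr]
    rfl
  have hdegP : deg (zeroPart t⁻¹) = 2 := by
    rw [deg_zeroPart htinv, adjoin_inv_eq, hfr]
    rfl
  have hP : zeroPart t⁻¹ = Finsupp.single p 2 := by
    symm
    apply eq_of_le_of_deg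
    · apply single_le_of (zeroPart_nonneg _)
      rw [zeroPart_apply]
      have := hev2 p hp
      omega
    · rw [hdegP, deg_single]
  have hpt : p.1.ord t = -2 := by
    have h1 := congrArg (fun z => z p) hP
    simp only [Finsupp.single_eq_same, zeroPart_apply, Place.ord_inv] at h1
    omega
  have hpθ : p.1.ord θ = -3 := by
    have := hev p hp
    omega
  have hfin : ∀ x : PlaceOver ℂ E, x ≠ p → t ∈ x.1.ring ∧ θ ∈ x.1.ring := by
    intro x hx
    have h1 := congrArg (fun z => z x) hP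
    simp only [Finsupp.single_eq_of_ne hx, zeroPart_apply, Place.ord_inv] at h1
    have h2 : t ∈ x.1.ring := (x.1.ord_nonneg_iff ht0).1 (by omega)
    refine ⟨h2, (x.1.ord_nonneg_iff hθ0).1 ?_⟩
    have h3 : θ ^ 2 ∈ x.1.ring := by
      rw [hθ]
      exact x.1.ring.add_mem _ _ (x.1.ring.add_mem _ _ (x.1.ring.pow_mem h2 3)
        (x.1.ring.mul_mem _ _ (x.2 a) h2)) (x.2 b)
    have h4 := x.1.ord_nonneg_of_mem h3
    rw [Place.ord_pow] at h4
    push_cast at h4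
    omega
  -- the classes
  set α : Q := A (Finsupp.single p 1) with hα
  have hsingle : ∀ (x : PlaceOver ℂ E) (n : ℤ),
      A (Finsupp.single x n) = n • A (Finsupp.single x 1) := by
    intro x n
    rw [← map_zsmul, Finsupp.smul_single, smul_eq_mul, mul_one]
  have h3 : ∀ z : PlaceOver ℂ E →₀ ℤ, (3 : ℤ) • A z = (3 * deg z) • α := by
    intro z
    induction z using Finsupp.induction_linear with
    | zero => simp
    | add x y hx hy => rw [map_add, map_add, smul_add, hx, hy, mul_add, add_smul]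
    | single x n =>
      rw [deg_single, hsingle, smul_comm, hthree x p, mul_comm, mul_smul]
  have hZα : ∀ a : ℂ, A (zeroPart (t - algebraMap ℂ E a)) = (2 : ℤ) • α := by
    intro a
    rw [hZ, hP, hsingle]
  have hone : ∀ (z : PlaceOver ℂ E →₀ ℤ) (x : PlaceOver ℂ E), 0 ≤ z → deg z = 1 → 1 ≤ z x →
      A z = A (Finsupp.single x 1) := by
    intro z x hz hd hx
    congr 1
    symm
    apply eq_of_le_of_deg (single_le_of hz x 1 hx)
    rw [hd, deg_single]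
  suffices hall : ∀ x : PlaceOver ℂ E, A (Finsupp.single x 1) = α by rw [hall w, hall w']
  intro x
  by_cases hxp : x = p
  · rw [hxp]
  obtain ⟨x₀, hx₀⟩ : ∃ x₀ : ℂ, 0 < x.1.ord (t - algebraMap ℂ E x₀) := by
    obtain ⟨c, hc⟩ := exists_const x.1 x.2 (hfin x hxp).1
    rcases hc with hc | hc
    · exfalso
      apply ht
      rw [hc]
      exact isAlgebraic_algebraMap c
    · exact ⟨c, hc⟩
  by_cases hroot : x₀ ^ 3 + a * x₀ + b = 0
  · -- a point of order two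
    have hx2 : A (Finsupp.single x 2) = (2 : ℤ) • α := by
      rw [← hZα x₀]
      congr 1
      apply eq_of_le_of_deg
      · apply single_le_of (zeroPart_nonneg _)
        rw [zeroPart_apply]
        have e1 : θ ^ 2 = (t - algebraMap ℂ E x₀) *
            aeval t (X ^ 2 + C x₀ * X + C (x₀ ^ 2 + a) : ℂ[X]) := by
          have e2 := congrArg (algebraMap ℂ E) hroot
          simp only [map_mul, map_add, map_pow, map_zero] at e2
          rw [hθ]
          simp only [map_mul, map_add, map_pow, aeval_X, aeval_C]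
          linear_combination e2
        have e3 : x.1.ord (aeval t (X ^ 2 + C x₀ * X + C (x₀ ^ 2 + a) : ℂ[X])) = 0 := by
          apply ord_aeval_eq_zero x hx₀
          intro e4
          apply hD
          simp only [eval_add, eval_mul, eval_pow, eval_X, eval_C] at e4
          have e5 : a = -3 * x₀ ^ 2 := by linear_combination e4
          have e6 : b = 2 * x₀ ^ 3 := by
            rw [e5] at hroot
            linear_combination hroot
          rw [e5, e6]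
          ring
        have e7 : aeval t (X ^ 2 + C x₀ * X + C (x₀ ^ 2 + a) : ℂ[X]) ≠ 0 := by
          intro e8
          rw [e8, mul_zero] at e1
          exact hθ0 (by simpa using e1)
        have e9 := congrArg x.1.ord e1
        rw [Place.ord_mul _ (sub_ne_zero_of_tr ht x₀) e7, e3, Place.ord_pow] at e9
        push_cast at e9
        omega
      · rw [hdegZ, deg_single]
    have hx3 := h3 (Finsupp.single x 1)
    rw [deg_single, mul_one] at hx3
    rw [hsingle] at hx2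
    calc A (Finsupp.single x 1) = (3 : ℤ) • A (Finsupp.single x 1) -
          (2 : ℤ) • A (Finsupp.single x 1) := by rw [← sub_smul]; norm_num
      _ = α := by rw [hx2, hx3, ← sub_smul]; norm_num
  -- the general case
  obtain ⟨β, γ, δ, x₁, hβ, hroot₁, hid⟩ := exists_third a b hD x₀ hroot
  have hid := hid E t
  set U : E := t ^ 2 + algebraMap ℂ E γ * t + algebraMap ℂ E δ with hU
  set V : E := algebraMap ℂ E β * θ with hV
  have hβE : algebraMap ℂ E β ≠ 0 := by simpa using hβ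
  have hV0 : V ≠ 0 := mul_ne_zero hβE hθ0
  have hprod : (U + V) * (U - V) =
      (t - algebraMap ℂ E x₀) * (t - algebraMap ℂ E x₁) ^ 3 := by
    rw [← hid, ← hθ, hV]
    ring
  have hs0 := sub_ne_zero_of_tr ht x₀
  have hs1 := sub_ne_zero_of_tr ht x₁
  have hUV : U + V ≠ 0 := by
    intro h0
    rw [h0, zero_mul] at hprod
    exact mul_ne_zero hs0 (pow_ne_zero 3 hs1) hprod.symm
  have hUV' : U - V ≠ 0 := by
    intro h0
    rw [h0, mul_zero] at hprod
    exact mul_ne_zero hs0 (pow_ne_zero 3 hs1) hprod.symm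
  -- at infinity
  have hordp : p.1.ord (U + V) = -4 := by
    have e1 : p.1.ord (aeval t⁻¹ (1 + C γ * X + C δ * X ^ 2 : ℂ[X])) = 0 := by
      apply ord_aeval_eq_zero p (α := 0)
      · rw [map_zero, sub_zero]; exact hp
      · simp
    have e2 : U + V = t ^ 2 * (aeval t⁻¹ (1 + C γ * X + C δ * X ^ 2 : ℂ[X]) +
        algebraMap ℂ E β * θ * (t⁻¹) ^ 2) := by
      rw [hU, hV]
      simp
      field_simp
    have e3 : (aeval t⁻¹ (1 + C γ * X + C δ * X ^ 2 : ℂ[X])) ≠ 0 := by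
      intro e0
      refine htinv ⟨_, ?_, e0⟩
      intro e4
      have e5 := congrArg (fun p : ℂ[X] => p.coeff 0) e4
      simp at e5
    have e4 : p.1.ord (algebraMap ℂ E β * θ * (t⁻¹) ^ 2) = 1 := by
      rw [Place.ord_mul _ hV0 (pow_ne_zero _ (inv_ne_zero ht0)), Place.ord_mul _ hβE hθ0,
        ord_const, Place.ord_pow, Place.ord_inv, hpt, hpθ]
      norm_num
    have e5 : algebraMap ℂ E β * θ * (t⁻¹) ^ 2 ≠ 0 :=
      mul_ne_zero hV0 (pow_ne_zero _ (inv_ne_zero ht0))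
    have e6 := Place.ord_add_eq_of_lt p.1 e3 e5 (by rw [e1, e4]; norm_num)
    have e7 : aeval t⁻¹ (1 + C γ * X + C δ * X ^ 2 : ℂ[X]) +
        algebraMap ℂ E β * θ * (t⁻¹) ^ 2 ≠ 0 := by
      intro e8
      rw [e8, mul_zero] at e2
      exact hUV e2
    rw [e2, Place.ord_mul _ (pow_ne_zero _ ht0) e7, e6, e1, Place.ord_pow, hpt]
    norm_num
  have hUVfin : ∀ y : PlaceOver ℂ E, y ≠ p → U + V ∈ y.1.ring ∧ U - V ∈ y.1.ring := by
    intro y hy
    obtain ⟨e1, e2⟩ := hfin y hy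
    have e3 : U ∈ y.1.ring := y.1.ring.add_mem _ _ (y.1.ring.add_mem _ _
      (y.1.ring.pow_mem e1 2) (y.1.ring.mul_mem _ _ (y.2 γ) e1)) (y.2 δ)
    have e4 : V ∈ y.1.ring := y.1.ring.mul_mem _ _ (y.2 β) e2
    exact ⟨y.1.ring.add_mem _ _ e3 e4, y.1.ring.sub_mem e3 e4⟩
  have hinvUV : zeroPart (U + V)⁻¹ = Finsupp.single p 4 := by
    ext y
    by_cases hy : y = p
    · rw [hy, Finsupp.single_eq_same, zeroPart_apply, Place.ord_inv, hordp]
      norm_num
    · rw [Finsupp.single_eq_of_ne hy, zeroPart_apply, Place.ord_inv]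
      have := y.1.ord_nonneg_of_mem (hUVfin y hy).1
      omega
  have hAUV : A (zeroPart (U + V)) = (4 : ℤ) • α := by
    have e1 := hdiv (U + V)
    rw [div_eq_sub, map_sub, sub_eq_zero] at e1
    rw [e1, hinvUV, hsingle]
  have hdegUV : deg (zeroPart (U + V)) = 4 := by
    have e1 := deg_div (k := ℂ) (U + V)
    rw [div_eq_sub, map_sub, sub_eq_zero] at e1
    rw [e1, hinvUV, deg_single]
  -- the two parts
  have hkey : ∀ y : PlaceOver ℂ E, 0 < y.1.ord (U + V) →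
      y.1.ord (U + V) = max (y.1.ord (t - algebraMap ℂ E x₀)) 0 +
        3 * max (y.1.ord (t - algebraMap ℂ E x₁)) 0 := by
    intro y hy
    have hyp : y ≠ p := by
      rintro rfl
      rw [hordp] at hy
      norm_num at hy
    obtain ⟨e1, e2⟩ := hUVfin y hyp
    have e3 := y.1.ord_nonneg_of_mem e2
    have e4 : 0 ≤ y.1.ord (t - algebraMap ℂ E x₀) :=
      y.1.ord_nonneg_of_mem (y.1.ring.sub_mem (hfin y hyp).1 (y.2 x₀))
    have e5 : 0 ≤ y.1.ord (t - algebraMap ℂ E x₁) :=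
      y.1.ord_nonneg_of_mem (y.1.ring.sub_mem (hfin y hyp).1 (y.2 x₁))
    have e6 := congrArg y.1.ord hprod
    rw [Place.ord_mul _ hUV hUV', Place.ord_mul _ hs0 (pow_ne_zero 3 hs1), Place.ord_pow] at e6
    push_cast at e6
    have e7 : y.1.ord (U - V) = 0 := by
      by_contra hne
      have e8 : 0 < y.1.ord (U - V) := by omega
      have e9 : 0 < y.1.ord V := by
        have f1 : V = (1 / 2 : ℂ) • ((U + V) + (-(U - V))) := by
          rw [Algebra.smul_def]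
          have f2 : algebraMap ℂ E (1 / 2) * 2 = 1 := by
            have f3 : (2 : E) = algebraMap ℂ E 2 := (map_ofNat (algebraMap ℂ E) 2).symm
            rw [f3, ← map_mul]
            norm_num
          linear_combination (-V) * f2
        have f4 : (U + V) + (-(U - V)) ≠ 0 := by
          intro f5
          rw [f5, smul_zero] at f1
          exact hV0 f1
        have f6 := y.1.min_ord_le_add hUV (neg_ne_zero.2 hUV') f4
        rw [Place.ord_neg] at f6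
        rw [f1, Algebra.smul_def, Place.ord_mul _ (by rw [Ne, map_eq_zero]; norm_num) f4,
          ord_const]
        omega
      have e10 : 0 < y.1.ord θ := by
        rw [hV, Place.ord_mul _ hβE hθ0, ord_const] at e9
        omega
      have e11 : ∀ c : ℂ, 0 < y.1.ord (t - algebraMap ℂ E c) → c ^ 3 + a * c + b = 0 := by
        intro c hc
        by_contra hne'
        have f1 := ord_aeval_eq_zero y hc (X ^ 3 + C a * X + C b : ℂ[X]) (by
          simpa using hne')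
        have f2 : aeval t (X ^ 3 + C a * X + C b : ℂ[X]) = θ ^ 2 := by
          rw [hθ]; simp
        rw [f2, Place.ord_pow] at f1
        push_cast at f1
        omega
      have e12 : ¬ 0 < y.1.ord (t - algebraMap ℂ E x₀) := fun h => hroot (e11 x₀ h)
      have e13 : ¬ 0 < y.1.ord (t - algebraMap ℂ E x₁) := fun h => hroot₁ (e11 x₁ h)
      omega
    omega
  set ζ₀ := (zeroPart (t - algebraMap ℂ E x₀)).filter (fun y => 0 < y.1.ord (U + V)) with hζ₀
  set ζ₁ := (zeroPart (t - algebraMap ℂ E x₁)).filter (fun y => 0 < y.1.ord (U + V)) with hζ₁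
  have hsum : zeroPart (U + V) = ζ₀ + (3 : ℤ) • ζ₁ := by
    ext y
    rw [Finsupp.add_apply, Finsupp.smul_apply, hζ₀, hζ₁, Finsupp.filter_apply,
      Finsupp.filter_apply, zeroPart_apply, zeroPart_apply, zeroPart_apply, smul_eq_mul]
    by_cases hy : 0 < y.1.ord (U + V)
    · rw [if_pos hy, if_pos hy, ← hkey y hy]
      omega
    · rw [if_neg hy, if_neg hy]
      omega
  have hζ₀n : 0 ≤ ζ₀ := by
    intro y
    rw [hζ₀, Finsupp.filter_apply]
    split_ifs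
    · exact zeroPart_nonneg _ y
    · exact le_rfl
  have hζ₀' : 0 ≤ zeroPart (t - algebraMap ℂ E x₀) - ζ₀ := by
    intro y
    rw [Finsupp.sub_apply, hζ₀, Finsupp.filter_apply]
    split_ifs
    · rw [sub_self]; exact le_rfl
    · rw [sub_zero]; exact zeroPart_nonneg _ y
  have hdegn : ∀ z : PlaceOver ℂ E →₀ ℤ, 0 ≤ z → 0 ≤ deg z := by
    intro z hz
    exact Finset.sum_nonneg fun a _ => hz a
  have hd0 := hdegn _ hζ₀n
  have hd1 := hdegn _ hζ₀'
  rw [map_sub, hdegZ] at hd1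
  have hd2 := congrArg deg hsum
  rw [hdegUV, map_add, map_zsmul, smul_eq_mul] at hd2
  have hd3 : deg ζ₀ = 1 := by omega
  have hd4 : deg ζ₁ = 1 := by omega
  have hA0 : A ζ₀ = α := by
    have e1 := congrArg A hsum
    rw [hAUV, map_add, map_zsmul, h3, hd4, mul_one] at e1
    calc A ζ₀ = (A ζ₀ + (3 : ℤ) • α) - (3 : ℤ) • α := by abel
      _ = α := by rw [← e1, ← sub_smul]; norm_num
  have hx1 : 1 ≤ zeroPart (t - algebraMap ℂ E x₀) x := by
    rw [zeroPart_apply]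
    omega
  by_cases hx : 1 ≤ ζ₀ x
  · rw [← hone ζ₀ x hζ₀n hd3 hx, hA0]
  · have e1 : 1 ≤ (zeroPart (t - algebraMap ℂ E x₀) - ζ₀) x := by
      rw [Finsupp.sub_apply]
      have := hζ₀n x
      have f1 : (0 : PlaceOver ℂ E →₀ ℤ) x = 0 := rfl
      omega
    rw [← hone _ x hζ₀' (by rw [map_sub, hdegZ, hd3]; norm_num) e1, map_sub, hA0, hZα]
    calc (2 : ℤ) • α - α = (2 : ℤ) • α - (1 : ℤ) • α := by rw [one_smul]
      _ = α := by rw [← sub_smul]; norm_num

/-- The same for a cubic with three distinct roots. -/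
theorem third_const_three [IsFF ℂ E] {t θ : E} (ht : Transcendental ℂ t) (c r₁ r₂ r₃ : ℂ)
    (hc : c ≠ 0) (h₁₂ : r₁ ≠ r₂) (h₁₃ : r₁ ≠ r₃) (h₂₃ : r₂ ≠ r₃)
    (hθ : θ ^ 2 = algebraMap ℂ E c * ((t - algebraMap ℂ E r₁) * (t - algebraMap ℂ E r₂) *
      (t - algebraMap ℂ E r₃)))
    (hspan : ∀ x : E, ∃ c ∈ ℂ⟮t⟯, ∃ d ∈ ℂ⟮t⟯, x = c + d * θ) {Q : Type*} [AddCommGroup Q]
    (A : (PlaceOver ℂ E →₀ ℤ) →+ Q) (hdiv : ∀ F : E, A (div ℂ F) = 0)
    (hthree : ∀ w w' : PlaceOver ℂ E, (3 : ℤ) • A (Finsupp.single w 1) =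
      (3 : ℤ) • A (Finsupp.single w' 1)) (w w' : PlaceOver ℂ E) :
    A (Finsupp.single w 1) = A (Finsupp.single w' 1) := by
  obtain ⟨k, hk⟩ := IsAlgClosed.exists_pow_nat_eq c (n := 2) two_pos
  have hk0 : k ≠ 0 := by
    rintro rfl
    apply hc
    rw [← hk]
    ring
  have hkE : algebraMap ℂ E k ≠ 0 := by simpa using hk0
  obtain ⟨m, hm⟩ : ∃ m : ℂ, 3 * m = r₁ + r₂ + r₃ := ⟨(r₁ + r₂ + r₃) / 3, by ring⟩
  refine third_const (t := t - algebraMap ℂ E m) (θ := θ * (algebraMap ℂ E k)⁻¹)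
    (transcendental_sub ht m)
    ((r₁ - m) * (r₂ - m) + (r₁ - m) * (r₃ - m) + (r₂ - m) * (r₃ - m))
    (-((r₁ - m) * (r₂ - m) * (r₃ - m))) ?_ ?_ ?_ A hdiv hthree w w'
  · have h1 : 4 * ((r₁ - m) * (r₂ - m) + (r₁ - m) * (r₃ - m) + (r₂ - m) * (r₃ - m)) ^ 3 +
        27 * (-((r₁ - m) * (r₂ - m) * (r₃ - m))) ^ 2 =
        -((r₁ - r₂) * (r₁ - r₃) * (r₂ - r₃)) ^ 2 := by
      have h2 : r₃ = 3 * m - r₁ - r₂ := by linear_combination -hm
      rw [h2]
      ring
    rw [h1]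
    exact neg_ne_zero.2 (pow_ne_zero _ (mul_ne_zero (mul_ne_zero (sub_ne_zero.2 h₁₂)
      (sub_ne_zero.2 h₁₃)) (sub_ne_zero.2 h₂₃)))
  · have h2 : (3 : E) * algebraMap ℂ E m = algebraMap ℂ E r₁ + algebraMap ℂ E r₂ +
        algebraMap ℂ E r₃ := by
      have h3 := congrArg (algebraMap ℂ E) hm
      simp only [map_mul, map_add, map_ofNat] at h3
      exact h3
    have h4 : algebraMap ℂ E c = (algebraMap ℂ E k) ^ 2 := by rw [← hk, map_pow]
    rw [mul_pow, hθ, h4, inv_pow]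
    simp only [map_mul, map_add, map_sub, map_neg]
    rw [mul_comm, ← mul_assoc, inv_mul_cancel₀ (pow_ne_zero 2 hkE), one_mul]
    linear_combination (t - algebraMap ℂ E m) ^ 2 * h2
  · intro x
    obtain ⟨u, hu, v, hv, rfl⟩ := hspan x
    rw [adjoin_sub]
    refine ⟨u, hu, v * algebraMap ℂ E k, mul_mem hv (ℂ⟮t⟯.algebraMap_mem k), ?_⟩
    field_simp

/-- The same for a quartic with four distinct roots. -/
theorem third_const_four [IsFF ℂ E] {t θ : E} (ht : Transcendental ℂ t) (c r₁ r₂ r₃ r₄ : ℂ)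
    (hc : c ≠ 0) (h₁₂ : r₁ ≠ r₂) (h₁₃ : r₁ ≠ r₃) (h₂₃ : r₂ ≠ r₃) (h₁₄ : r₁ ≠ r₄)
    (h₂₄ : r₂ ≠ r₄) (h₃₄ : r₃ ≠ r₄)
    (hθ : θ ^ 2 = algebraMap ℂ E c * ((t - algebraMap ℂ E r₁) * (t - algebraMap ℂ E r₂) *
      (t - algebraMap ℂ E r₃) * (t - algebraMap ℂ E r₄)))
    (hspan : ∀ x : E, ∃ c ∈ ℂ⟮t⟯, ∃ d ∈ ℂ⟮t⟯, x = c + d * θ) {Q : Type*} [AddCommGroup Q]
    (A : (PlaceOver ℂ E →₀ ℤ) →+ Q) (hdiv : ∀ F : E, A (div ℂ F) = 0)
    (hthree : ∀ w w' : PlaceOver ℂ E, (3 : ℤ) • A (Finsupp.single w 1) =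
      (3 : ℤ) • A (Finsupp.single w' 1)) (w w' : PlaceOver ℂ E) :
    A (Finsupp.single w 1) = A (Finsupp.single w' 1) := by
  have hs : t - algebraMap ℂ E r₄ ≠ 0 := sub_ne_zero_of_tr ht r₄
  have hne : ∀ r : ℂ, r ≠ r₄ → algebraMap ℂ E r₄ - algebraMap ℂ E r ≠ 0 := by
    intro r hr h0
    apply hr
    exact (algebraMap ℂ E).injective (sub_eq_zero.1 h0).symm
  have d₁ := hne _ h₁₄
  have d₂ := hne _ h₂₄
  have d₃ := hne _ h₃₄
  refine third_const_three (t := (t - algebraMap ℂ E r₄)⁻¹)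
    (θ := θ * ((t - algebraMap ℂ E r₄)⁻¹) ^ 2)
    (fun hcon => transcendental_sub ht r₄ (by simpa using hcon.inv))
    (c * ((r₄ - r₁) * (r₄ - r₂) * (r₄ - r₃))) (-1 / (r₄ - r₁)) (-1 / (r₄ - r₂)) (-1 / (r₄ - r₃))
    ?_ ?_ ?_ ?_ ?_ ?_ A hdiv hthree w w'
  · exact mul_ne_zero hc (mul_ne_zero (mul_ne_zero (sub_ne_zero.2 h₁₄.symm)
      (sub_ne_zero.2 h₂₄.symm)) (sub_ne_zero.2 h₃₄.symm))
  · intro h0
    rw [div_eq_div_iff (sub_ne_zero.2 h₁₄.symm) (sub_ne_zero.2 h₂₄.symm)] at h0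
    exact h₁₂ (by linear_combination -h0)
  · intro h0
    rw [div_eq_div_iff (sub_ne_zero.2 h₁₄.symm) (sub_ne_zero.2 h₃₄.symm)] at h0
    exact h₁₃ (by linear_combination -h0)
  · intro h0
    rw [div_eq_div_iff (sub_ne_zero.2 h₂₄.symm) (sub_ne_zero.2 h₃₄.symm)] at h0
    exact h₂₃ (by linear_combination -h0)
  · rw [mul_pow, hθ]
    simp only [map_mul, map_sub, map_div₀, map_neg, map_one]
    field_simp
    ring
  · intro x
    obtain ⟨u, hu, v, hv, rfl⟩ := hspan x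
    rw [adjoin_inv_eq, adjoin_sub]
    refine ⟨u, hu, v * (t - algebraMap ℂ E r₄) ^ 2, mul_mem hv (pow_mem (sub_mem
      (IntermediateField.mem_adjoin_simple_self ℂ t) (ℂ⟮t⟯.algebraMap_mem r₄)) 2), ?_⟩
    field_simp

/-- The same for a squarefree polynomial of degree three or four. -/
theorem third_const_poly [IsFF ℂ E] {t θ : E} (ht : Transcendental ℂ t) (q : ℂ[X])
    (hq : Squarefree q) (hdeg : q.natDegree = 3 ∨ q.natDegree = 4)
    (hθ : θ ^ 2 = aeval t q)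
    (hspan : ∀ x : E, ∃ c ∈ ℂ⟮t⟯, ∃ d ∈ ℂ⟮t⟯, x = c + d * θ) {Q : Type*} [AddCommGroup Q]
    (A : (PlaceOver ℂ E →₀ ℤ) →+ Q) (hdiv : ∀ F : E, A (div ℂ F) = 0)
    (hthree : ∀ w w' : PlaceOver ℂ E, (3 : ℤ) • A (Finsupp.single w 1) =
      (3 : ℤ) • A (Finsupp.single w' 1)) (w w' : PlaceOver ℂ E) :
    A (Finsupp.single w 1) = A (Finsupp.single w' 1) := by
  have hsplit : q.Splits := IsAlgClosed.splits q
  have hnodup : q.roots.Nodup := nodup_roots_iff_of_splits hq.ne_zero hsplit |>.2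
    (PerfectField.separable_iff_squarefree.2 hq)
  have hcard : q.roots.card = q.natDegree := hsplit.natDegree_eq_card_roots.symm
  have hq0 : q.leadingCoeff ≠ 0 := leadingCoeff_ne_zero.2 hq.ne_zero
  have hprod : q = C q.leadingCoeff * (q.roots.map (fun r => X - C r)).prod :=
    hsplit.eq_prod_roots
  rcases hdeg with hdeg | hdeg
  · rw [hdeg, Multiset.card_eq_three] at hcard
    obtain ⟨r₁, r₂, r₃, hr⟩ := hcard
    rw [hr] at hnodup hprod
    simp only [Multiset.insert_eq_cons, Multiset.nodup_cons, Multiset.mem_cons,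
      Multiset.mem_singleton, Multiset.nodup_singleton, not_or, and_true] at hnodup
    refine third_const_three ht q.leadingCoeff r₁ r₂ r₃ hq0 hnodup.1.1 hnodup.1.2 hnodup.2 ?_
      hspan A hdiv hthree w w'
    have h := congrArg (aeval t) hprod
    simp only [Multiset.insert_eq_cons, Multiset.map_cons, Multiset.prod_cons,
      Multiset.map_singleton, Multiset.prod_singleton, map_mul, map_sub, aeval_X, aeval_C] at h
    rw [hθ, h]
    ring
  · obtain ⟨r₄, hr₄⟩ : ∃ r, r ∈ q.roots := Multiset.card_pos_iff_exists_mem.1 (by omega)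
    obtain ⟨s, hs⟩ := Multiset.exists_cons_of_mem hr₄
    rw [hdeg, hs, Multiset.card_cons, Nat.succ_inj, Multiset.card_eq_three] at hcard
    obtain ⟨r₁, r₂, r₃, hr⟩ := hcard
    rw [hs, hr] at hnodup hprod
    simp only [Multiset.insert_eq_cons, Multiset.nodup_cons, Multiset.mem_cons,
      Multiset.mem_singleton, Multiset.nodup_singleton, not_or, and_true] at hnodup
    obtain ⟨⟨n₄₁, n₄₂, n₄₃⟩, ⟨n₁₂, n₁₃⟩, n₂₃⟩ := hnodup
    refine third_const_four ht q.leadingCoeff r₁ r₂ r₃ r₄ hq0 n₁₂ n₁₃ n₂₃ (Ne.symm n₄₁)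
      (Ne.symm n₄₂) (Ne.symm n₄₃) ?_ hspan A hdiv hthree w w'
    have h := congrArg (aeval t) hprod
    simp only [Multiset.insert_eq_cons, Multiset.map_cons, Multiset.prod_cons,
      Multiset.map_singleton, Multiset.prod_singleton, map_mul, map_sub, aeval_X, aeval_C] at h
    rw [hθ, h]
    ring

/-- Divisibility by three of the classes of degree zero on the curve with function field `E`. -/
def ThirdProp (E : Type) [Field E] [Algebra ℂ E] [IsFF ℂ E] : Prop :=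
  ∀ (Q : Type) [AddCommGroup Q] (A : (PlaceOver ℂ E →₀ ℤ) →+ Q), (∀ F : E, A (div ℂ F) = 0) →
    (∀ w w' : PlaceOver ℂ E, (3 : ℤ) • A (Finsupp.single w 1) =
      (3 : ℤ) • A (Finsupp.single w' 1)) →
    ∀ w w' : PlaceOver ℂ E, A (Finsupp.single w 1) = A (Finsupp.single w' 1)

theorem thirdProp_poly (E : Type) [Field E] [Algebra ℂ E] [IsFF ℂ E] {t θ : E}
    (ht : Transcendental ℂ t) (q : ℂ[X]) (hq : Squarefree q)
    (hdeg : q.natDegree = 3 ∨ q.natDegree = 4) (hθ : θ ^ 2 = aeval t q)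
    (hspan : ∀ x : E, ∃ c ∈ ℂ⟮t⟯, ∃ d ∈ ℂ⟮t⟯, x = c + d * θ) : ThirdProp E :=
  fun _ _ A hdiv hthree w w' => third_const_poly ht q hq hdeg hθ hspan A hdiv hthree w w'

end Vale.Agent.P297.H72
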