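import Vale.Agent.P297.H72.Fib

/-!
Generic points of plane curves and function fields in one variable inside the big field.
-/

set_option linter.unusedSectionVars false
set_option linter.style.haveILetI false

open IntermediateField Polynomial

namespace Vale.Agent.P297.H72

open Vale.Agent.P297

theorem trdeg_ratFunc : Algebra.trdeg ℂ (RatFunc ℂ) = 1 := by
  haveI : Algebra.IsAlgebraic ℂ[X] (RatFunc ℂ) :=
    IsLocalization.isAlgebraic _ (nonZeroDivisors ℂ[X])
  have h := trdeg_add_eq ℂ ℂ[X] (A := RatFunc ℂ)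
  rw [Polynomial.trdeg_of_isDomain, trdeg_eq_zero, add_zero] at h
  exact h.symm

theorem trdeg_om : Algebra.trdeg ℂ Om = 1 := by
  have h := trdeg_add_eq ℂ (RatFunc ℂ) (A := Om)
  rw [trdeg_ratFunc, trdeg_eq_zero, add_zero] at h
  exact h.symm

/-- **[P2]** -/
theorem isFF_adjoin_om (v : Om) (hv : Transcendental ℂ v) (T : Set Om) (hT : T.Finite)
    (hvT : v ∈ IntermediateField.adjoin ℂ T) : IsFF ℂ (IntermediateField.adjoin ℂ T) := by
  refine ⟨IntermediateField.essFiniteType_iff.2 (IntermediateField.fg_adjoin_of_finite hT), ?_⟩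
  apply le_antisymm
  · rw [← trdeg_om]
    exact trdeg_le_of_injective (IntermediateField.adjoin ℂ T).val
      (IntermediateField.adjoin ℂ T).val.toRingHom.injective
  · rw [Cardinal.one_le_iff_ne_zero, trdeg_ne_zero_iff]
    refine ⟨⟨v, hvT⟩, fun h => hv ?_⟩
    exact (isAlgebraic_algHom_iff (IntermediateField.adjoin ℂ T).val
      (IntermediateField.adjoin ℂ T).val.toRingHom.injective).2 h

/-- **[P1]** generic point of the plane curve `π = 0` -/
theorem exists_plane (π : ℂ[X][X]) (hπ : Irreducible π) (hdeg : 0 < π.natDegree) :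
    ∃ v l : Om, Transcendental ℂ v ∧ ∀ p : ℂ[X][X], ev v l p = 0 ↔ π ∣ p := by
  have hprim : π.IsPrimitive := hπ.isPrimitive hdeg.ne'
  let K := RatFunc ℂ
  let i : ℂ[X] →+* K := algebraMap ℂ[X] K
  have hi : Function.Injective i := IsFractionRing.injective ℂ[X] K
  have hirr : Irreducible (π.map i) :=
    (hprim.irreducible_iff_irreducible_map_fraction_map (K := K)).1 hπ
  have hdeg' : (π.map i).degree ≠ 0 := by
    rw [degree_map_eq_of_injective hi, degree_eq_natDegree hπ.ne_zero]
    exact_mod_cast hdeg.ne'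
  obtain ⟨l, hl⟩ := IsAlgClosed.exists_aeval_eq_zero Om (π.map i) hdeg'
  obtain ⟨v, hv⟩ : ∃ v : Om, v = algebraMap K Om (RatFunc.X : RatFunc ℂ) := ⟨_, rfl⟩
  have hvtr : Transcendental ℂ v := by
    rw [hv]
    intro halg
    have h1 : IsAlgebraic ℂ (RatFunc.X : RatFunc ℂ) :=
      (isAlgebraic_algebraMap_iff (algebraMap K Om).injective).1 halg
    exact RatFunc.transcendental_X h1
  have hev : ∀ p : ℂ[X][X], ev v l p = aeval l (p.map i) := by
    let φ : ℂ[X][X] →ₐ[ℂ] Om :=
      { (aeval l : K[X] →ₐ[K] Om).toRingHom.comp (mapRingHom i) with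
        commutes' := by
          intro a
          change aeval l ((C (C a)).map i) = _
          rw [map_C, aeval_C]
          change algebraMap K Om (algebraMap ℂ[X] K (C a)) = _
          rw [← Polynomial.algebraMap_eq, ← IsScalarTower.algebraMap_apply ℂ ℂ[X] K,
            ← IsScalarTower.algebraMap_apply ℂ K Om] }
    have h : ev v l = φ := by
      apply ev_hom_ext
      · rw [ev_CX]
        change v = aeval l ((C X).map i)
        rw [map_C, aeval_C, hv]
        congr 1
      · rw [ev_X]
        change l = aeval l (Polynomial.map i X)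
        rw [map_X, aeval_X]
    intro p
    rw [h]
    rfl
  refine ⟨v, l, hvtr, fun p => ?_⟩
  have hmin : minpoly K l = (π.map i) * C (π.map i).leadingCoeff⁻¹ :=
    (minpoly.eq_of_irreducible hirr hl).symm
  have hlc : (π.map i).leadingCoeff⁻¹ ≠ 0 := inv_ne_zero (leadingCoeff_ne_zero.2 hirr.ne_zero)
  have hunit : IsUnit (C (π.map i).leadingCoeff⁻¹) := isUnit_C.2 (isUnit_iff_ne_zero.2 hlc)
  have h1 : ev v l p = 0 ↔ π.map i ∣ p.map i := by
    rw [hev, ← minpoly.dvd_iff, hmin]
    exact hunit.mul_right_dvd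
  rw [h1]
  constructor
  · exact fun h => hprim.dvd_of_fraction_map_dvd_fraction_map (K := K) h
  · rintro ⟨q, rfl⟩
    rw [Polynomial.map_mul]
    exact dvd_mul_right _ _

end Vale.Agent.P297.H72
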