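import Vale.Agent.P297.H72.OctA
import Vale.Agent.P297.H777.GenFacts

/-!
Specialisation of the fibres of the quadratic map of a web of quadrics.
-/

set_option linter.unusedSectionVars false
set_option linter.style.haveILetI false
set_option linter.unusedSimpArgs false

open CategoryTheory AlgebraicGeometry IntermediateField Polynomial

namespace Vale.Agent.P297.C8

open Vale.Agent.P297 Vale.Agent.P297.H729 Vale.Agent.P297.H516 Vale.Agent.P297.H839
open Vale.Agent.P297.H72 Vale.Agent.P297.H777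

theorem qb_eq_jac {R : Type} [CommRing R] [Algebra ℂ R] (Q : Web) (d o : Fin 4 → R) :
    qb Q d o = (jac Q o).mulVec d := (jac_mulVec Q o d).symm

theorem det_jac_eq_zero {N : Type} [Field N] [Algebra ℂ N] {Q : Web} {d o : Fin 4 → N}
    (hd : d ≠ 0) (h : qb Q d o = 0) : (jac Q o).det = 0 :=
  Matrix.exists_mulVec_eq_zero_iff.mp ⟨d, hd, by rw [← qb_eq_jac, h]⟩

/-- The quadratic map is not ramified over the value at `o`. -/
def Unram {N : Type} [Field N] [Algebra ℂ N] (Q : Web) (o : Fin 4 → N) : Prop :=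
  ∀ o' : Fin 4 → N, qq Q o' = qq Q o → (jac Q o').det ≠ 0

/-- The fibre of the quadratic map through `o` has at least three points up to sign. -/
def Three {N : Type} [Field N] [Algebra ℂ N] (Q : Web) (o : Fin 4 → N) : Prop :=
  ∃ o' o'' : Fin 4 → N, qq Q o' = qq Q o ∧ qq Q o'' = qq Q o ∧ o' ≠ o ∧ o' ≠ -o ∧ o'' ≠ o ∧
    o'' ≠ -o ∧ o'' ≠ o' ∧ o'' ≠ -o'

theorem qq_neg {R : Type} [CommRing R] [Algebra ℂ R] (Q : Web) (o : Fin 4 → R) :
    qq Q (-o) = qq Q o := by
  have h := qq_smul Q (-1 : R) o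
  rw [neg_one_sq, one_smul, neg_one_smul] at h
  exact h

section

variable {N N₁ : Type} [Field N] [Field N₁] [Algebra N N₁] [Algebra ℂ N] [Algebra ℂ N₁]
  [IsScalarTower ℂ N N₁] {P : Plc N N₁} {Q : Web}

theorem val_det {o : Fin 4 → N₁} {o₀ : Fin 4 → N} (h : ∀ j, P.Val (o j) (o₀ j)) :
    P.Val (jac Q o).det (jac Q o₀).det := by
  rw [Matrix.det_apply', Matrix.det_apply']
  refine Plc.Val.sum _ fun σ _ => Plc.Val.mul ?_ (Plc.Val.prod _ fun i _ => ?_)
  · have h1 := P.val_const ((Equiv.Perm.sign σ : ℤ) : N)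
    rwa [map_intCast] at h1
  · change P.Val (∑ b, algebraMap ℂ N₁ (Q (σ i) i b) * o b)
      (∑ b, algebraMap ℂ N (Q (σ i) i b) * o₀ b)
    refine Plc.Val.sum _ fun b _ => Plc.Val.mul ?_ (h b)
    rw [IsScalarTower.algebraMap_apply ℂ N N₁]
    exact P.val_const _

theorem unram_of_plc (hfin : NoBase Q) {o : Fin 4 → N} {o₁ : Fin 4 → N₁}
    (h : ∀ i, P.Val (o₁ i) (o i)) (hg : Unram Q o) : Unram Q o₁ := by
  intro o' ho'
  have h1 : ∀ i, P.Val (qq Q o' i) (qq Q o i) := fun i => by
    rw [ho']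
    exact val_qb h h i
  obtain ⟨o₀, h0⟩ := plc_exists_val hfin P o' _ h1
  have h2 : qq Q o₀ = qq Q o := funext fun i => (val_qb h0 h0 i).unique (h1 i)
  exact (val_det h0).ne_zero (hg o₀ h2)

theorem ne_of_plc (hsym : ∀ i, (Q i).IsSymm) {o a₀ b₀ : Fin 4 → N} (hg : Unram Q o)
    {a b : Fin 4 → N₁}
    (ha : ∀ i, P.Val (a i) (a₀ i)) (hb : ∀ i, P.Val (b i) (b₀ i)) (ho : qq Q a₀ = qq Q o)
    (hab : qq Q a = qq Q b) (hne : b ≠ a) : b₀ ≠ a₀ := by
  classical
  intro h0
  subst h0
  have h1 : qb Q (b - a) (a + b) = 0 := by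
    have h2 : b - a = b + (-1 : N₁) • a := by
      rw [neg_one_smul, sub_eq_add_neg]
    have h3 : qb Q b b = qb Q a a := hab.symm
    rw [h2, qb_add_left, qb_add_right, qb_add_right, qb_smul_left, qb_smul_left, h3,
      qb_comm hsym b a]
    funext i
    simp only [Pi.add_apply, Pi.smul_apply, smul_eq_mul, Pi.zero_apply]
    ring
  obtain ⟨k, hk⟩ := Finite.exists_max (fun i => P.V.valuation ((b - a) i))
  have hd : b - a ≠ 0 := sub_ne_zero.mpr hne
  have hk0 : (b - a) k ≠ 0 := by
    intro h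
    apply hd
    funext i
    have h2 := hk i
    rw [h, map_zero] at h2
    exact (Valuation.zero_iff _).mp (le_antisymm h2 zero_le)
  have hx : ∀ i, ((b - a) k)⁻¹ * (b - a) i ∈ P.V := by
    intro i
    rw [← P.V.valuation_le_one_iff, map_mul, map_inv₀]
    have h1 := hk i
    calc (P.V.valuation ((b - a) k))⁻¹ * P.V.valuation ((b - a) i)
        ≤ (P.V.valuation ((b - a) k))⁻¹ * P.V.valuation ((b - a) k) := by gcongr
      _ = 1 := inv_mul_cancel₀ ((Valuation.ne_zero_iff _).mpr hk0)
  let e : Fin 4 → N := fun i => P.p ⟨_, hx i⟩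
  have he : ∀ i, P.Val ((((b - a) k)⁻¹ • (b - a)) i) (e i) := fun i => ⟨hx i, rfl⟩
  have hek : e ≠ 0 := by
    intro h
    have h2 := he k
    rw [Pi.smul_apply, smul_eq_mul, inv_mul_cancel₀ hk0, h] at h2
    exact one_ne_zero (P.val_one.unique h2)
  have h4 : qb Q (((b - a) k)⁻¹ • (b - a)) (a + b) = 0 := by
    rw [qb_smul_left, h1, smul_zero]
  have h5 : qb Q e (b₀ + b₀) = 0 := by
    funext i
    have h6 := val_qb (Q := Q) he (o' := a + b) (o₀' := b₀ + b₀)
      (fun j => (ha j).add (hb j)) i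
    rw [h4] at h6
    exact (P.val_zero.unique h6).symm
  have h7 : qb Q e b₀ = 0 := by
    rw [qb_add_right] at h5
    funext i
    have h8 := congrFun h5 i
    rw [Pi.add_apply, Pi.zero_apply, ← two_mul] at h8
    haveI : CharZero N := charZero_of_injective_algebraMap (algebraMap ℂ N).injective
    rcases mul_eq_zero.mp h8 with h9 | h9
    · exact absurd h9 two_ne_zero
    · exact h9
  exact hg b₀ ho (det_jac_eq_zero hek h7)

theorem three_of_plc (hsym : ∀ i, (Q i).IsSymm) (hfin : NoBase Q) {o : Fin 4 → N}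
    {o₁ : Fin 4 → N₁}
    (h : ∀ i, P.Val (o₁ i) (o i)) (hg : Unram Q o) (ht : Three Q o₁) : Three Q o := by
  obtain ⟨a, b, ha, hb, h1, h2, h3, h4, h5, h6⟩ := ht
  have hyo : ∀ i, P.Val (qq Q o₁ i) (qq Q o i) := fun i => val_qb h h i
  obtain ⟨a₀, ha0⟩ := plc_exists_val hfin P a _ (fun i => by
    rw [ha]
    exact hyo i)
  obtain ⟨b₀, hb0⟩ := plc_exists_val hfin P b _ (fun i => by
    rw [hb]
    exact hyo i)
  have hqa : qq Q a₀ = qq Q o := funext fun i => by
    have h7 := val_qb (Q := Q) ha0 ha0 i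
    have h8 : qb Q a a i = qq Q o₁ i := congrFun ha i
    rw [h8] at h7
    exact h7.unique (hyo i)
  have hqb : qq Q b₀ = qq Q o := funext fun i => by
    have h7 := val_qb (Q := Q) hb0 hb0 i
    have h8 : qb Q b b i = qq Q o₁ i := congrFun hb i
    rw [h8] at h7
    exact h7.unique (hyo i)
  have hno : ∀ i, P.Val ((-o₁) i) ((-o) i) := fun i => (h i).neg
  have hna : ∀ i, P.Val ((-a) i) ((-a₀) i) := fun i => (ha0 i).neg
  refine ⟨a₀, b₀, hqa, hqb, ?_, ?_, ?_, ?_, ?_, ?_⟩
  · exact ne_of_plc hsym hg h ha0 rfl ha.symm h1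
  · exact ne_of_plc hsym hg hno ha0 (qq_neg Q o) (by rw [qq_neg, ha]) h2
  · exact ne_of_plc hsym hg h hb0 rfl hb.symm h3
  · exact ne_of_plc hsym hg hno hb0 (qq_neg Q o) (by rw [qq_neg, hb]) h4
  · exact ne_of_plc hsym hg ha0 hb0 hqa (by rw [ha, hb]) h5
  · exact ne_of_plc hsym hg hna hb0 (by rw [qq_neg, hqa]) (by rw [qq_neg, ha, hb]) h6

end

section bump

variable {N : Type} [Field N] [Algebra ℂ N]

/-- Move one coordinate by a new variable. -/
noncomputable def bump (o : Fin 4 → N) (k : Fin 4) : Fin 4 → EpsField N :=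
  fun i => algebraMap N (EpsField N) (o i) + if i = k then epsVar N else 0

theorem bump_val (o : Fin 4 → N) (k : Fin 4) {P : Plc N (EpsField N)}
    (hP : P.Val (epsVar N) 0) (i : Fin 4) : P.Val (bump o k i) (o i) := by
  have h : P.Val (if i = k then epsVar N else 0) 0 := by
    split_ifs
    · exact hP
    · exact P.val_zero
  have h1 := (P.val_const (o i)).add h
  rwa [add_zero] at h1

theorem bump_indep {o : Fin 4 → N} {s : Set (Fin 4)} {k : Fin 4} (hk : k ∉ s)
    (h : AlgebraicIndepOn ℂ o s) : AlgebraicIndepOn ℂ (bump o k) (insert k s) := by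
  have hs : ∀ i ∈ s, bump o k i = algebraMap N (EpsField N) (o i) := by
    intro i hi
    have h1 : i ≠ k := fun h2 => hk (h2 ▸ hi)
    simp only [bump, if_neg h1, add_zero]
  rw [AlgebraicIndepOn.insert_iff hk]
  constructor
  · have h1 := AlgebraicIndependent.map' h (f := IsScalarTower.toAlgHom ℂ N (EpsField N))
      (algebraMap N (EpsField N)).injective
    have h2 : (IsScalarTower.toAlgHom ℂ N (EpsField N)) ∘ (fun i : s => o i) =
        fun i : s => bump o k i := by
      funext i
      exact (hs i i.2).symm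
    rw [h2] at h1
    exact h1
  · intro hA
    have h1 : IsAlgebraic N (bump o k k) := by
      obtain ⟨p, hp0, hp⟩ := hA
      have hle : Algebra.adjoin ℂ (bump o k '' s) ≤
          (IsScalarTower.toAlgHom ℂ N (EpsField N)).range := by
        rw [Algebra.adjoin_le_iff]
        rintro _ ⟨i, hi, rfl⟩
        exact ⟨o i, (hs i hi).symm⟩
      have hint : IsAlgebraic (IsScalarTower.toAlgHom ℂ N (EpsField N)).range (bump o k k) := by
        refine ⟨p.map (Subalgebra.inclusion hle).toRingHom, ?_, ?_⟩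
        · rw [Polynomial.map_ne_zero_iff]
          · exact hp0
          · exact Subalgebra.inclusion_injective hle
        · have h2 := hp
          rw [Polynomial.aeval_def, Polynomial.eval₂_map]
          rw [Polynomial.aeval_def] at h2
          exact h2
      obtain ⟨q, hq0, hq⟩ := hint
      let E := (AlgEquiv.ofInjective (IsScalarTower.toAlgHom ℂ N (EpsField N))
        (algebraMap N (EpsField N)).injective)
      refine ⟨q.map E.symm.toAlgHom.toRingHom, ?_, ?_⟩
      · rw [Polynomial.map_ne_zero_iff]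
        · exact hq0
        · exact E.symm.injective
      · have hc : (algebraMap N (EpsField N)).comp E.symm.toAlgHom.toRingHom =
            algebraMap (IsScalarTower.toAlgHom ℂ N (EpsField N)).range (EpsField N) := by
          refine RingHom.ext fun x => ?_
          obtain ⟨y, rfl⟩ := E.surjective x
          change algebraMap N (EpsField N) (E.symm (E y)) = _
          rw [E.symm_apply_apply]
          rfl
        rw [Polynomial.aeval_def, Polynomial.eval₂_map, hc]
        rw [Polynomial.aeval_def] at hq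
        exact hq
    have h3 : IsAlgebraic N (epsVar N) := by
      have h4 : epsVar N = bump o k k - algebraMap N (EpsField N) (o k) := by
        simp only [bump, if_true]
        ring
      rw [h4]
      exact h1.sub (isAlgebraic_algebraMap _)
    exact epsVar_transcendental N h3

theorem three_of_generic [IsAlgClosed N] {Q : Web} (hsym : ∀ i, (Q i).IsSymm) (hfin : NoBase Q)
    (hgen : ∀ (M : Type) [Field M] [IsAlgClosed M] [Algebra ℂ M] (z : Fin 4 → M),
      AlgebraicIndependent ℂ z → Three Q z)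
    {o : Fin 4 → N} (hg : Unram Q o) : Three Q o := by
  obtain ⟨P0, hP0⟩ := exists_eps (N := N) 0
  have g0 := unram_of_plc hfin (bump_val o 0 hP0) hg
  refine three_of_plc hsym hfin (bump_val o 0 hP0) hg ?_
  obtain ⟨P1, hP1⟩ := exists_eps (N := EpsField N) 0
  have g1 := unram_of_plc hfin (bump_val (bump o 0) 1 hP1) g0
  refine three_of_plc hsym hfin (bump_val (bump o 0) 1 hP1) g0 ?_
  obtain ⟨P2, hP2⟩ := exists_eps (N := EpsField (EpsField N)) 0
  have g2 := unram_of_plc hfin (bump_val (bump (bump o 0) 1) 2 hP2) g1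
  refine three_of_plc hsym hfin (bump_val (bump (bump o 0) 1) 2 hP2) g1 ?_
  obtain ⟨P3, hP3⟩ := exists_eps (N := EpsField (EpsField (EpsField N))) 0
  refine three_of_plc hsym hfin (bump_val (bump (bump (bump o 0) 1) 2) 3 hP3) g2 ?_
  refine hgen _ _ ?_
  have hi : AlgebraicIndepOn ℂ (bump (bump (bump (bump o 0) 1) 2) 3)
      (insert 3 (insert 2 (insert 1 (insert 0 ∅)))) := by
    refine bump_indep (by simp) (bump_indep (by simp) (bump_indep (by simp)
      (bump_indep (by simp) ?_)))
    haveI : IsEmpty (∅ : Set (Fin 4)) := Set.isEmpty_coe_sort.mpr rfl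
    unfold AlgebraicIndepOn
    rw [algebraicIndependent_empty_type_iff]
    exact (algebraMap ℂ N).injective
  have hu : (insert 3 (insert 2 (insert 1 (insert 0 ∅))) : Set (Fin 4)) = Set.univ := by
    ext i
    fin_cases i <;> simp
  rw [hu] at hi
  have h1 := hi.comp (fun i : Fin 4 => (⟨i, trivial⟩ : (Set.univ : Set (Fin 4)))) (fun i j h =>
    congrArg Subtype.val h)
  exact h1

end bump

end Vale.Agent.P297.C8
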