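import Vale.Agent.P297.H777.Octic
import Vale.Agent.P297.H72.Plc
import Mathlib.RingTheory.Nullstellensatz
import Mathlib.RingTheory.Valuation.LocalSubring
import Mathlib.FieldTheory.Minpoly.IsIntegrallyClosed
import Mathlib.FieldTheory.Extension

/-!
Finiteness of the quadratic map of a web of quadrics without base points.
-/

set_option linter.unusedSectionVars false
set_option linter.style.haveILetI false
set_option linter.unusedSimpArgs false

open CategoryTheory AlgebraicGeometry IntermediateField Polynomial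

namespace Vale.Agent.P297.C8

open Vale.Agent.P297 Vale.Agent.P297.H729 Vale.Agent.P297.H516 Vale.Agent.P297.H839
open Vale.Agent.P297.H72 Vale.Agent.P297.H777

/-- The web has no base point. -/
def NoBase (Q : Web) : Prop := ∀ o : Fin 4 → ℂ, qq Q o = 0 → o = 0

theorem aeval_qq_X {R : Type} [CommRing R] [Algebra ℂ R] (Q : Web) (o : Fin 4 → R) (i : Fin 4) :
    MvPolynomial.aeval o (qq Q (MvPolynomial.X : Fin 4 → MvPolynomial (Fin 4) ℂ) i) =
      qq Q o i := by
  rw [map_qq]
  simp only [MvPolynomial.aeval_X]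

theorem exists_pow_mem {Q : Web} (hfin : NoBase Q) (j : Fin 4) :
    ∃ M : ℕ, (MvPolynomial.X j : MvPolynomial (Fin 4) ℂ) ^ M ∈
      Ideal.span (Set.range (qq Q (MvPolynomial.X : Fin 4 → MvPolynomial (Fin 4) ℂ))) := by
  have h : (MvPolynomial.X j : MvPolynomial (Fin 4) ℂ) ∈
      (Ideal.span (Set.range (qq Q (MvPolynomial.X : Fin 4 → MvPolynomial (Fin 4) ℂ)))).radical := by
    rw [← MvPolynomial.vanishingIdeal_zeroLocus_eq_radical (K := ℂ)]
    intro x hx
    rw [MvPolynomial.aeval_X]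
    have h0 : qq Q x = 0 := by
      funext i
      have h1 := hx (qq Q MvPolynomial.X i) (Ideal.subset_span ⟨i, rfl⟩)
      rw [aeval_qq_X] at h1
      exact h1
    rw [hfin x h0]
    rfl
  exact h

/-- A place which is finite at the values of the quadrics is finite at the coordinates. -/
theorem fin_of_val {Q : Web} (hfin : NoBase Q) {K : Type} [Field K] [Algebra ℂ K]
    (V : ValuationSubring K) (hV : ∀ a : ℂ, algebraMap ℂ K a ∈ V) (o : Fin 4 → K)
    (ho : ∀ i, qq Q o i ∈ V) (j : Fin 4) : o j ∈ V := by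
  by_contra hj
  obtain ⟨k, hk⟩ := Finite.exists_max (fun i => V.valuation (o i))
  have hk1 : 1 < V.valuation (o k) := by
    refine lt_of_lt_of_le ?_ (hk j)
    rw [← V.valuation_le_one_iff, not_le] at hj
    exact hj
  have hk0 : o k ≠ 0 := by
    intro h
    rw [h, map_zero] at hk1
    exact absurd hk1 (not_lt.mpr zero_le)
  let O : Subalgebra ℂ K := { V.toSubring with algebraMap_mem' := hV }
  have hO : ∀ x : K, x ∈ O ↔ x ∈ V := fun _ => Iff.rfl
  have hx : ∀ i, (o k)⁻¹ * o i ∈ V := by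
    intro i
    rw [← V.valuation_le_one_iff, map_mul, map_inv₀]
    have h1 := hk i
    calc (V.valuation (o k))⁻¹ * V.valuation (o i)
        ≤ (V.valuation (o k))⁻¹ * V.valuation (o k) := by gcongr
      _ = 1 := inv_mul_cancel₀ (ne_of_gt (lt_trans zero_lt_one hk1))
  have hq : ∀ i, V.valuation (qq Q ((o k)⁻¹ • o) i) < 1 := by
    intro i
    rw [qq_smul, Pi.smul_apply, smul_eq_mul, map_mul, map_pow, map_inv₀]
    have h1 := (V.valuation_le_one_iff _).mpr (ho i)
    have h2 : (V.valuation (o k))⁻¹ < 1 := inv_lt_one_of_one_lt₀ hk1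
    calc (V.valuation (o k))⁻¹ ^ 2 * V.valuation (qq Q o i)
        ≤ (V.valuation (o k))⁻¹ ^ 2 * 1 := by gcongr
      _ < 1 := by
        rw [mul_one]
        exact pow_lt_one₀ zero_le h2 two_ne_zero
  obtain ⟨M, hM⟩ := exists_pow_mem hfin k
  -- the ideal of polynomials whose value is in the maximal ideal
  have key : ∀ f ∈ Ideal.span (Set.range (qq Q (MvPolynomial.X : Fin 4 →
      MvPolynomial (Fin 4) ℂ))), V.valuation (MvPolynomial.aeval ((o k)⁻¹ • o) f) < 1 := by
    intro f hf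
    refine Submodule.span_induction ?_ ?_ ?_ ?_ hf
    · rintro _ ⟨i, rfl⟩
      rw [aeval_qq_X]
      exact hq i
    · rw [map_zero, map_zero]
      exact zero_lt_one
    · intro x y _ _ hx hy
      rw [map_add]
      exact lt_of_le_of_lt (V.valuation.map_add _ _) (max_lt hx hy)
    · intro a x _ hx1
      rw [smul_eq_mul, map_mul, map_mul]
      have h1 : V.valuation (MvPolynomial.aeval ((o k)⁻¹ • o) a) ≤ 1 := by
        rw [V.valuation_le_one_iff, ← hO]
        let x' : Fin 4 → O := fun i => ⟨(o k)⁻¹ * o i, hx i⟩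
        have h2 : MvPolynomial.aeval ((o k)⁻¹ • o) a = O.val (MvPolynomial.aeval x' a) := by
          rw [MvPolynomial.comp_aeval_apply]
          rfl
        rw [h2]
        exact (MvPolynomial.aeval x' a).2
      calc _ ≤ 1 * V.valuation (MvPolynomial.aeval ((o k)⁻¹ • o) x) := by gcongr
        _ < 1 := by rwa [one_mul]
  have h3 := key _ hM
  rw [map_pow, MvPolynomial.aeval_X, Pi.smul_apply, smul_eq_mul, inv_mul_cancel₀ hk0, one_pow,
    map_one] at h3
  exact lt_irrefl _ h3

/-- Values at a place of the coordinates. -/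
theorem plc_exists_val {Q : Web} (hfin : NoBase Q) {N N₁ : Type} [Field N] [Field N₁]
    [Algebra N N₁] [Algebra ℂ N] [Algebra ℂ N₁] [IsScalarTower ℂ N N₁] (P : Plc N N₁)
    (o : Fin 4 → N₁) (y : Fin 4 → N) (hy : ∀ i, P.Val (qq Q o i) (y i)) :
    ∃ o₀ : Fin 4 → N, ∀ j, P.Val (o j) (o₀ j) := by
  have h1 : ∀ j, o j ∈ P.V := fin_of_val hfin P.V (fun a => by
    rw [IsScalarTower.algebraMap_apply ℂ N N₁]
    exact P.mem _) o (fun i => (hy i).mem)
  exact ⟨fun j => P.p ⟨o j, h1 j⟩, fun j => ⟨h1 j, rfl⟩⟩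

theorem val_qb {Q : Web} {N N₁ : Type} [Field N] [Field N₁]
    [Algebra N N₁] [Algebra ℂ N] [Algebra ℂ N₁] [IsScalarTower ℂ N N₁] {P : Plc N N₁}
    {o o' : Fin 4 → N₁} {o₀ o₀' : Fin 4 → N} (ho : ∀ j, P.Val (o j) (o₀ j))
    (ho' : ∀ j, P.Val (o' j) (o₀' j)) (i : Fin 4) :
    P.Val (qb Q o o' i) (qb Q o₀ o₀' i) := by
  rw [qb_apply, qb_apply]
  refine Plc.Val.sum _ fun a _ => Plc.Val.sum _ fun b _ => ?_
  refine Plc.Val.mul ?_ ((ho a).mul (ho' b))
  rw [IsScalarTower.algebraMap_apply ℂ N N₁]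
  exact P.val_const _

end Vale.Agent.P297.C8
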