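import Vale.Agent.P297.H72.Inv

/-!
Extension of a morphism across a fibre, and places over points.
-/

set_option linter.unusedSectionVars false
set_option linter.style.haveILetI false

open CategoryTheory AlgebraicGeometry IntermediateField Polynomial

namespace Vale.Agent.P297.H72

open Vale.Agent.P297

theorem lin_prime (a : ℂ) : Prime (lin a) := by
  unfold lin
  rw [prime_C_iff]
  exact prime_X_sub_C a

theorem ev_eq_eval {E : Type} [Field E] [Algebra ℂ E] (a : ℂ) (l : E) (p : ℂ[X][X]) :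
    ev (algebraMap ℂ E a) l p = aeval l (p.map (evalRingHom a)) := by
  let φ : ℂ[X][X] →ₐ[ℂ] E := (aeval l : ℂ[X] →ₐ[ℂ] E).comp
    (Polynomial.mapAlgHom (aeval a : ℂ[X] →ₐ[ℂ] ℂ))
  have h : ev (algebraMap ℂ E a) l = φ := by
    apply ev_hom_ext
    · rw [ev_CX]
      simp [φ]
    · rw [ev_X]
      simp [φ]
  rw [h]
  rfl

theorem lin_dvd_iff (a : ℂ) (p : ℂ[X][X]) : lin a ∣ p ↔ p.map (evalRingHom a) = 0 := by
  unfold lin
  rw [C_dvd_iff_dvd_coeff]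
  constructor
  · intro h
    ext n
    rw [coeff_map, coeff_zero, coe_evalRingHom]
    exact dvd_iff_isRoot.1 (h n)
  · intro h n
    have h1 := congrArg (fun q => q.coeff n) h
    simp only [coeff_map, coeff_zero, coe_evalRingHom] at h1
    exact dvd_iff_isRoot.2 h1

section

variable {N : Type} [Field N] [Algebra ℂ N] {Ψ Δ : ℂ[X][X]} {v l Y Z : N}

/-- Extension of a morphism to a neighbourhood of the fibre `v = a`. -/
theorem exists_extend (h : Fld Ψ Δ v l Y Z) (a : ℂ) {E : Type} [Field E] [Algebra ℂ E]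
    {l₁ Y₁ Z₁ : E} (hY₁ : Y₁ ^ 2 = ev (algebraMap ℂ E a) l₁ Ψ)
    (hZ₁ : Z₁ ^ 2 = ev (algebraMap ℂ E a) l₁ Δ)
    (hind₁ : ∀ p : Fin 4 → ℂ[X][X], val4 p (algebraMap ℂ E a) l₁ Y₁ Z₁ = 0 →
      ∀ i, lin a ∣ p i)
    {S : Scheme.{0}} (f : S ⟶ Spec (.of ℂ)) [IsProper f] (γ : Spec (.of N) ⟶ S)
    (hγ : γ ≫ f = str N) :
    ∃ (s₁ : ℂ[X][X]) (_ : ¬ lin a ∣ s₁) (g₁ : Spec (.of (Bs s₁ v l Y Z)) ⟶ S),
      g₁ ≫ f = str (Bs s₁ v l Y Z) ∧ sp (Bs s₁ v l Y Z).val ≫ g₁ = γ := by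
  classical
  obtain ⟨V, hk, hV⟩ := exists_val h a hY₁ hZ₁ hind₁
  obtain ⟨C', i1, i2, i3, j', hj', κ, hκ, hγ'⟩ := exists_chart_at f γ hγ V hk
  obtain ⟨G, hG⟩ := i3.out
  choose! q p hq hp using fun c : C' => hV (κ c) (hκ c)
  let s₁ : ℂ[X][X] := ∏ c ∈ G, q c
  have hs₁ : ¬ lin a ∣ s₁ := by
    intro hd
    obtain ⟨c, -, hc⟩ := (lin_prime a).exists_mem_finset_dvd hd
    exact hq c hc
  have hs₁0 : s₁ ≠ 0 := by
    rintro h0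
    exact hs₁ (h0 ▸ dvd_zero _)
  have hrange : ∀ c : C', κ c ∈ Bs s₁ v l Y Z := by
    intro c
    have h1 : c ∈ Algebra.adjoin ℂ (G : Set C') := by rw [hG]; trivial
    have h2 : Algebra.adjoin ℂ (G : Set C') ≤ (Bs s₁ v l Y Z).comap κ := by
      rw [Algebra.adjoin_le_iff]
      intro x hx
      have hqx : q x ≠ 0 := by
        intro h0
        exact hq x (h0 ▸ dvd_zero _)
      have h3 : κ x ∈ Bs (q x) v l Y Z := h.mem_of_frac hqx (hp x)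
      exact Bs_mono (Finset.dvd_prod_of_mem q hx) (ev_ne_zero h.ind hs₁0) h3
    exact h2 h1
  let κ' : C' →ₐ[ℂ] Bs s₁ v l Y Z := κ.codRestrict _ hrange
  refine ⟨s₁, hs₁, sp κ' ≫ j', sp_over f κ' hj', ?_⟩
  rw [← Category.assoc, sp_comp]
  exact hγ'

/-- Normal form of polynomials in `v`, `l`, `Y`. -/
theorem normal3 (Ψ : ℂ[X][X]) (F : MvPolynomial (Fin 3) ℂ) :
    ∃ p q : ℂ[X][X], ∀ (E : Type) [Field E] [Algebra ℂ E] (v l Y : E), Y ^ 2 = ev v l Ψ →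
      MvPolynomial.aeval ![v, l, Y] F = ev v l p + ev v l q * Y := by
  induction F using MvPolynomial.induction_on with
  | C a =>
    refine ⟨C (C a), 0, fun E _ _ v l Y _ => ?_⟩
    rw [MvPolynomial.aeval_C, ev_C, aeval_C, map_zero, zero_mul, add_zero]
  | add F G hF hG =>
    obtain ⟨p, q, hF⟩ := hF
    obtain ⟨p', q', hG⟩ := hG
    refine ⟨p + p', q + q', fun E _ _ v l Y hY => ?_⟩
    rw [map_add, hF E v l Y hY, hG E v l Y hY, map_add, map_add]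
    ring
  | mul_X F i hF =>
    obtain ⟨p, q, hF⟩ := hF
    fin_cases i
    · refine ⟨p * C X, q * C X, fun E _ _ v l Y hY => ?_⟩
      rw [map_mul, hF E v l Y hY, map_mul, map_mul, ev_CX, MvPolynomial.aeval_X]
      change _ * v = _
      ring
    · refine ⟨p * X, q * X, fun E _ _ v l Y hY => ?_⟩
      rw [map_mul, hF E v l Y hY, map_mul, map_mul, ev_X, MvPolynomial.aeval_X]
      change _ * l = _
      ring
    · refine ⟨q * Ψ, p, fun E _ _ v l Y hY => ?_⟩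
      rw [map_mul, hF E v l Y hY, map_mul, ← hY, MvPolynomial.aeval_X]
      change _ * Y = _
      ring

/-- A place over a point of the image. -/
theorem exists_place_over {s : ℂ[X][X]} (hrel : Rel4 Ψ Δ s v l Y Z)
    {E : Type} [Field E] [Algebra ℂ E] [IsFF ℂ E]
    (ρ : Bs s v l Y Z →ₐ[ℂ] E) (v₀ l₀ Y₀ : ℂ) (hY₀ : Y₀ ^ 2 = ev v₀ l₀ Ψ)
    (hker : ∀ p q : ℂ[X][X], ev (ρ ⟨v, mem_v s⟩) (ρ ⟨l, mem_l s⟩) p +
      ev (ρ ⟨v, mem_v s⟩) (ρ ⟨l, mem_l s⟩) q * ρ ⟨Y, mem_Y s⟩ = 0 →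
      ev v₀ l₀ p + ev v₀ l₀ q * Y₀ = 0)
    (hs : ev v₀ l₀ s ≠ 0)
    (hex : ∃ p : ℂ[X][X], ev (ρ ⟨v, mem_v s⟩) (ρ ⟨l, mem_l s⟩) p ≠ 0 ∧ ev v₀ l₀ p = 0) :
    ∃ (w : PlaceOver ℂ E) (hw : ∀ b, ρ b ∈ w.1.ring) (χ : Bs s v l Y Z →ₐ[ℂ] ℂ),
      (∀ b, evalAt w ⟨ρ b, hw b⟩ = χ b) ∧ χ ⟨v, mem_v s⟩ = v₀ ∧ χ ⟨l, mem_l s⟩ = l₀ ∧
        χ ⟨Y, mem_Y s⟩ = Y₀ := by
  have hrelρ := hom_rel4 hrel ρ
  obtain ⟨v₁, hv₁⟩ : ∃ v₁, v₁ = ρ ⟨v, mem_v s⟩ := ⟨_, rfl⟩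
  obtain ⟨l₁, hl₁⟩ : ∃ l₁, l₁ = ρ ⟨l, mem_l s⟩ := ⟨_, rfl⟩
  obtain ⟨Y₁, hY₁⟩ : ∃ Y₁, Y₁ = ρ ⟨Y, mem_Y s⟩ := ⟨_, rfl⟩
  rw [← hv₁, ← hl₁, ← hY₁] at hrelρ hker
  rw [← hv₁, ← hl₁] at hex
  let Φ : MvPolynomial (Fin 3) ℂ →ₐ[ℂ] E := MvPolynomial.aeval ![v₁, l₁, Y₁]
  let Φ₀ : MvPolynomial (Fin 3) ℂ →ₐ[ℂ] ℂ := MvPolynomial.aeval ![v₀, l₀, Y₀]
  obtain ⟨χ₀, hχ₀⟩ := exists_alg_lift Φ.rangeRestrict Φ.rangeRestrict_surjective Φ₀ (by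
    intro F hF
    have hF' : Φ F = 0 := congrArg Subtype.val hF
    obtain ⟨p, q, hpq⟩ := normal3 Ψ F
    change MvPolynomial.aeval ![v₀, l₀, Y₀] F = 0
    rw [hpq ℂ v₀ l₀ Y₀ hY₀]
    apply hker
    rw [← hpq E v₁ l₁ Y₁ hrelρ.hY]
    exact hF')
  have hev : ∀ p : ℂ[X][X], ∃ F : MvPolynomial (Fin 3) ℂ, Φ F = ev v₁ l₁ p ∧
      Φ₀ F = ev v₀ l₀ p := by
    intro p
    refine ⟨ev (MvPolynomial.X 0) (MvPolynomial.X 1) p, ?_, ?_⟩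
    · rw [map_ev, MvPolynomial.aeval_X, MvPolynomial.aeval_X]; rfl
    · rw [map_ev, MvPolynomial.aeval_X, MvPolynomial.aeval_X]; rfl
  obtain ⟨p₀, hp₀, hp₀'⟩ := hex
  obtain ⟨F₀, hF₀, hF₀'⟩ := hev p₀
  obtain ⟨w, hD, hw⟩ := exists_place_dominating Φ.range χ₀ (Φ.rangeRestrict F₀) (by
    intro h0
    apply hp₀
    rw [← hF₀]
    exact congrArg Subtype.val h0) (by rw [hχ₀, hF₀', hp₀'])
  have hD' : ∀ F, Φ F ∈ w.1.ring := fun F => hD (Φ.rangeRestrict F)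
  have hw' : ∀ F, evalAt w ⟨Φ F, hD' F⟩ = Φ₀ F := fun F => by
    rw [← hχ₀]
    exact hw (Φ.rangeRestrict F)
  have hevm : ∀ p : ℂ[X][X], ∃ hp : ev v₁ l₁ p ∈ w.1.ring, evalAt w ⟨_, hp⟩ = ev v₀ l₀ p := by
    intro p
    obtain ⟨F, hF, hF'⟩ := hev p
    have h1 : ev v₁ l₁ p ∈ w.1.ring := hF ▸ hD' F
    refine ⟨h1, ?_⟩
    rw [← hF', ← hw']
    congr 1
    exact Subtype.ext hF.symm
  have hYm : ∃ hp : Y₁ ∈ w.1.ring, evalAt w ⟨_, hp⟩ = Y₀ := by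
    have hF : Φ (MvPolynomial.X 2) = Y₁ := by
      change MvPolynomial.aeval ![v₁, l₁, Y₁] (MvPolynomial.X 2) = _
      rw [MvPolynomial.aeval_X]; rfl
    have hF' : Φ₀ (MvPolynomial.X 2) = Y₀ := by
      change MvPolynomial.aeval ![v₀, l₀, Y₀] (MvPolynomial.X 2) = _
      rw [MvPolynomial.aeval_X]; rfl
    have h1 : Y₁ ∈ w.1.ring := hF ▸ hD' _
    refine ⟨h1, ?_⟩
    rw [← hF', ← hw']
    congr 1
    exact Subtype.ext hF.symm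
  have hvm : ∃ hp : v₁ ∈ w.1.ring, evalAt w ⟨_, hp⟩ = v₀ := by
    have := hevm (C X)
    simpa only [ev_CX] using this
  have hlm : ∃ hp : l₁ ∈ w.1.ring, evalAt w ⟨_, hp⟩ = l₀ := by
    have := hevm X
    simpa only [ev_X] using this
  have hmem : ∀ b, ρ b ∈ w.1.ring := by
    intro b
    refine image_mem hrel ρ (ringAlg w) ?_ ?_ ?_ ?_ ?_ b
    · rw [← hv₁]; exact hvm.1
    · rw [← hl₁]; exact hlm.1
    · rw [← hv₁, ← hl₁]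
      obtain ⟨h1, h2⟩ := hevm s
      have h3 : IsUnit (⟨ev v₁ l₁ s, h1⟩ : w.1.ring) := by
        by_contra hu
        apply hs
        rw [← h2, evalAt_eq_zero_iff, IsLocalRing.mem_maximalIdeal]
        exact hu
      obtain ⟨y, hy⟩ := h3.exists_right_inv
      have h4 : ev v₁ l₁ s * (y : E) = 1 := congrArg Subtype.val hy
      rw [inv_eq_of_mul_eq_one_right h4]
      exact y.2
    · rw [← hY₁]; exact hYm.1
    · apply mem_of_sq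
      rw [hrelρ.hZ]
      exact (hevm Δ).1
  let ρ' : Bs s v l Y Z →+* w.1.ring := ρ.toRingHom.codRestrict w.1.ring hmem
  let χ : Bs s v l Y Z →ₐ[ℂ] ℂ :=
    { (evalAt w).comp ρ' with
      commutes' := by
        intro a
        change evalAt w ⟨ρ (algebraMap ℂ _ a), _⟩ = a
        have h1 : (⟨ρ (algebraMap ℂ _ a), hmem _⟩ : w.1.ring) = constTo w.1 w.2 a :=
          Subtype.ext (ρ.commutes a)
        rw [h1, evalAt_const] }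
  refine ⟨w, hmem, χ, fun b => rfl, ?_, ?_, ?_⟩
  · obtain ⟨h1, h2⟩ := hvm
    rw [← h2]
    change evalAt w ⟨ρ _, _⟩ = _
    congr 1
    exact Subtype.ext hv₁.symm
  · obtain ⟨h1, h2⟩ := hlm
    rw [← h2]
    change evalAt w ⟨ρ _, _⟩ = _
    congr 1
    exact Subtype.ext hl₁.symm
  · obtain ⟨h1, h2⟩ := hYm
    rw [← h2]
    change evalAt w ⟨ρ _, _⟩ = _
    congr 1
    exact Subtype.ext hY₁.symm

end

end Vale.Agent.P297.H72
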