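import Vale.Agent.P297.H72.Plane
import Vale.Agent.P297.H72.Ext
import Vale.Agent.P297.H124.Y1

/-!
The double covers of curves.
-/

set_option linter.unusedSectionVars false
set_option linter.style.haveILetI false

open CategoryTheory AlgebraicGeometry IntermediateField Polynomial

namespace Vale.Agent.P297.H72

open Vale.Agent.P297 Vale.Agent.P297.H124

/-- A pair of function fields inside the big field. -/
theorem exists_double (v l Y Z t : Om) (ht : Transcendental ℂ t)
    (htm : t ∈ IntermediateField.adjoin ℂ ({v, l, Y} : Set Om))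
    (hZ : Z ^ 2 ∈ IntermediateField.adjoin ℂ ({v, l, Y} : Set Om)) :
    ∃ (E : Type) (_ : Field E) (_ : Algebra ℂ E) (_ : IsFF ℂ E) (E₀ : IntermediateField ℂ E)
      (_ : IsFF ℂ E₀) (_ : FiniteDimensional E₀ E) (v' l' Y' Z' : E) (φ : E →ₐ[ℂ] Om),
      φ v' = v ∧ φ l' = l ∧ φ Y' = Y ∧ φ Z' = Z ∧
      E₀ = IntermediateField.adjoin ℂ ({v', l', Y'} : Set E) ∧ Module.finrank E₀ E ≤ 2 := by
  classical
  let M : IntermediateField ℂ Om := IntermediateField.adjoin ℂ ({v, l, Y, Z} : Set Om)
  have hle : IntermediateField.adjoin ℂ ({v, l, Y} : Set Om) ≤ M := by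
    apply IntermediateField.adjoin.mono
    rintro x (hx | hx | hx)
    · simp [hx]
    · simp [hx]
    · simp only [Set.mem_singleton_iff] at hx
      simp [hx]
  haveI : IsFF ℂ M := isFF_adjoin_om t ht _ (by simp) (hle htm)
  have hv : v ∈ M := IntermediateField.subset_adjoin _ _ (by simp)
  have hl : l ∈ M := IntermediateField.subset_adjoin _ _ (by simp)
  have hY : Y ∈ M := IntermediateField.subset_adjoin _ _ (by simp)
  have hZm : Z ∈ M := IntermediateField.subset_adjoin _ _ (by simp)
  let v' : M := ⟨v, hv⟩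
  let l' : M := ⟨l, hl⟩
  let Y' : M := ⟨Y, hY⟩
  let Z' : M := ⟨Z, hZm⟩
  let E₀ : IntermediateField ℂ M := IntermediateField.adjoin ℂ ({v', l', Y'} : Set M)
  have hE₀ : E₀.map M.val = IntermediateField.adjoin ℂ ({v, l, Y} : Set Om) := by
    rw [IntermediateField.adjoin_map]
    congr 1
    simp only [Set.image_insert_eq, Set.image_singleton]
    rfl
  have hmem : ∀ x : M, (x : Om) ∈ IntermediateField.adjoin ℂ ({v, l, Y} : Set Om) → x ∈ E₀ := by
    intro x hx
    rw [← hE₀] at hx
    obtain ⟨y, hy, hyx⟩ := hx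
    have h1 : y = x := Subtype.ext hyx
    rw [← h1]
    exact hy
  have htM : t ∈ M := hle htm
  have htr : Transcendental ℂ (⟨t, htM⟩ : M) := by
    intro halg
    apply ht
    exact (isAlgebraic_algHom_iff M.val M.val.toRingHom.injective).2 halg
  haveI hff : IsFF ℂ E₀ := isFF_sub E₀ htr (hmem ⟨t, htM⟩ htm)
  haveI hfd : FiniteDimensional E₀ M := finite_of_isFF E₀ M
  have hspan : ∀ x : M, ∃ a ∈ E₀, ∃ b ∈ E₀, x = a + b * Z' := by
    have htop : IntermediateField.adjoin ℂ ({v', l', Y', Z'} : Set M) = ⊤ := by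
      rw [eq_top_iff]
      intro z _
      have h1 : (z : Om) ∈ (IntermediateField.adjoin ℂ
          ({v', l', Y', Z'} : Set M)).map M.val := by
        rw [IntermediateField.adjoin_map]
        have h2 : M.val '' {v', l', Y', Z'} = {v, l, Y, Z} := by
          simp only [Set.image_insert_eq, Set.image_singleton]
          rfl
        rw [h2]
        exact z.2
      obtain ⟨w, hw, hwz⟩ := h1
      have h3 : z = w := Subtype.ext hwz.symm
      rw [h3]
      exact hw
    refine exists_quad E₀ Z' (hmem _ hZ) {v', l', Y', Z'} ?_ htop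
    rintro x (hx | hx | hx | hx)
    · left; rw [hx]; exact IntermediateField.subset_adjoin _ _ (by simp)
    · left; rw [hx]; exact IntermediateField.subset_adjoin _ _ (by simp)
    · left; rw [hx]; exact IntermediateField.subset_adjoin _ _ (by simp)
    · right; exact hx
  refine ⟨M, inferInstance, inferInstance, inferInstance, E₀, hff, hfd, v', l', Y', Z', M.val,
    rfl, rfl, rfl, rfl, rfl, ?_⟩
  have h2 : (⊤ : Submodule E₀ M) ≤ Submodule.span E₀ (({1, Z'} : Finset M) : Set M) := by
    intro x _
    obtain ⟨a, ha, b, hb, hx⟩ := hspan x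
    rw [hx]
    apply Submodule.add_mem
    · have h3 : a = (⟨a, ha⟩ : E₀) • (1 : M) := by
        rw [Algebra.smul_def, mul_one]; rfl
      rw [h3]
      exact Submodule.smul_mem _ _ (Submodule.subset_span (by simp))
    · have h3 : b * Z' = (⟨b, hb⟩ : E₀) • Z' := by
        rw [Algebra.smul_def]; rfl
      rw [h3]
      exact Submodule.smul_mem _ _ (Submodule.subset_span (by simp))
  have h3 := finrank_span_finset_le_card (R := E₀) (({1, Z'} : Finset M))
  unfold Set.finrank at h3
  rw [top_le_iff.1 h2, finrank_top] at h3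
  exact h3.trans Finset.card_le_two

end Vale.Agent.P297.H72
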