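import Mathlib.Tactic.LinearCombination
import Mathlib.Tactic.Ring

/-!
The family of Du Val type: definitions and polynomial identities.
-/

namespace Vale.Agent.P297.H72

section

variable {A : Type*} [CommRing A]

/-- the linear form `A` -/
def dvA (d e k s l : A) : A := l + e - d * s + k * (l - s ^ 2)

/-- the form `q` of the double plane -/
def dvQ (h d e r₀ r₁ k s l : A) : A :=
  dvA d e k s l * (k * (s - h) ^ 2 - (l + e) + d * s - 2 * h * d) -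
    (r₁ * l + r₀) * (k * (l + e + d * s) + d ^ 2)

/-- the form `S` -/
def dvS (h d e r₀ r₁ s l : A) : A :=
  (r₁ * l + r₀) * (l + e + d * s) + (l + h ^ 2) * (l + e - d * s) + 2 * h * (d * l - s * (l + e))

/-- the form `G` -/
def dvG (h d e r₀ r₁ k s l : A) : A :=
  2 * (s - h) ^ 2 * dvA d e k s l - dvS h d e r₀ r₁ s l

/-- `S² - 4 u² Δ` -/
def dvN (h d e r₀ r₁ s l : A) : A :=
  dvS h d e r₀ r₁ s l ^ 2 - 4 * (s - h) ^ 2 * ((r₁ * l + r₀) * ((l + e) ^ 2 - l * d ^ 2))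

/-- the quartic `b(s)`: the value of `q` on the conic `l = s²` -/
def dvB (h d e r₀ r₁ k s : A) : A :=
  (s ^ 2 - d * s + e) * (k * (s - h) ^ 2 - (s ^ 2 - d * s + e) - 2 * h * d) -
    (r₁ * s ^ 2 + r₀) * (k * (s ^ 2 + d * s + e) + d ^ 2)

theorem dv_key1 (h d e r₀ r₁ k s l : A) :
    dvG h d e r₀ r₁ k s l ^ 2 - 4 * (s - h) ^ 2 * ((l - s ^ 2) * dvQ h d e r₀ r₁ k s l) =
      dvN h d e r₀ r₁ s l := by
  unfold dvG dvN dvQ dvS dvA
  ring

theorem dv_key2 (h d c r s l z : A) :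
    (r * (c + d * s) + (l + h ^ 2) * (c - d * s) + 2 * h * (d * l - s * c)) *
      ((d * z + c) * (z - h)) -
      (s - h) * ((c ^ 2 - l * d ^ 2) * (z - h) ^ 2 + r * (d * z + c) ^ 2) =
    (c + h * d) * ((r + l - h ^ 2) * (d * z + c) * (z - h) -
      (s - h) * ((r + l - h ^ 2) * (d * z + c) + (c + h * d) * (z ^ 2 - l))) := by
  ring

theorem dv_key3 (h g l z m P : A) :
    l * (P * m + g * (z ^ 2 - l)) ^ 2 - (P * m * z + h * g * (z ^ 2 - l)) ^ 2 =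
      (z ^ 2 - l) * (-(P * m) ^ 2 + 2 * (P * m) * g * (l - h * z) +
        g ^ 2 * (l - h ^ 2) * (z ^ 2 - l)) := by
  ring

theorem dv_key4 (h d c r l z : A) :
    (r + l - h ^ 2) * (z - h) ^ 2 *
      (c * ((r + l - h ^ 2) * (d * z + c) + (c + h * d) * (z ^ 2 - l)) -
        d * ((r + l - h ^ 2) * (d * z + c) * z + h * (c + h * d) * (z ^ 2 - l))) -
      r * ((r + l - h ^ 2) * (d * z + c) + (c + h * d) * (z ^ 2 - l)) ^ 2 =
    (-((r + l - h ^ 2) * (d * z + c)) ^ 2 +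
      2 * ((r + l - h ^ 2) * (d * z + c)) * (c + h * d) * (l - h * z) +
      (c + h * d) ^ 2 * (l - h ^ 2) * (z ^ 2 - l)) * (z ^ 2 - l + (r + l - h ^ 2)) := by
  ring

/-- `q` as a polynomial in `x = l - s²` -/
theorem dv_q (h d e r₀ r₁ k s l : A) :
    dvQ h d e r₀ r₁ k s l = (-(1 + k) - r₁ * k) * (l - s ^ 2) ^ 2 +
      ((1 + k) * (k * (s - h) ^ 2 - (s ^ 2 - d * s + e) - 2 * h * d) - (s ^ 2 - d * s + e) -
        r₁ * (k * (s ^ 2 + d * s + e) + d ^ 2) - k * (r₁ * s ^ 2 + r₀)) * (l - s ^ 2) +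
      dvB h d e r₀ r₁ k s := by
  unfold dvQ dvA dvB
  ring

/-- the value at `s = h` -/
theorem dv_Sh (h d e r₀ r₁ l : A) :
    dvS h d e r₀ r₁ h l = (r₁ * l + r₀ + l - h ^ 2) * (l + e + h * d) := by
  unfold dvS
  ring

end

section

variable {A B : Type*} [CommRing A] [CommRing B] (φ : A →+* B) (h d e r₀ r₁ k s l : A)

theorem map_dvS : φ (dvS h d e r₀ r₁ s l) = dvS (φ h) (φ d) (φ e) (φ r₀) (φ r₁) (φ s) (φ l) := by
  simp [dvS, map_ofNat]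

theorem map_dvN : φ (dvN h d e r₀ r₁ s l) = dvN (φ h) (φ d) (φ e) (φ r₀) (φ r₁) (φ s) (φ l) := by
  simp [dvN, dvS, map_ofNat]

theorem map_dvA : φ (dvA d e k s l) = dvA (φ d) (φ e) (φ k) (φ s) (φ l) := by
  simp [dvA]

theorem map_dvG : φ (dvG h d e r₀ r₁ k s l) =
    dvG (φ h) (φ d) (φ e) (φ r₀) (φ r₁) (φ k) (φ s) (φ l) := by
  simp [dvG, dvA, dvS, map_ofNat]

theorem map_dvQ : φ (dvQ h d e r₀ r₁ k s l) =
    dvQ (φ h) (φ d) (φ e) (φ r₀) (φ r₁) (φ k) (φ s) (φ l) := by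
  simp [dvQ, dvA, map_ofNat]

theorem map_dvB : φ (dvB h d e r₀ r₁ k s) =
    dvB (φ h) (φ d) (φ e) (φ r₀) (φ r₁) (φ k) (φ s) := by
  simp [dvB, map_ofNat]

end

end Vale.Agent.P297.H72
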