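import Vale.Agent.P297.H72.DvT

/-!
The family of Du Val type: all points are rationally equivalent.
-/

set_option linter.unusedSectionVars false

open IntermediateField

namespace Vale.Agent.P297.H72

open Vale.Agent.P297 Vale.Agent.P297.H839 Vale.Agent.P297.H109 Vale.Agent.P297.H600

/-- a point outside the zeros of the four polynomials -/
theorem exists_good (h d e r₀ r₁ : ℂ) (hr : ¬ (r₀ = 0 ∧ r₁ = 0)) (hP : ¬ (r₀ = h ^ 2 ∧ r₁ = -1)) :
    ∃ a : ℂ, r₁ * a + r₀ ≠ 0 ∧ r₁ * a + r₀ + a - h ^ 2 ≠ 0 ∧ a + e + h * d ≠ 0 ∧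
      (a + e) ^ 2 - a * d ^ 2 ≠ 0 := by
  open Polynomial in
  have h1 : (C r₁ * X + C r₀ : ℂ[X]) ≠ 0 := by
    intro h0
    apply hr
    have e0 := congrArg (fun p : ℂ[X] => p.coeff 0) h0
    have e1 := congrArg (fun p : ℂ[X] => p.coeff 1) h0
    simp at e0 e1
    exact ⟨e0, e1⟩
  open Polynomial in
  have h2 : (C (r₁ + 1) * X + C (r₀ - h ^ 2) : ℂ[X]) ≠ 0 := by
    intro h0
    apply hP
    have e0 := congrArg (fun p : ℂ[X] => p.coeff 0) h0
    have e1 := congrArg (fun p : ℂ[X] => p.coeff 1) h0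
    simp only [coeff_add, coeff_C_mul, coeff_X_zero, mul_zero, coeff_C_zero, zero_add,
      coeff_zero, coeff_X_one, mul_one] at e0 e1
    rw [coeff_C_of_ne_zero one_ne_zero, add_zero] at e1
    exact ⟨sub_eq_zero.1 e0, eq_neg_of_add_eq_zero_left e1⟩
  open Polynomial in
  have h3 : (X + C (e + h * d) : ℂ[X]) ≠ 0 := X_add_C_ne_zero _
  open Polynomial in
  have h4 : (X ^ 2 + C (2 * e - d ^ 2) * X + C (e ^ 2) : ℂ[X]) ≠ 0 := by
    apply Monic.ne_zero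
    monicity!
  have hne := mul_ne_zero (mul_ne_zero h1 h2) (mul_ne_zero h3 h4)
  obtain ⟨a, ha⟩ : ∃ a : ℂ, Polynomial.eval a _ ≠ 0 := by
    by_contra hcon
    push Not at hcon
    exact hne (Polynomial.funext fun x => by rw [hcon x, Polynomial.eval_zero])
  simp only [Polynomial.eval_mul, Polynomial.eval_add, Polynomial.eval_C, Polynomial.eval_X,
    Polynomial.eval_pow] at ha
  refine ⟨a, ?_, ?_, ?_, ?_⟩
  · intro h0; apply ha; rw [h0]; ring
  · intro h0; apply ha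
    have : (r₁ + 1) * a + (r₀ - h ^ 2) = 0 := by rw [← h0]; ring
    rw [this]; ring
  · intro h0; apply ha
    have : a + (e + h * d) = 0 := by rw [← h0]; ring
    rw [this]; ring
  · intro h0; apply ha
    have : a ^ 2 + (2 * e - d ^ 2) * a + e ^ 2 = 0 := by rw [← h0]; ring
    rw [this]; ring

section

variable {N : Type} [Field N] [Algebra ℂ N]

/-- `S² - 4 u² Δ` is not a square -/
theorem dvN_not_sq (h d e r₀ r₁ a : ℂ) (ha1 : r₁ * a + r₀ ≠ 0)
    (ha2 : r₁ * a + r₀ + a - h ^ 2 ≠ 0) (ha3 : a + e + h * d ≠ 0)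
    (ha4 : (a + e) ^ 2 - a * d ^ 2 ≠ 0) {s l : N} (hind : AlgebraicIndependent ℂ ![s, l])
    (f : N) (hf : f ∈ IntermediateField.adjoin ℂ {s, l}) :
    f ^ 2 ≠ dvN (algebraMap ℂ N h) (algebraMap ℂ N d) (algebraMap ℂ N e) (algebraMap ℂ N r₀)
      (algebraMap ℂ N r₁) s l := by
  have h1 := Vale.Agent.P297.H424.not_square_of_spec (indep_swap hind)
    (dvN (MvPolynomial.C h) (MvPolynomial.C d) (MvPolynomial.C e)
            (MvPolynomial.C r₀) (MvPolynomial.C r₁) (MvPolynomial.X 1) (MvPolynomial.X 0)) a ?_ f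
    (by rwa [Set.pair_comm])
  · have h2 : MvPolynomial.aeval ![l, s] (dvN (MvPolynomial.C h) (MvPolynomial.C d)
        (MvPolynomial.C e) (MvPolynomial.C r₀) (MvPolynomial.C r₁) (MvPolynomial.X 1)
        (MvPolynomial.X 0) : MvPolynomial (Fin 2) ℂ) = dvN (algebraMap ℂ N h) (algebraMap ℂ N d)
        (algebraMap ℂ N e) (algebraMap ℂ N r₀) (algebraMap ℂ N r₁) s l := by
      have h3 := map_dvN ((MvPolynomial.aeval ![l, s] : MvPolynomial (Fin 2) ℂ →ₐ[ℂ] N) :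
        MvPolynomial (Fin 2) ℂ →+* N) (MvPolynomial.C h) (MvPolynomial.C d)
        (MvPolynomial.C e) (MvPolynomial.C r₀) (MvPolynomial.C r₁) (MvPolynomial.X 1)
        (MvPolynomial.X 0)
      simpa using h3
    rwa [h2] at h1
  · intro p
    have h2 : MvPolynomial.aeval ![Polynomial.C a, Polynomial.X] (dvN (MvPolynomial.C h)
        (MvPolynomial.C d) (MvPolynomial.C e) (MvPolynomial.C r₀) (MvPolynomial.C r₁)
        (MvPolynomial.X 1) (MvPolynomial.X 0) : MvPolynomial (Fin 2) ℂ) =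
        (dvN (Polynomial.C h) (Polynomial.C d) (Polynomial.C e) (Polynomial.C r₀)
          (Polynomial.C r₁) Polynomial.X (Polynomial.C a) : Polynomial ℂ) := by
      have h3 := map_dvN ((MvPolynomial.aeval ![Polynomial.C a, Polynomial.X] :
        MvPolynomial (Fin 2) ℂ →ₐ[ℂ] Polynomial ℂ) :
        MvPolynomial (Fin 2) ℂ →+* Polynomial ℂ) (MvPolynomial.C h) (MvPolynomial.C d)
        (MvPolynomial.C e) (MvPolynomial.C r₀) (MvPolynomial.C r₁) (MvPolynomial.X 1)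
        (MvPolynomial.X 0)
      simpa using h3
    rw [h2]
    obtain ⟨S1, hS1⟩ : ∃ S1 : ℂ, S1 = (r₁ * a + r₀) * d - (a + h ^ 2) * d - 2 * h * (a + e) :=
      ⟨_, rfl⟩
    obtain ⟨S0, hS0⟩ : ∃ S0 : ℂ, S0 = (r₁ * a + r₀) * (a + e) + (a + h ^ 2) * (a + e) +
      2 * h * (d * a) := ⟨_, rfl⟩
    obtain ⟨Δ, hΔ⟩ : ∃ Δ : ℂ, Δ = (r₁ * a + r₀) * ((a + e) ^ 2 - a * d ^ 2) := ⟨_, rfl⟩
    have hΔ0 : Δ ≠ 0 := by rw [hΔ]; exact mul_ne_zero ha1 ha4
    have h3 : (dvN (Polynomial.C h) (Polynomial.C d) (Polynomial.C e) (Polynomial.C r₀)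
          (Polynomial.C r₁) Polynomial.X (Polynomial.C a) : Polynomial ℂ) =
        Polynomial.C (S1 ^ 2 - 4 * Δ) * Polynomial.X ^ 2 +
          Polynomial.C (2 * S1 * S0 + 8 * Δ * h) * Polynomial.X +
          Polynomial.C (S0 ^ 2 - 4 * Δ * h ^ 2) := by
      rw [hS1, hS0, hΔ]
      simp only [map_add, map_sub, map_mul, map_pow, map_ofNat, dvN, dvS]
      ring
    rw [h3]
    refine Vale.Agent.P297.H424.quad_not_square ?_ p
    have h4 : (2 * S1 * S0 + 8 * Δ * h) ^ 2 - 4 * (S1 ^ 2 - 4 * Δ) * (S0 ^ 2 - 4 * Δ * h ^ 2) =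
        16 * Δ * ((r₁ * a + r₀ + a - h ^ 2) * (a + e + h * d)) ^ 2 := by
      have h5 : S1 * h + S0 = (r₁ * a + r₀ + a - h ^ 2) * (a + e + h * d) := by
        rw [hS1, hS0]; ring
      rw [← h5]
      ring
    rw [h4]
    exact mul_ne_zero (mul_ne_zero (by norm_num) hΔ0) (pow_ne_zero 2 (mul_ne_zero ha2 ha3))

/-- the theorem inside an algebraically closed field -/
theorem dv_mainN [IsAlgClosed N] {K : Type} [Field K] [Algebra ℂ K] (h d e r₀ r₁ k : ℂ)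
    (hd : d ^ 2 ≠ 4 * e) (hr : ¬ (r₀ = 0 ∧ r₁ = 0)) (hP : ¬ (r₀ = h ^ 2 ∧ r₁ = -1))
    (ρ₁ ρ₂ ρ₃ : ℂ) (hρ : ρ₁ ≠ ρ₂) (hB1 : dvB h d e r₀ r₁ k ρ₁ = 0)
    (hB2 : dvB h d e r₀ r₁ k ρ₂ = 0) (hB3 : dvB h d e r₀ r₁ k ρ₃ ≠ 0) (s l y t : N)
    (hind : AlgebraicIndependent ℂ ![s, l]) (m : K →ₐ[ℂ] N)
    (hm : m.fieldRange = IntermediateField.adjoin ℂ {s, l, y, t})
    (hy : y ^ 2 = (l - s ^ 2) * dvQ (algebraMap ℂ N h) (algebraMap ℂ N d) (algebraMap ℂ N e)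
      (algebraMap ℂ N r₀) (algebraMap ℂ N r₁) (algebraMap ℂ N k) s l)
    (ht : t ^ 2 = (l - s ^ 2) * (dvG (algebraMap ℂ N h) (algebraMap ℂ N d) (algebraMap ℂ N e)
      (algebraMap ℂ N r₀) (algebraMap ℂ N r₁) (algebraMap ℂ N k) s l +
      2 * (s - algebraMap ℂ N h) * y)) : PointsEquivalent K := by
  have : CharZero N := charZero_of_injective_algebraMap (algebraMap ℂ N).injective
  obtain ⟨a, ha1, ha2, ha3, ha4⟩ := exists_good h d e r₀ r₁ hr hP
  have hx : l - s ^ 2 ≠ 0 := by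
    refine nzp hind (MvPolynomial.X 1 - MvPolynomial.X 0 ^ 2) 0 1 (gC := 1) ?_ ?_ one_ne_zero
    · simp
    · simp
  have hu : s - algebraMap ℂ N h ≠ 0 := by
    refine nzp hind (MvPolynomial.X 0 - MvPolynomial.C h) (h + 1) 0 (gC := 1) ?_ ?_ one_ne_zero
    · simp
    · simp
  obtain ⟨G, hG⟩ : ∃ G, G = dvG (algebraMap ℂ N h) (algebraMap ℂ N d) (algebraMap ℂ N e)
      (algebraMap ℂ N r₀) (algebraMap ℂ N r₁) (algebraMap ℂ N k) s l := ⟨_, rfl⟩
  obtain ⟨Q, hQ⟩ : ∃ Q, Q = dvQ (algebraMap ℂ N h) (algebraMap ℂ N d) (algebraMap ℂ N e)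
      (algebraMap ℂ N r₀) (algebraMap ℂ N r₁) (algebraMap ℂ N k) s l := ⟨_, rfl⟩
  obtain ⟨M, hM⟩ : ∃ M, M = dvN (algebraMap ℂ N h) (algebraMap ℂ N d) (algebraMap ℂ N e)
      (algebraMap ℂ N r₀) (algebraMap ℂ N r₁) s l := ⟨_, rfl⟩
  have hkey : G ^ 2 - 4 * (s - algebraMap ℂ N h) ^ 2 * ((l - s ^ 2) * Q) = M := by
    rw [hG, hQ, hM]
    exact dv_key1 _ _ _ _ _ _ _ _
  have hnsq := dvN_not_sq h d e r₀ r₁ a ha1 ha2 ha3 ha4 hind
  have hW := dv_wside h d e r₀ r₁ k ρ₁ ρ₂ ρ₃ hρ hB1 hB2 hB3 hind hy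
  rw [← hM] at hnsq
  -- the conjugate structure
  obtain ⟨w, hw⟩ : ∃ w : N, w ^ 2 = M / (s - algebraMap ℂ N h) ^ 2 :=
    IsAlgClosed.exists_pow_nat_eq _ two_pos
  have hw2 : ((s - algebraMap ℂ N h) * w) ^ 2 = M := by
    rw [mul_pow, hw, mul_div_cancel₀ _ (pow_ne_zero 2 hu)]
  obtain ⟨ζ, hζ⟩ : ∃ ζ : N, ζ ^ 2 = (l - s ^ 2) * (G + (s - algebraMap ℂ N h) * w) / 2 :=
    IsAlgClosed.exists_pow_nat_eq _ two_pos
  have hζ2 : 2 * ζ ^ 2 = (l - s ^ 2) * (G + (s - algebraMap ℂ N h) * w) := by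
    rw [hζ, mul_div_cancel₀ _ two_ne_zero]
  have hT := dv_tside h d e r₀ r₁ k a (sub_ne_zero.2 hd) ha1 ha2 ha3 ha4 hind
    (by rw [hw2, hM]) (by rw [hζ2, hG])
  -- memberships
  have hs1 : s ∈ IntermediateField.adjoin ℂ {s, l} :=
    IntermediateField.subset_adjoin _ _ (by simp)
  have hl1 : l ∈ IntermediateField.adjoin ℂ {s, l} :=
    IntermediateField.subset_adjoin _ _ (by simp)
  have hGm : ∀ F : IntermediateField ℂ N, s ∈ F → l ∈ F → G ∈ F := by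
    intro F hs hl
    have h1 := map_dvG (algebraMap F N) (algebraMap ℂ F h) (algebraMap ℂ F d) (algebraMap ℂ F e)
      (algebraMap ℂ F r₀) (algebraMap ℂ F r₁) (algebraMap ℂ F k) ⟨s, hs⟩ ⟨l, hl⟩
    rw [hG]
    exact h1 ▸ (dvG (algebraMap ℂ F h) (algebraMap ℂ F d) (algebraMap ℂ F e)
      (algebraMap ℂ F r₀) (algebraMap ℂ F r₁) (algebraMap ℂ F k) ⟨s, hs⟩ ⟨l, hl⟩ : F).2
  have hMm : ∀ F : IntermediateField ℂ N, s ∈ F → l ∈ F → M ∈ F := by
    intro F hs hl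
    have h1 := map_dvN (algebraMap F N) (algebraMap ℂ F h) (algebraMap ℂ F d) (algebraMap ℂ F e)
      (algebraMap ℂ F r₀) (algebraMap ℂ F r₁) ⟨s, hs⟩ ⟨l, hl⟩
    rw [hM]
    exact h1 ▸ (dvN (algebraMap ℂ F h) (algebraMap ℂ F d) (algebraMap ℂ F e)
      (algebraMap ℂ F r₀) (algebraMap ℂ F r₁) ⟨s, hs⟩ ⟨l, hl⟩ : F).2
  have hym : ∀ F : IntermediateField ℂ N, s ∈ F → l ∈ F → t ^ 2 ∈ F → y ∈ F := by
    intro F hs hl ht2
    have h1 : y = (t ^ 2 / (l - s ^ 2) - G) / (2 * (s - algebraMap ℂ N h)) := by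
      rw [ht, ← hG]
      field_simp
      ring
    rw [h1]
    exact div_mem (sub_mem (div_mem ht2 (sub_mem hl (pow_mem hs 2))) (hGm F hs hl))
      (mul_mem (ofNat_mem F 2) (sub_mem hs (F.algebraMap_mem _)))
  refine quartic_twin_aux (IntermediateField.adjoin ℂ {s, l}) ((l - s ^ 2) * G)
    ((l - s ^ 2) ^ 2 * M) t ζ ?_ ?_ ?_ ?_ ?_ m ?_ hT ?_
  · exact mul_mem (sub_mem hl1 (pow_mem hs1 2)) (hGm _ hs1 hl1)
  · exact mul_mem (pow_mem (sub_mem hl1 (pow_mem hs1 2)) 2) (hMm _ hs1 hl1)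
  · rw [← hQ] at hy
    rw [← hG] at ht
    have e1 : t ^ 4 = (t ^ 2) ^ 2 := by ring
    rw [e1, ht]
    linear_combination (4 * (l - s ^ 2) ^ 2 * (s - algebraMap ℂ N h) ^ 2) * hy -
      (l - s ^ 2) ^ 2 * hkey
  · rw [hζ2]
    linear_combination (l - s ^ 2) ^ 2 * hw2
  · intro b hb hb2
    refine hnsq (b / (l - s ^ 2)) (div_mem hb (sub_mem hl1 (pow_mem hs1 2))) ?_
    rw [div_pow, hb2]
    field_simp
  · rw [hm]
    apply le_antisymm
    · have hle : IntermediateField.adjoin ℂ {s, l} ≤ (IntermediateField.adjoin ℂ {s, l} ⊔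
        IntermediateField.adjoin ℂ {t} : IntermediateField ℂ N) := le_sup_left
      have ht1 := mem_sup_adjoin (IntermediateField.adjoin ℂ {s, l}) t
      rw [IntermediateField.adjoin_le_iff]
      rintro b (rfl | rfl | rfl | hb)
      · exact hle hs1
      · exact hle hl1
      · exact hym _ (hle hs1) (hle hl1) (pow_mem ht1 2)
      · rw [Set.mem_singleton_iff.1 hb]; exact ht1
    · refine sup_adjoin_le ?_ (IntermediateField.subset_adjoin _ _ (by simp))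
      apply IntermediateField.adjoin.mono
      rintro b (hb | hb)
      · rw [hb]; simp
      · rw [Set.mem_singleton_iff.1 hb]; simp
  · have hEq : (IntermediateField.adjoin ℂ {s, l} ⊔ IntermediateField.adjoin ℂ {t ^ 2} :
        IntermediateField ℂ N) =
        IntermediateField.adjoin ℂ {s, l} ⊔ IntermediateField.adjoin ℂ {y} := by
      apply le_antisymm
      · have hle : IntermediateField.adjoin ℂ {s, l} ≤ (IntermediateField.adjoin ℂ {s, l} ⊔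
          IntermediateField.adjoin ℂ {y} : IntermediateField ℂ N) := le_sup_left
        refine sup_adjoin_le hle ?_
        rw [ht, ← hG]
        exact mul_mem (sub_mem (hle hl1) (pow_mem (hle hs1) 2)) (add_mem (hle (hGm _ hs1 hl1))
          (mul_mem (mul_mem (ofNat_mem _ 2) (sub_mem (hle hs1) (IntermediateField.algebraMap_mem _ _)))
            (mem_sup_adjoin _ y)))
      · have hle : IntermediateField.adjoin ℂ {s, l} ≤ (IntermediateField.adjoin ℂ {s, l} ⊔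
          IntermediateField.adjoin ℂ {t ^ 2} : IntermediateField ℂ N) := le_sup_left
        exact sup_adjoin_le hle (hym _ (hle hs1) (hle hl1) (mem_sup_adjoin _ (t ^ 2)))
    rw [hEq]
    exact hW

/-- **The family of Du Val type.** -/
theorem dv_main {K : Type} [Field K] [Algebra ℂ K] (h d e r₀ r₁ k : ℂ)
    (hd : d ^ 2 ≠ 4 * e) (hr : ¬ (r₀ = 0 ∧ r₁ = 0)) (hP : ¬ (r₀ = h ^ 2 ∧ r₁ = -1))
    (ρ₁ ρ₂ ρ₃ : ℂ) (hρ : ρ₁ ≠ ρ₂) (hB1 : dvB h d e r₀ r₁ k ρ₁ = 0)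
    (hB2 : dvB h d e r₀ r₁ k ρ₂ = 0) (hB3 : dvB h d e r₀ r₁ k ρ₃ ≠ 0) (s l y t : K)
    (hind : AlgebraicIndependent ℂ ![s, l]) (htop : IntermediateField.adjoin ℂ {s, l, y, t} = ⊤)
    (hy : y ^ 2 = (l - s ^ 2) * dvQ (algebraMap ℂ K h) (algebraMap ℂ K d) (algebraMap ℂ K e)
      (algebraMap ℂ K r₀) (algebraMap ℂ K r₁) (algebraMap ℂ K k) s l)
    (ht : t ^ 2 = (l - s ^ 2) * (dvG (algebraMap ℂ K h) (algebraMap ℂ K d) (algebraMap ℂ K e)
      (algebraMap ℂ K r₀) (algebraMap ℂ K r₁) (algebraMap ℂ K k) s l +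
      2 * (s - algebraMap ℂ K h) * y)) : PointsEquivalent K := by
  let N := AlgebraicClosure K
  let m : K →ₐ[ℂ] N := IsScalarTower.toAlgHom ℂ K N
  have hinj : Function.Injective m := m.toRingHom.injective
  have hind' : AlgebraicIndependent ℂ ![m s, m l] := by
    have h := hind.map' (f := m) hinj
    have h2 : (m ∘ ![s, l]) = ![m s, m l] := by
      funext i
      fin_cases i <;> rfl
    rwa [h2] at h
  have hm : m.fieldRange = IntermediateField.adjoin ℂ {m s, m l, m y, m t} := by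
    rw [AlgHom.fieldRange_eq_map, ← htop, IntermediateField.adjoin_map]
    congr 1
    simp only [Set.image_insert_eq, Set.image_singleton]
  refine dv_mainN h d e r₀ r₁ k hd hr hP ρ₁ ρ₂ ρ₃ hρ hB1 hB2 hB3 (m s) (m l) (m y) (m t) hind' m hm
    ?_ ?_
  · have h0 := congrArg m hy
    have h1 := map_dvQ (m : K →+* N) (algebraMap ℂ K h) (algebraMap ℂ K d) (algebraMap ℂ K e)
      (algebraMap ℂ K r₀) (algebraMap ℂ K r₁) (algebraMap ℂ K k) s l
    simp only [RingHom.coe_coe, AlgHom.commutes] at h1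
    rw [map_pow, map_mul, map_sub, map_pow, h1] at h0
    exact h0
  · have h0 := congrArg m ht
    have h1 := map_dvG (m : K →+* N) (algebraMap ℂ K h) (algebraMap ℂ K d) (algebraMap ℂ K e)
      (algebraMap ℂ K r₀) (algebraMap ℂ K r₁) (algebraMap ℂ K k) s l
    simp only [RingHom.coe_coe, AlgHom.commutes] at h1
    rw [map_pow, map_mul, map_sub, map_pow, map_add, h1, map_mul, map_mul, map_sub, map_ofNat,
      AlgHom.commutes] at h0
    exact h0

end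

end Vale.Agent.P297.H72
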