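import Vale.Agent.P297.H72.DvW

/-!
The family of Du Val type: the twin is rational.
-/

set_option linter.unusedSectionVars false

open IntermediateField

namespace Vale.Agent.P297.H72

open Vale.Agent.P297 Vale.Agent.P297.H839 Vale.Agent.P297.H109 Vale.Agent.P297.H600

section

variable {N : Type} [Field N] [CharZero N]

/-- The algebra of the twin. All letters are elements of a field; `c`, `r` are free. -/
theorem dv_twin_alg (h d k c r s l w ζ z n₀ P g : N)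
    (hn : n₀ = c ^ 2 - l * d ^ 2) (hP : P = r + l - h ^ 2) (hg : g = c + h * d)
    (hw : ((s - h) * w) ^ 2 = (r * (c + d * s) + (l + h ^ 2) * (c - d * s) +
      2 * h * (d * l - s * c)) ^ 2 - 4 * (s - h) ^ 2 * (r * n₀))
    (hζ : 2 * ζ ^ 2 = (l - s ^ 2) * (2 * (s - h) ^ 2 * (c - d * s + k * (l - s ^ 2)) -
      (r * (c + d * s) + (l + h ^ 2) * (c - d * s) + 2 * h * (d * l - s * c)) + (s - h) * w))
    (hu : s - h ≠ 0) (hx : l - s ^ 2 ≠ 0) (hP0 : P ≠ 0) (hg0 : g ≠ 0) (hn0 : n₀ ≠ 0) (hr0 : r ≠ 0)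
    (hz : 2 * n₀ * (z - h) * (s - h) = (d * z + c) * ((s - h) * w +
      (r * (c + d * s) + (l + h ^ 2) * (c - d * s) + 2 * h * (d * l - s * c)))) :
    d * z + c ≠ 0 ∧ z - h ≠ 0 ∧
    P * (d * z + c) + g * (z ^ 2 - l) ≠ 0 ∧
    s * (P * (d * z + c) + g * (z ^ 2 - l)) = P * (d * z + c) * z + h * g * (z ^ 2 - l) ∧
    z ^ 2 - l ≠ 0 ∧
    (-(P * (d * z + c)) ^ 2 + 2 * (P * (d * z + c)) * g * (l - h * z) +
        g ^ 2 * (l - h ^ 2) * (z ^ 2 - l)) ≠ 0 ∧
    ζ ^ 2 * (P * (d * z + c) + g * (z ^ 2 - l)) ^ 6 = (z ^ 2 - l) *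
      (-(P * (d * z + c)) ^ 2 + 2 * (P * (d * z + c)) * g * (l - h * z) +
        g ^ 2 * (l - h ^ 2) * (z ^ 2 - l)) ^ 2 * P * (d * z + c) ^ 2 *
      ((P * (d * z + c) + g * (z ^ 2 - l)) * (z ^ 2 - l + P) + k * P * (z - h) ^ 2 * (z ^ 2 - l)) := by
  obtain ⟨S, hS⟩ : ∃ S, S = r * (c + d * s) + (l + h ^ 2) * (c - d * s) +
      2 * h * (d * l - s * c) := ⟨_, rfl⟩
  obtain ⟨m, hm⟩ : ∃ m, m = d * z + c := ⟨_, rfl⟩
  obtain ⟨X, hX⟩ : ∃ X, X = z ^ 2 - l := ⟨_, rfl⟩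
  obtain ⟨E, hE⟩ : ∃ E, E = P * m + g * X := ⟨_, rfl⟩
  obtain ⟨x, hx'⟩ : ∃ x, x = l - s ^ 2 := ⟨_, rfl⟩
  obtain ⟨u, hu'⟩ : ∃ u, u = s - h := ⟨_, rfl⟩
  obtain ⟨Xa, hXa⟩ : ∃ Xa, Xa = -(P * m) ^ 2 + 2 * (P * m) * g * (l - h * z) +
        g ^ 2 * (l - h ^ 2) * X := ⟨_, rfl⟩
  rw [← hS, ← hu'] at hw hz
  rw [← hS, ← hu', ← hx'] at hζ
  rw [← hm] at hz
  rw [← hm, ← hX, ← hE, ← hXa]
  rw [← hu'] at hu
  rw [← hx'] at hx
  -- ω and its conjugate
  have hm0 : m ≠ 0 := by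
    intro h0
    rw [h0, zero_mul] at hz
    have h1 : z - h = 0 := by
      rcases mul_eq_zero.1 hz with h2 | h2
      · rcases mul_eq_zero.1 h2 with h3 | h3
        · exact absurd h3 (mul_ne_zero two_ne_zero hn0)
        · exact h3
      · exact absurd h2 hu
    apply hg0
    rw [hg]
    linear_combination (-d) * h1 + h0 - hm
  have hωne : u * w + S ≠ 0 := by
    intro h0
    have h1 : 4 * u ^ 2 * (r * n₀) = 0 := by
      linear_combination hw - (u * w - S) * h0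
    exact (mul_ne_zero (mul_ne_zero (by norm_num) (pow_ne_zero 2 hu)) (mul_ne_zero hr0 hn0)) h1
  have hzh : z - h ≠ 0 := by
    intro h0
    rw [h0] at hz
    have h1 : m * (u * w + S) = 0 := by rw [← hz]; ring
    exact (mul_ne_zero hm0 hωne) h1
  -- the relation for S
  have hrel : S * (m * (z - h)) = u * (n₀ * (z - h) ^ 2 + r * m ^ 2) := by
    have h1 : 4 * n₀ * u * (S * (m * (z - h)) - u * (n₀ * (z - h) ^ 2 + r * m ^ 2)) = 0 := by
      linear_combination (-(2 * n₀ * (z - h) * u - m * S + m * (u * w))) * hz - m ^ 2 * hw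
    have h2 : 4 * n₀ * u ≠ 0 := mul_ne_zero (mul_ne_zero (by norm_num) hn0) hu
    exact sub_eq_zero.1 ((mul_eq_zero.1 h1).resolve_left h2)
  have hF : u * E = P * m * (z - h) := by
    have h1 := dv_key2 h d c r s l z
    rw [← hS, ← hu', ← hg, ← hn, ← hP, ← hm, ← hX, ← hE] at h1
    have h2 : g * (P * m * (z - h) - u * E) = 0 := by
      rw [← h1]
      linear_combination hrel
    have h3 := (mul_eq_zero.1 h2).resolve_left hg0
    linear_combination -h3
  have hE0 : E ≠ 0 := by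
    intro h0
    rw [h0, mul_zero] at hF
    exact (mul_ne_zero (mul_ne_zero hP0 hm0) hzh) hF.symm
  have hs : s * E = P * m * z + h * g * X := by
    linear_combination hF + h * hE - E * hu'
  have hxE : x * E ^ 2 = X * Xa := by
    have h1 := dv_key3 h g l z m P
    rw [← hX, ← hE, ← hXa] at h1
    rw [← h1, ← hs, hx']
    ring
  have hX0 : X ≠ 0 := by
    intro h0
    rw [h0, zero_mul] at hxE
    exact (mul_ne_zero hx (pow_ne_zero 2 hE0)) hxE
  have hXa0 : Xa ≠ 0 := by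
    intro h0
    rw [h0, mul_zero] at hxE
    exact (mul_ne_zero hx (pow_ne_zero 2 hE0)) hxE
  refine ⟨hm0, hzh, hE0, hs, hX0, hXa0, ?_⟩
  -- ζ
  have h5 : ζ ^ 2 * (z - h) = x * u * (u * (c - d * s + k * x) * (z - h) - r * m) := by
    have h6 : 2 * m * (ζ ^ 2 * (z - h) - x * u * (u * (c - d * s + k * x) * (z - h) - r * m)) = 0 := by
      linear_combination (m * (z - h)) * hζ - x * (z - h) * hz - 2 * x * hrel
    exact sub_eq_zero.1 ((mul_eq_zero.1 h6).resolve_left (mul_ne_zero two_ne_zero hm0))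
  have h7 : (P * (z - h) ^ 2 * (c - d * s + k * x) - r * E) * E ^ 2 =
      Xa * (E * (X + P) + k * P * (z - h) ^ 2 * X) := by
    have h8 := dv_key4 h d c r l z
    rw [← hg, ← hP, ← hm, ← hX, ← hE, ← hXa] at h8
    linear_combination E * h8 - P * (z - h) ^ 2 * d * E * hs + k * P * (z - h) ^ 2 * hxE
  apply mul_left_cancel₀ hzh
  calc (z - h) * (ζ ^ 2 * E ^ 6) = ζ ^ 2 * (z - h) * E ^ 6 := by ring
    _ = (x * E ^ 2) * (u * E) * ((u * E) * (c - d * s + k * x) * (z - h) - r * m * E) * E ^ 2 := by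
      rw [h5]; ring
    _ = (X * Xa) * (P * m * (z - h)) * m * ((P * (z - h) ^ 2 * (c - d * s + k * x) - r * E) *
        E ^ 2) := by
      rw [hxE, hF]; ring
    _ = (z - h) * (X * Xa ^ 2 * P * m ^ 2 * (E * (X + P) + k * P * (z - h) ^ 2 * X)) := by
      rw [h7]; ring

end

section

variable {N : Type} [Field N] [Algebra ℂ N]

/-- the twin is rational -/
theorem dv_tside (h d e r₀ r₁ k a : ℂ) (hd : d ^ 2 - 4 * e ≠ 0) (ha1 : r₁ * a + r₀ ≠ 0)
    (ha2 : r₁ * a + r₀ + a - h ^ 2 ≠ 0) (ha3 : a + e + h * d ≠ 0)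
    (ha4 : (a + e) ^ 2 - a * d ^ 2 ≠ 0) {s l w ζ : N} (hind : AlgebraicIndependent ℂ ![s, l])
    (hw : ((s - algebraMap ℂ N h) * w) ^ 2 = dvN (algebraMap ℂ N h) (algebraMap ℂ N d)
      (algebraMap ℂ N e) (algebraMap ℂ N r₀) (algebraMap ℂ N r₁) s l)
    (hζ : 2 * ζ ^ 2 = (l - s ^ 2) * (dvG (algebraMap ℂ N h) (algebraMap ℂ N d)
      (algebraMap ℂ N e) (algebraMap ℂ N r₀) (algebraMap ℂ N r₁) (algebraMap ℂ N k) s l +
      (s - algebraMap ℂ N h) * w)) :
    IsRational (IntermediateField.adjoin ℂ {s, l} ⊔ IntermediateField.adjoin ℂ {ζ} :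
      IntermediateField ℂ N) := by
  have : CharZero N := charZero_of_injective_algebraMap (algebraMap ℂ N).injective
  -- names
  obtain ⟨H, hH⟩ : ∃ H : N, H = algebraMap ℂ N h := ⟨_, rfl⟩
  obtain ⟨D, hD⟩ : ∃ D : N, D = algebraMap ℂ N d := ⟨_, rfl⟩
  obtain ⟨K, hK⟩ : ∃ K : N, K = algebraMap ℂ N k := ⟨_, rfl⟩
  obtain ⟨c, hc⟩ : ∃ c : N, c = l + algebraMap ℂ N e := ⟨_, rfl⟩
  obtain ⟨r, hr⟩ : ∃ r : N, r = algebraMap ℂ N r₁ * l + algebraMap ℂ N r₀ := ⟨_, rfl⟩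
  obtain ⟨n₀, hn⟩ : ∃ n₀ : N, n₀ = c ^ 2 - l * D ^ 2 := ⟨_, rfl⟩
  obtain ⟨P, hP⟩ : ∃ P : N, P = r + l - H ^ 2 := ⟨_, rfl⟩
  obtain ⟨g, hg⟩ : ∃ g : N, g = c + H * D := ⟨_, rfl⟩
  obtain ⟨S, hS⟩ : ∃ S, S = r * (c + D * s) + (l + H ^ 2) * (c - D * s) +
      2 * H * (D * l - s * c) := ⟨_, rfl⟩
  unfold dvN dvS at hw
  unfold dvG dvS dvA at hζ
  rw [← hH, ← hD, ← hc, ← hr, ← hn, ← hS] at hw
  rw [← hH, ← hD, ← hK, ← hc, ← hr, ← hS] at hζ
  -- nonvanishing
  have hu : s - H ≠ 0 := by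
    rw [hH]
    refine nzp hind (MvPolynomial.X 0 - MvPolynomial.C h) (h + 1) 0 (gC := 1) ?_ ?_ one_ne_zero
    · simp
    · simp
  have hx : l - s ^ 2 ≠ 0 := by
    refine nzp hind (MvPolynomial.X 1 - MvPolynomial.X 0 ^ 2) 0 1 (gC := 1) ?_ ?_ one_ne_zero
    · simp
    · simp
  have hr0 : r ≠ 0 := by
    rw [hr]
    refine nzp hind (MvPolynomial.C r₁ * MvPolynomial.X 1 + MvPolynomial.C r₀) 0 a ?_ ?_ ha1
    · simp
    · simp
  have hP0 : P ≠ 0 := by
    rw [hP, hr, hH]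
    refine nzp hind (MvPolynomial.C r₁ * MvPolynomial.X 1 + MvPolynomial.C r₀ +
      MvPolynomial.X 1 - MvPolynomial.C h ^ 2) 0 a ?_ ?_ ha2
    · simp
    · simp
  have hg0 : g ≠ 0 := by
    rw [hg, hc, hH, hD]
    refine nzp hind (MvPolynomial.X 1 + MvPolynomial.C e + MvPolynomial.C h * MvPolynomial.C d)
      0 a ?_ ?_ ha3
    · simp
    · simp
  have hn0 : n₀ ≠ 0 := by
    rw [hn, hc, hD]
    refine nzp hind ((MvPolynomial.X 1 + MvPolynomial.C e) ^ 2 -
      MvPolynomial.X 1 * MvPolynomial.C d ^ 2) 0 a ?_ ?_ ha4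
    · simp
    · simp
  -- ω and ς
  have hden : 2 * n₀ * (s - H) - D * ((s - H) * w + S) ≠ 0 := by
    intro h0
    have h1 : 4 * n₀ * (s - H) * ((s - H) * (n₀ + D ^ 2 * r) - D * S) = 0 := by
      linear_combination (2 * n₀ * (s - H) - D * S + D * ((s - H) * w)) * h0 + D ^ 2 * hw
    have h2 : (s - H) * (n₀ + D ^ 2 * r) - D * S = 0 :=
      (mul_eq_zero.1 h1).resolve_left (mul_ne_zero (mul_ne_zero (by norm_num) hn0) hu)
    by_cases hd0 : d = 0
    · have hD0 : D = 0 := by rw [hD, hd0, map_zero]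
      rw [hD0] at h2
      have h3 : (s - H) * n₀ = 0 := by rw [← h2]; ring
      exact (mul_ne_zero hu hn0) h3
    · have h3 : (MvPolynomial.aeval ![s, l] ((MvPolynomial.X 0 - MvPolynomial.C h) *
          (((MvPolynomial.X 1 + MvPolynomial.C e) ^ 2 -
            MvPolynomial.X 1 * MvPolynomial.C d ^ 2) + MvPolynomial.C d ^ 2 *
            (MvPolynomial.C r₁ * MvPolynomial.X 1 + MvPolynomial.C r₀)) -
          MvPolynomial.C d * dvS (MvPolynomial.C h) (MvPolynomial.C d) (MvPolynomial.C e)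
            (MvPolynomial.C r₀) (MvPolynomial.C r₁) (MvPolynomial.X 0) (MvPolynomial.X 1) :
            MvPolynomial (Fin 2) ℂ)) = (s - H) * (n₀ + D ^ 2 * r) - D * S := by
        rw [hn, hS, hr, hc, hH, hD]
        simp [dvS, map_ofNat]
      refine nzp hind _ h a h3 (gC := -(d * ((r₁ * a + r₀ + a - h ^ 2) * (a + e + h * d)))) ?_
        (neg_ne_zero.2 (mul_ne_zero hd0 (mul_ne_zero ha2 ha3))) h2
      rw [← dv_Sh]
      simp [dvS, map_ofNat]
  obtain ⟨z, hzdef⟩ : ∃ z : N, z = (c * ((s - H) * w + S) + 2 * H * n₀ * (s - H)) /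
    (2 * n₀ * (s - H) - D * ((s - H) * w + S)) := ⟨_, rfl⟩
  have hz : 2 * n₀ * (z - H) * (s - H) = (D * z + c) * ((s - H) * w + S) := by
    have h1 : z * (2 * n₀ * (s - H) - D * ((s - H) * w + S)) =
        c * ((s - H) * w + S) + 2 * H * n₀ * (s - H) := by
      rw [hzdef, div_mul_cancel₀ _ hden]
    linear_combination h1
  obtain ⟨hm0, hzh, hE0, hs, hX0, hXa0, hζ6⟩ := dv_twin_alg H D K c r s l w ζ z n₀ P g hn hP hg
    (by rw [hw, ← hS]) (by rw [hζ, ← hS]) hu hx hP0 hg0 hn0 hr0 (by rw [← hS]; exact hz)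
  obtain ⟨m, hm⟩ : ∃ m, m = D * z + c := ⟨_, rfl⟩
  obtain ⟨X, hX⟩ : ∃ X, X = z ^ 2 - l := ⟨_, rfl⟩
  obtain ⟨E, hE⟩ : ∃ E, E = P * m + g * X := ⟨_, rfl⟩
  obtain ⟨Xa, hXa⟩ : ∃ Xa, Xa = -(P * m) ^ 2 + 2 * (P * m) * g * (l - H * z) +
        g ^ 2 * (l - H ^ 2) * X := ⟨_, rfl⟩
  rw [← hm] at hm0
  rw [← hm, ← hX, ← hE] at hE0
  rw [← hm, ← hX, ← hE] at hs
  rw [← hX] at hX0
  rw [← hm, ← hX, ← hXa] at hXa0
  rw [← hm, ← hX, ← hE, ← hXa] at hζ6
  have cm : ∀ (F : IntermediateField ℂ N) (q : ℂ), algebraMap ℂ N q ∈ F :=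
    fun F q => F.algebraMap_mem q
  -- memberships in fields containing l and z
  have mc : ∀ F : IntermediateField ℂ N, l ∈ F → c ∈ F := fun F hl => by
    rw [hc]; exact add_mem hl (cm F _)
  have mr : ∀ F : IntermediateField ℂ N, l ∈ F → r ∈ F := fun F hl => by
    rw [hr]; exact add_mem (mul_mem (cm F _) hl) (cm F _)
  have mH : ∀ F : IntermediateField ℂ N, H ∈ F := fun F => by rw [hH]; exact cm F _
  have mD : ∀ F : IntermediateField ℂ N, D ∈ F := fun F => by rw [hD]; exact cm F _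
  have mK : ∀ F : IntermediateField ℂ N, K ∈ F := fun F => by rw [hK]; exact cm F _
  have mn : ∀ F : IntermediateField ℂ N, l ∈ F → n₀ ∈ F := fun F hl => by
    rw [hn]; exact sub_mem (pow_mem (mc F hl) 2) (mul_mem hl (pow_mem (mD F) 2))
  have mP : ∀ F : IntermediateField ℂ N, l ∈ F → P ∈ F := fun F hl => by
    rw [hP]; exact sub_mem (add_mem (mr F hl) hl) (pow_mem (mH F) 2)
  have mg : ∀ F : IntermediateField ℂ N, l ∈ F → g ∈ F := fun F hl => by
    rw [hg]; exact add_mem (mc F hl) (mul_mem (mH F) (mD F))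
  have mm : ∀ F : IntermediateField ℂ N, l ∈ F → z ∈ F → m ∈ F := fun F hl hz' => by
    rw [hm]; exact add_mem (mul_mem (mD F) hz') (mc F hl)
  have mX : ∀ F : IntermediateField ℂ N, l ∈ F → z ∈ F → X ∈ F := fun F hl hz' => by
    rw [hX]; exact sub_mem (pow_mem hz' 2) hl
  have mE : ∀ F : IntermediateField ℂ N, l ∈ F → z ∈ F → E ∈ F := fun F hl hz' => by
    rw [hE]; exact add_mem (mul_mem (mP F hl) (mm F hl hz')) (mul_mem (mg F hl) (mX F hl hz'))
  have mXa : ∀ F : IntermediateField ℂ N, l ∈ F → z ∈ F → Xa ∈ F := fun F hl hz' => by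
    rw [hXa]
    exact add_mem (add_mem (neg_mem (pow_mem (mul_mem (mP F hl) (mm F hl hz')) 2))
      (mul_mem (mul_mem (mul_mem (ofNat_mem F 2) (mul_mem (mP F hl) (mm F hl hz'))) (mg F hl))
        (sub_mem hl (mul_mem (mH F) hz'))))
      (mul_mem (mul_mem (pow_mem (mg F hl) 2) (sub_mem hl (pow_mem (mH F) 2))) (mX F hl hz'))
  have ms : ∀ F : IntermediateField ℂ N, l ∈ F → z ∈ F → s ∈ F := fun F hl hz' => by
    have h1 : s = (P * m * z + H * g * X) / E := by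
      rw [eq_div_iff hE0]; exact hs
    rw [h1]
    exact div_mem (add_mem (mul_mem (mul_mem (mP F hl) (mm F hl hz')) hz')
      (mul_mem (mul_mem (mH F) (mg F hl)) (mX F hl hz'))) (mE F hl hz')
  have mS : ∀ F : IntermediateField ℂ N, s ∈ F → l ∈ F → S ∈ F := fun F hs' hl => by
    rw [hS]
    exact add_mem (add_mem (mul_mem (mr F hl) (add_mem (mc F hl) (mul_mem (mD F) hs')))
      (mul_mem (add_mem hl (pow_mem (mH F) 2)) (sub_mem (mc F hl) (mul_mem (mD F) hs'))))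
      (mul_mem (mul_mem (ofNat_mem F 2) (mH F)) (sub_mem (mul_mem (mD F) hl)
        (mul_mem hs' (mc F hl))))
  -- independence of l, z
  have hindlz : AlgebraicIndependent ℂ ![l, z] := by
    apply indep_of_algebraic hind
    intro i
    rw [range_pair]
    have h1 : l ∈ IntermediateField.adjoin ℂ {l, z} :=
      IntermediateField.subset_adjoin _ _ (by simp)
    have h2 : z ∈ IntermediateField.adjoin ℂ {l, z} :=
      IntermediateField.subset_adjoin _ _ (by simp)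
    refine isAlgebraic_mem _ _ ?_
    fin_cases i
    · exact ms _ h1 h2
    · exact h1
  obtain ⟨k₁, hk₁⟩ : ∃ k₁ : ℂ, k₁ = r₁ + 1 := ⟨_, rfl⟩
  obtain ⟨k₀, hk₀⟩ : ∃ k₀ : ℂ, k₀ = r₀ - h ^ 2 := ⟨_, rfl⟩
  have hPk : P = algebraMap ℂ N k₁ * l + algebraMap ℂ N k₀ := by
    rw [hk₁, hk₀, hP, hr, hH]
    simp only [map_add, map_sub, map_pow, map_one]
    ring
  obtain ⟨V, hV⟩ : ∃ V, V = X / P := ⟨_, rfl⟩
  have hVP : V * P = X := by rw [hV, div_mul_cancel₀ _ hP0]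
  have hV0 : V ≠ 0 := by rw [hV]; exact div_ne_zero hX0 hP0
  have hlz : l * (1 + algebraMap ℂ N k₁ * V) = z ^ 2 - algebraMap ℂ N k₀ * V := by
    rw [hPk, hX] at hVP
    linear_combination hVP
  have hden2 : 1 + algebraMap ℂ N k₁ * V ≠ 0 := by
    intro h0
    rw [h0, mul_zero] at hlz
    by_cases hk : k₁ = 0
    · rw [hk, map_zero, zero_mul, add_zero] at h0
      exact one_ne_zero h0
    · have h1 : algebraMap ℂ N k₁ * z ^ 2 + algebraMap ℂ N k₀ = 0 := by
        linear_combination (-algebraMap ℂ N k₁) * hlz + algebraMap ℂ N k₀ * h0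
      by_cases hk0 : k₀ = 0
      · refine nzp hindlz (MvPolynomial.C k₁ * MvPolynomial.X 1 ^ 2 + MvPolynomial.C k₀) 0 1
          (gC := k₁) ?_ ?_ hk h1
        · simp
        · simp [hk0]
      · refine nzp hindlz (MvPolynomial.C k₁ * MvPolynomial.X 1 ^ 2 + MvPolynomial.C k₀) 0 0
          (gC := k₀) ?_ ?_ hk0 h1
        · simp
        · simp
  -- the field of V and z
  have hV1 : V ∈ IntermediateField.adjoin ℂ {V, z} :=
    IntermediateField.subset_adjoin _ _ (by simp)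
  have hz1 : z ∈ IntermediateField.adjoin ℂ {V, z} :=
    IntermediateField.subset_adjoin _ _ (by simp)
  have hl1 : l ∈ IntermediateField.adjoin ℂ {V, z} := by
    have h1 : l = (z ^ 2 - algebraMap ℂ N k₀ * V) / (1 + algebraMap ℂ N k₁ * V) := by
      rw [eq_div_iff hden2]; exact hlz
    rw [h1]
    exact div_mem (sub_mem (pow_mem hz1 2) (mul_mem (cm _ _) hV1))
      (add_mem (one_mem _) (mul_mem (cm _ _) hV1))
  have hs1 : s ∈ IntermediateField.adjoin ℂ {V, z} := ms _ hl1 hz1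
  have hindVz : AlgebraicIndependent ℂ ![V, z] := by
    apply indep_of_algebraic hind
    intro i
    rw [range_pair]
    refine isAlgebraic_mem _ _ ?_
    fin_cases i
    · exact hs1
    · exact hl1
  have hconic : IsConicType (IntermediateField.adjoin ℂ {V, z}) ζ := by
    have hVV : V ∈ ℂ⟮V⟯ := IntermediateField.mem_adjoin_simple_self ℂ V
    have hV1m : 1 + V ∈ ℂ⟮V⟯ := add_mem (one_mem _) hVV
    have hk1V : 1 + algebraMap ℂ N k₁ * V ∈ ℂ⟮V⟯ := add_mem (one_mem _) (mul_mem (cm _ _) hVV)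
    refine ⟨V, z, V * ((1 + V) ^ 2 / (1 + algebraMap ℂ N k₁ * V) + K * V),
      V * ((1 + V) * D - 2 * H * K * V),
      V * ((1 + V) ^ 2 * (algebraMap ℂ N e - algebraMap ℂ N k₀ * V /
        (1 + algebraMap ℂ N k₁ * V)) + (1 + V) * V * H * D + K * V * H ^ 2),
      E ^ 3 / (Xa * m * P ^ 2), hindVz, rfl, ?_, ?_, ?_, ?_, ?_, ?_, ?_⟩
    · exact mul_mem hVV (add_mem (div_mem (pow_mem hV1m 2) hk1V) (mul_mem (mK _) hVV))
    · exact mul_mem hVV (sub_mem (mul_mem hV1m (mD _)) (mul_mem (mul_mem (mul_mem (ofNat_mem _ 2)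
        (mH _)) (mK _)) hVV))
    · exact mul_mem hVV (add_mem (add_mem (mul_mem (pow_mem hV1m 2) (sub_mem (cm _ _)
        (div_mem (mul_mem (cm _ _) hVV) hk1V))) (mul_mem (mul_mem (mul_mem hV1m hVV) (mH _))
        (mD _))) (mul_mem (mul_mem (mK _) hVV) (pow_mem (mH _) 2)))
    · have h1 : ((1 + algebraMap ℂ N k₁ * V) * ((1 + V) * D - 2 * H * K * V)) ^ 2 - 4 *
          ((1 + V) ^ 2 + K * V * (1 + algebraMap ℂ N k₁ * V)) *
          ((1 + V) ^ 2 * (algebraMap ℂ N e * (1 + algebraMap ℂ N k₁ * V) -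
            algebraMap ℂ N k₀ * V) + (1 + V) * V * H * D * (1 + algebraMap ℂ N k₁ * V) +
            K * V * H ^ 2 * (1 + algebraMap ℂ N k₁ * V)) ≠ 0 := by
        rw [hH, hD, hK]
        refine nzp hindVz (((1 + MvPolynomial.C k₁ * MvPolynomial.X 0) *
          ((1 + MvPolynomial.X 0) * MvPolynomial.C d - 2 * MvPolynomial.C h * MvPolynomial.C k *
            MvPolynomial.X 0)) ^ 2 - 4 *
          ((1 + MvPolynomial.X 0) ^ 2 + MvPolynomial.C k * MvPolynomial.X 0 *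
            (1 + MvPolynomial.C k₁ * MvPolynomial.X 0)) *
          ((1 + MvPolynomial.X 0) ^ 2 * (MvPolynomial.C e * (1 + MvPolynomial.C k₁ *
            MvPolynomial.X 0) - MvPolynomial.C k₀ * MvPolynomial.X 0) +
            (1 + MvPolynomial.X 0) * MvPolynomial.X 0 * MvPolynomial.C h * MvPolynomial.C d *
            (1 + MvPolynomial.C k₁ * MvPolynomial.X 0) +
            MvPolynomial.C k * MvPolynomial.X 0 * MvPolynomial.C h ^ 2 *
            (1 + MvPolynomial.C k₁ * MvPolynomial.X 0))) 0 0 (gC := d ^ 2 - 4 * e) ?_ ?_ hd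
        · simp [map_ofNat]
        · simp [map_ofNat]
      intro h2
      apply h1
      obtain ⟨Q, hQ⟩ : ∃ Q, Q = 1 + algebraMap ℂ N k₁ * V := ⟨_, rfl⟩
      have hQ0 : Q ≠ 0 := by rw [hQ]; exact hden2
      rw [← hQ] at h2 ⊢
      have h3 : V ^ 2 * ((Q * ((1 + V) * D - 2 * H * K * V)) ^ 2 - 4 *
          ((1 + V) ^ 2 + K * V * Q) * ((1 + V) ^ 2 * (algebraMap ℂ N e * Q -
            algebraMap ℂ N k₀ * V) + (1 + V) * V * H * D * Q + K * V * H ^ 2 * Q)) =
          Q ^ 2 * 0 := by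
        rw [← h2]
        field_simp
      rw [mul_zero] at h3
      exact (mul_eq_zero.1 h3).resolve_left (pow_ne_zero 2 hV0)
    · exact div_mem (pow_mem (mE _ hl1 hz1) 3) (mul_mem (mul_mem (mXa _ hl1 hz1) (mm _ hl1 hz1))
        (pow_mem (mP _ hl1) 2))
    · exact div_ne_zero (pow_ne_zero 3 hE0) (mul_ne_zero (mul_ne_zero hXa0 hm0)
        (pow_ne_zero 2 hP0))
    · have h1 : (E ^ 3 / (Xa * m * P ^ 2) * ζ) ^ 2 = ζ ^ 2 * E ^ 6 / (Xa ^ 2 * m ^ 2 * P ^ 4) := by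
        field_simp
      have h2 : ζ ^ 2 * E ^ 6 = (V * ((m + g * V) * (1 + V) + K * V * (z - H) ^ 2)) *
          (Xa ^ 2 * m ^ 2 * P ^ 4) := by
        rw [hζ6, hE, ← hVP]
        ring
      rw [h1, h2, mul_div_cancel_right₀ _ (mul_ne_zero (mul_ne_zero (pow_ne_zero 2 hXa0)
        (pow_ne_zero 2 hm0)) (pow_ne_zero 4 hP0))]
      have h3 : l = (z ^ 2 - algebraMap ℂ N k₀ * V) / (1 + algebraMap ℂ N k₁ * V) := by
        rw [eq_div_iff hden2]; exact hlz
      have h4 : c = (z ^ 2 - algebraMap ℂ N k₀ * V) / (1 + algebraMap ℂ N k₁ * V) +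
          algebraMap ℂ N e := by rw [hc, ← h3]
      rw [hm, hg, h4]
      field_simp
      ring
  have hrat := conic_rational hconic
  have hEq : (IntermediateField.adjoin ℂ {s, l} ⊔ IntermediateField.adjoin ℂ {ζ} :
      IntermediateField ℂ N) =
      IntermediateField.adjoin ℂ {V, z} ⊔ IntermediateField.adjoin ℂ {ζ} := by
    apply le_antisymm
    · have hle : IntermediateField.adjoin ℂ {V, z} ≤ (IntermediateField.adjoin ℂ {V, z} ⊔
        IntermediateField.adjoin ℂ {ζ} : IntermediateField ℂ N) := le_sup_left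
      refine sup_adjoin_le ?_ (mem_sup_adjoin _ ζ)
      rw [IntermediateField.adjoin_le_iff]
      rintro b (rfl | hb)
      · exact hle hs1
      · rw [Set.mem_singleton_iff.1 hb]; exact hle hl1
    · have hle : IntermediateField.adjoin ℂ {s, l} ≤ (IntermediateField.adjoin ℂ {s, l} ⊔
        IntermediateField.adjoin ℂ {ζ} : IntermediateField ℂ N) := le_sup_left
      have hs2 := hle (IntermediateField.subset_adjoin _ _ (by simp) :
        s ∈ IntermediateField.adjoin ℂ {s, l})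
      have hl2 := hle (IntermediateField.subset_adjoin _ _ (by simp) :
        l ∈ IntermediateField.adjoin ℂ {s, l})
      have hζ2 := mem_sup_adjoin (IntermediateField.adjoin ℂ {s, l}) ζ
      have hW : (s - H) * w = 2 * ζ ^ 2 / (l - s ^ 2) -
          (2 * (s - H) ^ 2 * (c - D * s + K * (l - s ^ 2)) - S) := by
        rw [hζ]
        field_simp
        ring
      have hSm := mS _ hs2 hl2
      have hum := sub_mem hs2 (mH (IntermediateField.adjoin ℂ {s, l} ⊔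
        IntermediateField.adjoin ℂ {ζ}))
      have hxm := sub_mem hl2 (pow_mem hs2 2)
      have hWm : (s - H) * w ∈ (IntermediateField.adjoin ℂ {s, l} ⊔
        IntermediateField.adjoin ℂ {ζ} : IntermediateField ℂ N) := by
        rw [hW]
        exact sub_mem (div_mem (mul_mem (ofNat_mem _ 2) (pow_mem hζ2 2)) hxm)
          (sub_mem (mul_mem (mul_mem (ofNat_mem _ 2) (pow_mem hum 2)) (add_mem (sub_mem (mc _ hl2)
            (mul_mem (mD _) hs2)) (mul_mem (mK _) hxm))) hSm)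
      have hzm : z ∈ (IntermediateField.adjoin ℂ {s, l} ⊔
        IntermediateField.adjoin ℂ {ζ} : IntermediateField ℂ N) := by
        rw [hzdef]
        exact div_mem (add_mem (mul_mem (mc _ hl2) (add_mem hWm hSm))
          (mul_mem (mul_mem (mul_mem (ofNat_mem _ 2) (mH _)) (mn _ hl2)) hum))
          (sub_mem (mul_mem (mul_mem (ofNat_mem _ 2) (mn _ hl2)) hum)
            (mul_mem (mD _) (add_mem hWm hSm)))
      refine sup_adjoin_le ?_ hζ2
      rw [IntermediateField.adjoin_le_iff]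
      rintro b (hb | hb)
      · rw [hb, hV]
        exact div_mem (mX _ hl2 hzm) (mP _ hl2)
      · rw [Set.mem_singleton_iff.1 hb]; exact hzm
  rw [hEq]
  exact hrat

end

end Vale.Agent.P297.H72
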