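import Vale.Agent.P297.H72.DvIds
import Vale.Agent.P297.H600.Quartic
import Vale.Agent.P297.H424.Sq

/-!
The family of Du Val type: the double plane is rational.
-/

set_option linter.unusedSectionVars false

open IntermediateField

namespace Vale.Agent.P297.H72

open Vale.Agent.P297 Vale.Agent.P297.H839 Vale.Agent.P297.H109 Vale.Agent.P297.H600

section

variable {N : Type} [Field N] [Algebra ℂ N]

theorem nzp {x y : N} (h : AlgebraicIndependent ℂ ![x, y]) (P : MvPolynomial (Fin 2) ℂ) (a b : ℂ)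
    {g : N} {gC : ℂ} (h1 : MvPolynomial.aeval ![x, y] P = g)
    (h2 : MvPolynomial.aeval ![a, b] P = gC) (h3 : gC ≠ 0) : g ≠ 0 := by
  rw [← h1]
  exact Vale.Agent.P297.H424.ne_zero_of_point h P a b (by rwa [h2])

theorem am_ne {c : ℂ} (hc : c ≠ 0) : algebraMap ℂ N c ≠ 0 := by
  rwa [Ne, FaithfulSMul.algebraMap_eq_zero_iff]

end

/-- the quartic with two known zeros -/
theorem dv_fac {A : Type*} [CommRing A] (h d e r₀ r₁ k ρ₁ ρ₂ z : A) :
    (ρ₁ - ρ₂) * (dvB h d e r₀ r₁ k z - (z - ρ₁) * (z - ρ₂) * ((k - 1 - r₁ * k) * z ^ 2 +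
      ((2 * d - 2 * k * h - d * k - r₁ * k * d) + (k - 1 - r₁ * k) * (ρ₁ + ρ₂)) * z +
      ((k * h ^ 2 - 2 * e - 2 * h * d - d ^ 2 + 2 * d * k * h + e * k - r₁ * (k * e + d ^ 2) -
        r₀ * k) + (2 * d - 2 * k * h - d * k - r₁ * k * d) * (ρ₁ + ρ₂) +
        (k - 1 - r₁ * k) * (ρ₁ ^ 2 + ρ₁ * ρ₂ + ρ₂ ^ 2)))) =
      (z - ρ₂) * dvB h d e r₀ r₁ k ρ₁ - (z - ρ₁) * dvB h d e r₀ r₁ k ρ₂ := by
  unfold dvB
  ring

theorem exists_quot (h d e r₀ r₁ k ρ₁ ρ₂ : ℂ) (hρ : ρ₁ ≠ ρ₂) (hB1 : dvB h d e r₀ r₁ k ρ₁ = 0)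
    (hB2 : dvB h d e r₀ r₁ k ρ₂ = 0) : ∃ b₂ b₁ b₀ : ℂ, ∀ (A : Type) [Field A] [Algebra ℂ A] (z : A),
      dvB (algebraMap ℂ A h) (algebraMap ℂ A d) (algebraMap ℂ A e) (algebraMap ℂ A r₀)
        (algebraMap ℂ A r₁) (algebraMap ℂ A k) z =
      (z - algebraMap ℂ A ρ₁) * (z - algebraMap ℂ A ρ₂) *
        (algebraMap ℂ A b₂ * z ^ 2 + algebraMap ℂ A b₁ * z + algebraMap ℂ A b₀) := by
  refine ⟨k - 1 - r₁ * k, (2 * d - 2 * k * h - d * k - r₁ * k * d) + (k - 1 - r₁ * k) * (ρ₁ + ρ₂),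
    (k * h ^ 2 - 2 * e - 2 * h * d - d ^ 2 + 2 * d * k * h + e * k - r₁ * (k * e + d ^ 2) -
        r₀ * k) + (2 * d - 2 * k * h - d * k - r₁ * k * d) * (ρ₁ + ρ₂) +
        (k - 1 - r₁ * k) * (ρ₁ ^ 2 + ρ₁ * ρ₂ + ρ₂ ^ 2), fun A _ _ z => ?_⟩
  have h0 := dv_fac (algebraMap ℂ A h) (algebraMap ℂ A d) (algebraMap ℂ A e) (algebraMap ℂ A r₀)
        (algebraMap ℂ A r₁) (algebraMap ℂ A k) (algebraMap ℂ A ρ₁) (algebraMap ℂ A ρ₂) z
  have h1 := map_dvB (algebraMap ℂ A) h d e r₀ r₁ k ρ₁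
  have h2 := map_dvB (algebraMap ℂ A) h d e r₀ r₁ k ρ₂
  rw [hB1, map_zero] at h1
  rw [hB2, map_zero] at h2
  rw [← h1, ← h2, mul_zero, mul_zero, sub_zero] at h0
  have h3 : algebraMap ℂ A ρ₁ - algebraMap ℂ A ρ₂ ≠ 0 := by
    rw [← map_sub]
    exact am_ne (sub_ne_zero.2 hρ)
  have h4 := (mul_eq_zero.1 h0).resolve_left h3
  rw [sub_eq_zero] at h4
  rw [h4]
  simp only [map_add, map_sub, map_mul, map_pow, map_one, map_ofNat]

section

variable {N : Type} [Field N] [Algebra ℂ N]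

/-- the double plane is rational -/
theorem dv_wside (h d e r₀ r₁ k ρ₁ ρ₂ ρ₃ : ℂ) (hρ : ρ₁ ≠ ρ₂) (hB1 : dvB h d e r₀ r₁ k ρ₁ = 0)
    (hB2 : dvB h d e r₀ r₁ k ρ₂ = 0) (hB3 : dvB h d e r₀ r₁ k ρ₃ ≠ 0) {s l y : N}
    (hind : AlgebraicIndependent ℂ ![s, l])
    (hy : y ^ 2 = (l - s ^ 2) * dvQ (algebraMap ℂ N h) (algebraMap ℂ N d) (algebraMap ℂ N e)
      (algebraMap ℂ N r₀) (algebraMap ℂ N r₁) (algebraMap ℂ N k) s l) :
    IsRational (IntermediateField.adjoin ℂ {s, l} ⊔ IntermediateField.adjoin ℂ {y} :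
      IntermediateField ℂ N) := by
  obtain ⟨b₂, b₁, b₀, hq⟩ := exists_quot h d e r₀ r₁ k ρ₁ ρ₂ hρ hB1 hB2
  have hq3 : b₂ * ρ₃ ^ 2 + b₁ * ρ₃ + b₀ ≠ 0 := by
    intro h0
    have h1 := hq ℂ ρ₃
    simp only [Algebra.algebraMap_self, RingHom.id_apply] at h1
    rw [h0, mul_zero] at h1
    exact hB3 h1
  have hqN := hq N s
  obtain ⟨B, hB⟩ : ∃ B : N, B = algebraMap ℂ N b₂ * s ^ 2 + algebraMap ℂ N b₁ * s +
    algebraMap ℂ N b₀ := ⟨_, rfl⟩
  rw [← hB] at hqN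
  have hB0 : B ≠ 0 := by
    rw [hB]
    refine nzp hind (MvPolynomial.C b₂ * MvPolynomial.X 0 ^ 2 + MvPolynomial.C b₁ *
      MvPolynomial.X 0 + MvPolynomial.C b₀) ρ₃ 0 ?_ ?_ hq3
    · simp
    · simp
  have hx0 : l - s ^ 2 ≠ 0 := by
    refine nzp hind (MvPolynomial.X 1 - MvPolynomial.X 0 ^ 2) 0 1 (gC := 1) ?_ ?_ one_ne_zero
    · simp
    · simp
  obtain ⟨μ, hμ⟩ : ∃ μ : N, μ = (l - s ^ 2) / B := ⟨_, rfl⟩
  have hμB : μ * B = l - s ^ 2 := by rw [hμ, div_mul_cancel₀ _ hB0]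
  have hμ0 : μ ≠ 0 := by rw [hμ]; exact div_ne_zero hx0 hB0
  -- the field
  have hs1 : s ∈ IntermediateField.adjoin ℂ {s, l} :=
    IntermediateField.subset_adjoin _ _ (by simp)
  have hl1 : l ∈ IntermediateField.adjoin ℂ {s, l} :=
    IntermediateField.subset_adjoin _ _ (by simp)
  have hBmem : ∀ F : IntermediateField ℂ N, s ∈ F → B ∈ F := by
    intro F hF
    rw [hB]
    exact add_mem (add_mem (mul_mem (F.algebraMap_mem _) (pow_mem hF 2))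
      (mul_mem (F.algebraMap_mem _) hF)) (F.algebraMap_mem _)
  have hm2 : μ ∈ IntermediateField.adjoin ℂ {μ, s} :=
    IntermediateField.subset_adjoin _ _ (by simp)
  have hs2 : s ∈ IntermediateField.adjoin ℂ {μ, s} :=
    IntermediateField.subset_adjoin _ _ (by simp)
  have hl2 : l ∈ IntermediateField.adjoin ℂ {μ, s} := by
    have h1 : l = s ^ 2 + μ * B := by rw [hμB]; ring
    rw [h1]
    exact add_mem (pow_mem hs2 2) (mul_mem hm2 (hBmem _ hs2))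
  have hFF : IntermediateField.adjoin ℂ {s, l} = IntermediateField.adjoin ℂ {μ, s} := by
    apply le_antisymm
    · rw [IntermediateField.adjoin_le_iff]
      rintro a (rfl | ha)
      · exact hs2
      · rw [Set.mem_singleton_iff.1 ha]; exact hl2
    · rw [IntermediateField.adjoin_le_iff]
      rintro a (rfl | ha)
      · rw [hμ]
        exact div_mem (sub_mem hl1 (pow_mem hs1 2)) (hBmem _ hs1)
      · rw [Set.mem_singleton_iff.1 ha]; exact hs1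
  have hind2 : AlgebraicIndependent ℂ ![μ, s] := by
    apply indep_of_algebraic hind
    intro i
    rw [range_pair]
    refine isAlgebraic_mem _ _ ?_
    fin_cases i
    · exact hs2
    · exact hl2
  -- coefficients
  obtain ⟨q2, hq2⟩ : ∃ q2 : ℂ, q2 = -(1 + k) - r₁ * k := ⟨_, rfl⟩
  obtain ⟨c2, hc2⟩ : ∃ c2 : ℂ, c2 = (1 + k) * (k - 1) - 1 - r₁ * k - k * r₁ := ⟨_, rfl⟩
  obtain ⟨c1, hc1⟩ : ∃ c1 : ℂ, c1 = (1 + k) * (-2 * k * h + d) + d - r₁ * k * d := ⟨_, rfl⟩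
  obtain ⟨c0, hc0⟩ : ∃ c0 : ℂ, c0 = (1 + k) * (k * h ^ 2 - e - 2 * h * d) - e -
    r₁ * (k * e + d ^ 2) - k * r₀ := ⟨_, rfl⟩
  have hconic : IsConicType (IntermediateField.adjoin ℂ {s, l}) y := by
    have hμμ : μ ∈ ℂ⟮μ⟯ := IntermediateField.mem_adjoin_simple_self ℂ μ
    have hcm : ∀ c : ℂ, algebraMap ℂ N c ∈ ℂ⟮μ⟯ := fun c => ℂ⟮μ⟯.algebraMap_mem c
    refine ⟨μ, s,
      μ * (algebraMap ℂ N q2 * μ ^ 2 * algebraMap ℂ N b₂ + algebraMap ℂ N c2 * μ + 1),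
      μ * (algebraMap ℂ N q2 * μ ^ 2 * algebraMap ℂ N b₁ + algebraMap ℂ N c1 * μ -
        algebraMap ℂ N (ρ₁ + ρ₂)),
      μ * (algebraMap ℂ N q2 * μ ^ 2 * algebraMap ℂ N b₀ + algebraMap ℂ N c0 * μ +
        algebraMap ℂ N (ρ₁ * ρ₂)), B⁻¹, hind2, hFF, ?_, ?_, ?_, ?_, ?_, ?_, ?_⟩
    · exact mul_mem hμμ (add_mem (add_mem (mul_mem (mul_mem (hcm _) (pow_mem hμμ 2)) (hcm _))
        (mul_mem (hcm _) hμμ)) (one_mem _))
    · exact mul_mem hμμ (sub_mem (add_mem (mul_mem (mul_mem (hcm _) (pow_mem hμμ 2)) (hcm _))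
        (mul_mem (hcm _) hμμ)) (hcm _))
    · exact mul_mem hμμ (add_mem (add_mem (mul_mem (mul_mem (hcm _) (pow_mem hμμ 2)) (hcm _))
        (mul_mem (hcm _) hμμ)) (hcm _))
    · have h1 : (algebraMap ℂ N q2 * μ ^ 2 * algebraMap ℂ N b₁ + algebraMap ℂ N c1 * μ -
          algebraMap ℂ N (ρ₁ + ρ₂)) ^ 2 -
          4 * (algebraMap ℂ N q2 * μ ^ 2 * algebraMap ℂ N b₂ + algebraMap ℂ N c2 * μ + 1) *
          (algebraMap ℂ N q2 * μ ^ 2 * algebraMap ℂ N b₀ + algebraMap ℂ N c0 * μ +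
            algebraMap ℂ N (ρ₁ * ρ₂)) ≠ 0 := by
        refine nzp hind2 ((MvPolynomial.C q2 * MvPolynomial.X 0 ^ 2 * MvPolynomial.C b₁ +
          MvPolynomial.C c1 * MvPolynomial.X 0 - MvPolynomial.C (ρ₁ + ρ₂)) ^ 2 -
          4 * (MvPolynomial.C q2 * MvPolynomial.X 0 ^ 2 * MvPolynomial.C b₂ +
            MvPolynomial.C c2 * MvPolynomial.X 0 + 1) *
          (MvPolynomial.C q2 * MvPolynomial.X 0 ^ 2 * MvPolynomial.C b₀ +
            MvPolynomial.C c0 * MvPolynomial.X 0 + MvPolynomial.C (ρ₁ * ρ₂))) 0 0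
            (gC := (ρ₁ - ρ₂) ^ 2) ?_ ?_ (pow_ne_zero 2 (sub_ne_zero.2 hρ))
        · simp only [map_sub, map_add, map_mul, map_pow, map_ofNat, map_one, MvPolynomial.aeval_X,
            MvPolynomial.aeval_C, Matrix.cons_val_zero]
        · simp only [map_sub, map_add, map_mul, map_pow, map_ofNat, map_one, MvPolynomial.aeval_X,
            MvPolynomial.aeval_C, Matrix.cons_val_zero, Algebra.algebraMap_self, RingHom.id_apply]
          ring
      intro h2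
      apply h1
      apply mul_left_cancel₀ (pow_ne_zero 2 hμ0)
      rw [mul_zero, ← h2]
      ring
    · exact inv_mem (hBmem _ hs1)
    · exact inv_ne_zero hB0
    · rw [mul_pow, hy, dv_q, hqN, ← hμB, inv_pow]
      rw [inv_mul_eq_iff_eq_mul₀ (pow_ne_zero 2 hB0)]
      have e1 : algebraMap ℂ N q2 = -(1 + algebraMap ℂ N k) - algebraMap ℂ N r₁ * algebraMap ℂ N k := by
        rw [hq2]; simp only [map_sub, map_neg, map_add, map_mul, map_one]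
      have e2 : algebraMap ℂ N c2 = (1 + algebraMap ℂ N k) * (algebraMap ℂ N k - 1) - 1 -
          algebraMap ℂ N r₁ * algebraMap ℂ N k - algebraMap ℂ N k * algebraMap ℂ N r₁ := by
        rw [hc2]; simp only [map_sub, map_add, map_mul, map_one]
      have e3 : algebraMap ℂ N c1 = (1 + algebraMap ℂ N k) * (-2 * algebraMap ℂ N k *
          algebraMap ℂ N h + algebraMap ℂ N d) + algebraMap ℂ N d - algebraMap ℂ N r₁ *
          algebraMap ℂ N k * algebraMap ℂ N d := by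
        rw [hc1]; simp only [map_sub, map_neg, map_add, map_mul, map_one, map_ofNat]
      have e4 : algebraMap ℂ N c0 = (1 + algebraMap ℂ N k) * (algebraMap ℂ N k *
          algebraMap ℂ N h ^ 2 - algebraMap ℂ N e - 2 * algebraMap ℂ N h * algebraMap ℂ N d) -
          algebraMap ℂ N e - algebraMap ℂ N r₁ * (algebraMap ℂ N k * algebraMap ℂ N e +
          algebraMap ℂ N d ^ 2) - algebraMap ℂ N k * algebraMap ℂ N r₀ := by
        rw [hc0]; simp only [map_sub, map_add, map_mul, map_one, map_ofNat, map_pow]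
      rw [e1, e2, e3, e4, map_add, map_mul]
      have hB' := hB
      linear_combination (-(μ * B ^ 2 * μ ^ 2 * (-(1 + algebraMap ℂ N k) - algebraMap ℂ N r₁ *
        algebraMap ℂ N k))) * (-hB')
  exact conic_rational hconic

end

end Vale.Agent.P297.H72
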