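import Vale.Agent.P297.Bdl.B1

/-!
Families of zero-cycles over a finitely generated domain: if the class is constant on a dense open
set, then it is constant.
-/

set_option linter.unusedSectionVars false
set_option linter.style.haveILetI false

open CategoryTheory AlgebraicGeometry IntermediateField Polynomial

namespace Vale.Agent.P297.H72

open Vale.Agent.P297

section

variable {S : Scheme.{0}} (f : S ⟶ Spec (.of ℂ)) [IsProper f] {C : Type} [CommRing C]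
  [Algebra ℂ C] (j : Spec (.of C) ⟶ S)
  (hj : j ≫ f = Spec.map (CommRingCat.ofHom (algebraMap ℂ C)))

/-- The cycle at a point of the base. -/
noncomputable def famCyc {D : Type} [CommRing D] [Algebra ℂ D] {ι : Type} [Fintype ι]
    (n : ι → ℤ) (φ : ι → (C →ₐ[ℂ] D)) (ψ : D →ₐ[ℂ] ℂ) : ZeroCycle S :=
  ∑ i, n i • Finsupp.single (pt f j hj (ψ.comp (φ i))) (1 : ℤ)

/-- Moving a point of the base. -/
theorem famCyc_move {D : Type} [CommRing D] [IsDomain D] [Algebra ℂ D] [Algebra.FiniteType ℂ D]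
    {ι : Type} [Fintype ι] (n : ι → ℤ) (φ : ι → (C →ₐ[ℂ] D)) (b : D) (hb : b ≠ 0)
    (ψ : D →ₐ[ℂ] ℂ) (hψb : ψ b = 0) :
    ∃ z : (D →ₐ[ℂ] ℂ) →₀ ℤ, (∀ ξ ∈ z.support, ξ b ≠ 0) ∧ deg z = 1 ∧
      famCyc f j hj n φ ψ - z.sum (fun ξ a => a • famCyc f j hj n φ ξ) ∈ Rat f := by
  classical
  obtain ⟨𝔭, h𝔭, h𝔭ψ, hb𝔭, hFF⟩ := exists_curve ψ b hb hψb
  let E := FractionRing (D ⧸ 𝔭)
  let κ : (D ⧸ 𝔭) →ₐ[ℂ] E := IsScalarTower.toAlgHom ℂ (D ⧸ 𝔭) E
  have hκ : Function.Injective κ := IsFractionRing.injective (D ⧸ 𝔭) E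
  let m : D →ₐ[ℂ] E := κ.comp (Ideal.Quotient.mkₐ ℂ 𝔭)
  let e : (D ⧸ 𝔭) ≃ₐ[ℂ] κ.range := AlgEquiv.ofInjective κ hκ
  let ψ' : (D ⧸ 𝔭) →ₐ[ℂ] ℂ := Ideal.Quotient.liftₐ 𝔭 ψ (fun a ha => h𝔭ψ ha)
  let χ : κ.range →ₐ[ℂ] ℂ := ψ'.comp e.symm.toAlgHom
  have hχ : ∀ c, χ (e (Ideal.Quotient.mk 𝔭 c)) = ψ c := by
    intro c
    change ψ' (e.symm (e (Ideal.Quotient.mk 𝔭 c))) = ψ c
    rw [AlgEquiv.symm_apply_apply]
    rfl
  obtain ⟨P, hPD, hP⟩ := exists_place_dominating κ.range χ (e (Ideal.Quotient.mk 𝔭 b)) (by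
    rw [Ne, EmbeddingLike.map_eq_zero_iff, Ideal.Quotient.eq_zero_iff_mem]
    exact hb𝔭) (by rw [hχ, hψb])
  let γ : ι → (Spec (.of E) ⟶ S) := fun i =>
    Spec.map (CommRingCat.ofHom (m.comp (φ i)).toRingHom) ≫ j
  have hγ : ∀ i, γ i ≫ f = Spec.map (CommRingCat.ofHom (algebraMap ℂ E)) := by
    intro i
    change (Spec.map (CommRingCat.ofHom (m.comp (φ i)).toRingHom) ≫ j) ≫ f = _
    rw [Category.assoc, hj, ← Spec.map_comp, ← CommRingCat.ofHom_comp]
    congr 2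
    exact RingHom.ext fun a => (m.comp (φ i)).commutes a
  have hcen : ∀ (i : ι) (w : PlaceOver ℂ E) (hw : ∀ c, m c ∈ w.1.ring) (ξ : D →ₐ[ℂ] ℂ)
      (_ : ∀ c, ξ c = evalAt w ⟨m c, hw c⟩),
      centerMap f (γ i) (hγ i) w = pt f j hj (ξ.comp (φ i)) := by
    intro i w hw ξ hξ
    exact centerMap_eq_cpt f (γ i) (hγ i) w j (m.comp (φ i)).toRingHom rfl
      (fun c => hw (φ i c)) (ξ.comp (φ i)).toRingHom
      (fun c => (hξ (φ i c)).symm) (pt_aux f _ hj _)
  have hPx : ∀ i, centerMap f (γ i) (hγ i) P = pt f j hj (ψ.comp (φ i)) := by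
    intro i
    exact hcen i P (fun c => hPD (e (Ideal.Quotient.mk 𝔭 c))) ψ
      (fun c => ((hP (e (Ideal.Quotient.mk 𝔭 c))).trans (hχ c)).symm)
  have hbad := finite_bad m b
  let T : Finset (PlaceOver ℂ E) := hbad.toFinset.erase P
  obtain ⟨u, hu0, huP, huT⟩ := exists_ord_one T P (Finset.notMem_erase _ _)
  let D₀ : PlaceOver ℂ E →₀ ℤ := div ℂ u - Finsupp.single P 1
  have hsupp : ∀ w ∈ D₀.support, ∃ hw : ∀ c, m c ∈ w.1.ring, ∃ ξ : D →ₐ[ℂ] ℂ,
      (∀ c, ξ c = evalAt w ⟨m c, hw c⟩) ∧ ξ b ≠ 0 := by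
    intro w hw
    rw [Finsupp.mem_support_iff] at hw
    have hwP : w ≠ P := by
      rintro rfl
      apply hw
      change div ℂ u w - (Finsupp.single w (1 : ℤ)) w = 0
      rw [div_apply, huP, Finsupp.single_eq_same, sub_self]
    have hwu : w.1.ord u ≠ 0 := by
      intro h0
      apply hw
      change div ℂ u w - (Finsupp.single P (1 : ℤ)) w = 0
      rw [div_apply, h0, Finsupp.single_eq_of_ne hwP, sub_zero]
    have hwT : w ∉ T := fun h => hwu (huT w h)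
    have hwbad : ¬ ((∃ c, m c ∉ w.1.ring) ∨ w.1.ord (m b) ≠ 0) := by
      intro h
      apply hwT
      exact Finset.mem_erase.2 ⟨hwP, hbad.mem_toFinset.2 h⟩
    push Not at hwbad
    obtain ⟨hreg, hord⟩ := hwbad
    obtain ⟨ξ, hξ⟩ := evalAt_algHom m w hreg
    refine ⟨hreg, ξ, hξ, ?_⟩
    rw [hξ]
    intro h0
    rw [evalAt_eq_zero_iff, IsLocalRing.mem_maximalIdeal] at h0
    apply h0
    have hmb : m b ≠ 0 := by
      intro h1
      apply hb𝔭
      rw [← Ideal.Quotient.eq_zero_iff_mem]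
      exact hκ (h1.trans (map_zero κ).symm)
    have hinv : (m b)⁻¹ ∈ w.1.ring := ((w.1.ord_eq_zero_iff hmb).1 hord).2
    refine IsUnit.of_mul_eq_one ⟨_, hinv⟩ ?_
    exact Subtype.ext (mul_inv_cancel₀ hmb)
  let g : PlaceOver ℂ E → (D →ₐ[ℂ] ℂ) := fun w =>
    if h : w ∈ D₀.support then (hsupp w h).choose_spec.choose else ψ
  have hg : ∀ w (h : w ∈ D₀.support), (∀ i, centerMap f (γ i) (hγ i) w =
      pt f j hj ((g w).comp (φ i))) ∧ g w b ≠ 0 := by
    intro w h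
    have h1 : g w = (hsupp w h).choose_spec.choose := dif_pos h
    obtain ⟨h2, h3⟩ := (hsupp w h).choose_spec.choose_spec
    rw [h1]
    exact ⟨fun i => hcen i w (hsupp w h).choose _ h2, h3⟩
  refine ⟨- Finsupp.mapDomain g D₀, ?_, ?_, ?_⟩
  · intro ξ hξ
    rw [Finsupp.support_neg] at hξ
    have h1 := Finsupp.mapDomain_support hξ
    rw [Finset.mem_image] at h1
    obtain ⟨w, hw, rfl⟩ := h1
    exact (hg w hw).2
  · rw [map_neg, deg_mapDomain]
    change -deg (div ℂ u - Finsupp.single P 1) = 1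
    rw [map_sub, deg_div, deg_single]
    norm_num
  · have h1 : ∑ i, n i • pushDiv f (γ i) (hγ i) u ∈ Rat f :=
      AddSubgroup.sum_mem _ fun i _ => (Rat f).zsmul_mem (pushDiv_mem_Rat f (γ i) (hγ i) u) _
    have h2 : famCyc f j hj n φ ψ -
        (- Finsupp.mapDomain g D₀).sum (fun ξ a => a • famCyc f j hj n φ ξ) =
        ∑ i, n i • pushDiv f (γ i) (hγ i) u := by
      have h3 : (- Finsupp.mapDomain g D₀).sum (fun ξ a => a • famCyc f j hj n φ ξ) =
          - (D₀.sum fun w a => a • famCyc f j hj n φ (g w)) := by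
        rw [Finsupp.sum_neg_index (by intro; rw [zero_smul]),
          Finsupp.sum_mapDomain_index (by intro; rw [neg_zero, zero_smul])
            (by intro ξ a a'; rw [neg_add, add_smul])]
        rw [Finsupp.sum, Finsupp.sum, ← Finset.sum_neg_distrib]
        refine Finset.sum_congr rfl fun w _ => ?_
        rw [neg_smul]
      have h4 : (D₀.sum fun w a => a • famCyc f j hj n φ (g w)) =
          ∑ i, n i • Finsupp.mapDomain (centerMap f (γ i) (hγ i)) D₀ := by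
        rw [Finsupp.sum]
        have h5 : ∀ w ∈ D₀.support, D₀ w • famCyc f j hj n φ (g w) =
            ∑ i, n i • Finsupp.single (centerMap f (γ i) (hγ i) w) (D₀ w) := by
          intro w hw
          unfold famCyc
          rw [Finset.smul_sum]
          refine Finset.sum_congr rfl fun i _ => ?_
          rw [(hg w hw).1 i, smul_comm, Finsupp.smul_single, smul_eq_mul, mul_one]
        rw [Finset.sum_congr rfl h5, Finset.sum_comm]
        refine Finset.sum_congr rfl fun i _ => ?_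
        rw [← Finset.smul_sum]
        rfl
      have h6 : ∀ i, pushDiv f (γ i) (hγ i) u =
          Finsupp.mapDomain (centerMap f (γ i) (hγ i)) D₀ +
            Finsupp.single (pt f j hj (ψ.comp (φ i))) 1 := by
        intro i
        unfold pushDiv
        have h7 : div ℂ u = D₀ + Finsupp.single P 1 := by
          change div ℂ u = div ℂ u - Finsupp.single P 1 + Finsupp.single P 1
          rw [sub_add_cancel]
        rw [h7, Finsupp.mapDomain_add, Finsupp.mapDomain_single, hPx]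
      rw [h3, h4, sub_neg_eq_add]
      simp only [h6, smul_add, Finset.sum_add_distrib]
      rw [add_comm]
      rfl
    rw [h2]
    exact h1

/-- **Constancy of a family.** -/
theorem famCyc_const {D : Type} [CommRing D] [IsDomain D] [Algebra ℂ D] [Algebra.FiniteType ℂ D]
    {ι : Type} [Fintype ι] (n : ι → ℤ) (φ : ι → (C →ₐ[ℂ] D)) (R : AddSubgroup (ZeroCycle S))
    (hR : Rat f ≤ R) (b : D) (hb : b ≠ 0)
    (h : ∀ ψ₁ ψ₂ : D →ₐ[ℂ] ℂ, ψ₁ b ≠ 0 → ψ₂ b ≠ 0 →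
      famCyc f j hj n φ ψ₁ - famCyc f j hj n φ ψ₂ ∈ R) (ψ₁ ψ₂ : D →ₐ[ℂ] ℂ) :
    famCyc f j hj n φ ψ₁ - famCyc f j hj n φ ψ₂ ∈ R := by
  classical
  -- a cycle of good points
  have key : ∀ ψ : D →ₐ[ℂ] ℂ, ∃ z : (D →ₐ[ℂ] ℂ) →₀ ℤ, (∀ ξ ∈ z.support, ξ b ≠ 0) ∧ deg z = 1 ∧
      famCyc f j hj n φ ψ - z.sum (fun ξ a => a • famCyc f j hj n φ ξ) ∈ R := by
    intro ψ
    by_cases hψ : ψ b = 0
    · obtain ⟨z, h1, h2, h3⟩ := famCyc_move f j hj n φ b hb ψ hψ
      exact ⟨z, h1, h2, hR h3⟩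
    · refine ⟨Finsupp.single ψ 1, ?_, deg_single _ _, ?_⟩
      · intro ξ hξ
        have := Finsupp.support_single_subset hξ
        rw [Finset.mem_singleton] at this
        rw [this]
        exact hψ
      · rw [Finsupp.sum_single_index (by rw [zero_smul]), one_smul, sub_self]
        exact R.zero_mem
  obtain ⟨z₁, hz₁, hd₁, hm₁⟩ := key ψ₁
  obtain ⟨z₂, hz₂, hd₂, hm₂⟩ := key ψ₂
  have hne : z₁.support.Nonempty := by
    rw [Finset.nonempty_iff_ne_empty, Ne, Finsupp.support_eq_empty]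
    rintro rfl
    rw [map_zero] at hd₁
    exact one_ne_zero hd₁.symm
  obtain ⟨ξ₀, hξ₀⟩ := hne
  have h0 := hz₁ ξ₀ hξ₀
  have hz : ∀ z : (D →ₐ[ℂ] ℂ) →₀ ℤ, (∀ ξ ∈ z.support, ξ b ≠ 0) → deg z = 1 →
      z.sum (fun ξ a => a • famCyc f j hj n φ ξ) - famCyc f j hj n φ ξ₀ ∈ R := by
    intro z h1 h2
    have h3 : z.sum (fun ξ a => a • famCyc f j hj n φ ξ) - famCyc f j hj n φ ξ₀ =
        z.sum (fun ξ a => a • (famCyc f j hj n φ ξ - famCyc f j hj n φ ξ₀)) := by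
      have h4 : deg z = ∑ y ∈ z.support, z y := by
        conv_lhs => rw [← Finsupp.sum_single z]
        rw [Finsupp.sum, map_sum]
        refine Finset.sum_congr rfl fun y _ => ?_
        rw [deg_single]
      rw [Finsupp.sum, Finsupp.sum]
      simp only [smul_sub]
      rw [Finset.sum_sub_distrib, ← Finset.sum_smul, ← h4, h2, one_smul]
    rw [h3]
    exact R.sum_mem fun ξ hξ => R.zsmul_mem (h ξ ξ₀ (h1 ξ hξ) h0) _
  have h5 := R.add_mem (R.sub_mem hm₁ hm₂) (R.sub_mem (hz z₁ hz₁ hd₁) (hz z₂ hz₂ hd₂))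
  convert h5 using 1
  abel

end

end Vale.Agent.P297.H72
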