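import Vale.Agent.P297.H72.Inv
import Vale.Agent.P297.H572.Z3.Defs

/-!
Data of a double plane with a fibration by plane cubics: definitions.
-/

open IntermediateField Polynomial

namespace Vale.Agent.P297.H72

open Vale.Agent.P297

/-- the big field -/
abbrev Om : Type := AlgebraicClosure (RatFunc ℂ)

/-- data of the fibration by plane cubics: the fibration is `e = Y / H(v, l)`,
`1 - e² = P / Q` -/
structure Fib {N : Type} [Field N] [Algebra ℂ N] (Ψ P Q H : ℂ[X][X]) (v l Y e a b : N)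
    (F : Fin 10 → ℂ[X]) : Prop where
  rel : Q * (H ^ 2 - Ψ) = P * H ^ 2
  hQ : Q ≠ 0
  hH : H ≠ 0
  he : e * ev v l H = Y
  ha : a ∈ IntermediateField.adjoin ℂ ({v, l, Y} : Set N)
  hb : b ∈ IntermediateField.adjoin ℂ ({v, l, Y} : Set N)
  hv : v ∈ IntermediateField.adjoin ℂ ({e, a, b} : Set N)
  hl : l ∈ IntermediateField.adjoin ℂ ({e, a, b} : Set N)
  hF : Z3.tc (fun i => aeval (1 - e ^ 2) (F i)) a b 1 = 0
  hF0 : Z3.c4 F ^ 3 ≠ Z3.c6 F ^ 2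

/-- the fibre `v = α` -/
structure AtFib (Ψ Δ P Q : ℂ[X][X]) (α : ℂ) : Prop where
  quart : ∃ r q : ℂ[X], Squarefree q ∧ (q.natDegree = 3 ∨ q.natDegree = 4) ∧ r ≠ 0 ∧
    Ψ.map (evalRingHom α) = r ^ 2 * q
  nsq : ∀ s : ℂ[X], s ^ 2 ≠ Δ.map (evalRingHom α)
  nsq' : ∀ s : ℂ[X], s ^ 2 ≠ (Ψ * Δ).map (evalRingHom α)
  cop : ∀ x : ℂ, ¬ (ev α x P = 0 ∧ ev α x Q = 0)
  top : ∃ n, 0 < n ∧ P.natDegree ≤ n ∧ Q.natDegree ≤ n ∧
    ¬ ((P.coeff n).eval α = 0 ∧ (Q.coeff n).eval α = 0)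

end Vale.Agent.P297.H72
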