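import Vale.Agent.P297.H72.Quad

/-!
Fractions in the field `ℂ(v, l)(Y, Z)`.
-/

set_option linter.unusedSectionVars false
set_option linter.style.haveILetI false

open CategoryTheory AlgebraicGeometry IntermediateField Polynomial

namespace Vale.Agent.P297.H72

open Vale.Agent.P297

section

variable {N : Type} [Field N] [Algebra ℂ N] {Ψ Δ : ℂ[X][X]} {v l Y Z : N}

theorem ev_self (p : ℂ[X][X]) : ev (C X : ℂ[X][X]) X p = p := by
  have h : ev (C X : ℂ[X][X]) X = AlgHom.id ℂ ℂ[X][X] := by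
    apply ev_hom_ext
    · rw [ev_CX]; rfl
    · rw [ev_X]; rfl
  rw [h]; rfl

theorem range_pair' (v l : N) : Set.range ![v, l] = {v, l} := by
  ext x
  simp only [Set.mem_range, Set.mem_insert_iff, Set.mem_singleton_iff]
  constructor
  · rintro ⟨i, rfl⟩
    fin_cases i
    · exact Or.inl rfl
    · exact Or.inr rfl
  · rintro (rfl | rfl)
    · exact ⟨0, rfl⟩
    · exact ⟨1, rfl⟩

theorem ev_mv (P : MvPolynomial (Fin 2) ℂ) : MvPolynomial.aeval ![v, l] P =
    ev v l (MvPolynomial.aeval ![C X, X] P) := by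
  have h : (ev v l).comp (MvPolynomial.aeval ![C X, X]) = MvPolynomial.aeval ![v, l] := by
    apply MvPolynomial.algHom_ext
    intro i
    rw [AlgHom.comp_apply, MvPolynomial.aeval_X, MvPolynomial.aeval_X]
    fin_cases i
    · exact ev_CX v l
    · exact ev_X v l
  rw [← h]; rfl

theorem ev_injective (hvl : AlgebraicIndependent ℂ ![v, l]) {p : ℂ[X][X]} (hp : ev v l p = 0) :
    p = 0 := by
  have h1 : MvPolynomial.aeval ![v, l] (ev (MvPolynomial.X 0 : MvPolynomial (Fin 2) ℂ)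
      (MvPolynomial.X 1) p) = ev v l p := by
    rw [map_ev, MvPolynomial.aeval_X, MvPolynomial.aeval_X]
    rfl
  rw [hp] at h1
  have h2 := algebraicIndependent_iff.1 hvl _ h1
  have h3 := congrArg (MvPolynomial.aeval ![(C X : ℂ[X][X]), X]) h2
  rw [map_ev, map_zero, MvPolynomial.aeval_X, MvPolynomial.aeval_X] at h3
  exact (ev_self p).symm.trans h3

theorem ev_ne_zero (hvl : AlgebraicIndependent ℂ ![v, l]) {p : ℂ[X][X]} (hp : p ≠ 0) :
    ev v l p ≠ 0 := fun h => hp (ev_injective hvl h)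

theorem frac_mem (hvl : AlgebraicIndependent ℂ ![v, l]) {x : N}
    (hx : x ∈ IntermediateField.adjoin ℂ ({v, l} : Set N)) :
    ∃ p q : ℂ[X][X], q ≠ 0 ∧ ev v l q * x = ev v l p := by
  rw [← range_pair', IntermediateField.mem_adjoin_range_iff] at hx
  obtain ⟨r, s, hrs⟩ := hx
  rw [ev_mv, ev_mv] at hrs
  by_cases hs : MvPolynomial.aeval ![(C X : ℂ[X][X]), X] s = 0
  · refine ⟨0, 1, one_ne_zero, ?_⟩
    rw [hrs, hs]
    simp
  · refine ⟨MvPolynomial.aeval ![(C X : ℂ[X][X]), X] r, _, hs, ?_⟩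
    rw [hrs]
    exact mul_div_cancel₀ _ (ev_ne_zero hvl hs)

theorem quad_mem {F : IntermediateField ℂ N} {Y : N} (hY : Y ^ 2 ∈ F) {T : Set N}
    (hT : ∀ x ∈ T, x ∈ F ∨ x = Y) {x : N} (hx : x ∈ IntermediateField.adjoin ℂ T) :
    ∃ a ∈ F, ∃ b ∈ F, x = a + b * Y := by
  have h1 : IntermediateField.adjoin ℂ T ≤ quadField F Y hY := by
    rw [IntermediateField.adjoin_le_iff]
    intro z hz
    rcases hT z hz with h | h
    · exact ⟨z, h, 0, F.zero_mem, by ring⟩
    · exact ⟨0, F.zero_mem, 1, F.one_mem, by rw [h]; ring⟩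
  exact h1 hx

/-- the hypotheses on the field -/
structure Fld (Ψ Δ : ℂ[X][X]) (v l Y Z : N) : Prop where
  ind : AlgebraicIndependent ℂ ![v, l]
  hY : Y ^ 2 = ev v l Ψ
  hZ : Z ^ 2 = ev v l Δ
  hYF : Y ∉ IntermediateField.adjoin ℂ ({v, l} : Set N)
  hZF : Z ∉ IntermediateField.adjoin ℂ ({v, l, Y} : Set N)
  htop : IntermediateField.adjoin ℂ ({v, l, Y, Z} : Set N) = ⊤

namespace Fld

variable (h : Fld Ψ Δ v l Y Z)

include h

theorem ev_mem (p : ℂ[X][X]) : ev v l p ∈ IntermediateField.adjoin ℂ ({v, l} : Set N) := by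
  have h1 := map_ev (IntermediateField.adjoin ℂ ({v, l} : Set N)).val
    ⟨v, IntermediateField.subset_adjoin _ _ (by simp)⟩
    ⟨l, IntermediateField.subset_adjoin _ _ (by simp)⟩ p
  change _ = ev v l p at h1
  rw [← h1]
  exact Subtype.prop _

theorem le3 : IntermediateField.adjoin ℂ ({v, l} : Set N) ≤
    IntermediateField.adjoin ℂ ({v, l, Y} : Set N) := by
  apply IntermediateField.adjoin.mono
  rintro x (hx | hx)
  · rw [hx]; simp
  · rw [Set.mem_singleton_iff.1 hx]; simp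

theorem Y_mem : Y ∈ IntermediateField.adjoin ℂ ({v, l, Y} : Set N) :=
  IntermediateField.subset_adjoin _ _ (by simp)

theorem ind4 (p : Fin 4 → ℂ[X][X]) (hp : val4 p v l Y Z = 0) : p = 0 := by
  have h1 : (ev v l (p 0) + ev v l (p 1) * Y) + (ev v l (p 2) + ev v l (p 3) * Y) * Z =
      0 + 0 * Z := by
    unfold val4 at hp
    linear_combination hp
  have hm : ∀ a b : ℂ[X][X], ev v l a + ev v l b * Y ∈
      IntermediateField.adjoin ℂ ({v, l, Y} : Set N) := fun a b =>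
    add_mem (h.le3 (h.ev_mem a)) (mul_mem (h.le3 (h.ev_mem b)) h.Y_mem)
  obtain ⟨h2, h3⟩ := quad_unique _ Z h.hZF (hm _ _) (hm _ _) (zero_mem _) (zero_mem _) h1
  have h4 : ∀ a b : ℂ[X][X], ev v l a + ev v l b * Y = 0 → a = 0 ∧ b = 0 := by
    intro a b hab
    have h5 : ev v l a + ev v l b * Y = 0 + 0 * Y := by rw [hab]; ring
    obtain ⟨h6, h7⟩ := quad_unique _ Y h.hYF (h.ev_mem a) (h.ev_mem b) (zero_mem _)
      (zero_mem _) h5
    exact ⟨ev_injective h.ind h6, ev_injective h.ind h7⟩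
  obtain ⟨h5, h6⟩ := h4 _ _ h2
  obtain ⟨h7, h8⟩ := h4 _ _ h3
  funext i
  fin_cases i
  · exact h5
  · exact h6
  · exact h7
  · exact h8

theorem rel {s : ℂ[X][X]} (hs : s ≠ 0) : Rel4 Ψ Δ s v l Y Z :=
  ⟨h.hY, h.hZ, ev_ne_zero h.ind hs⟩

/-- every element is a fraction -/
theorem exists_frac (x : N) : ∃ (q : ℂ[X][X]) (p : Fin 4 → ℂ[X][X]), q ≠ 0 ∧
    ev v l q * x = val4 p v l Y Z := by
  have hx : x ∈ IntermediateField.adjoin ℂ ({v, l, Y, Z} : Set N) := by
    rw [h.htop]; trivial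
  obtain ⟨a, ha, b, hb, rfl⟩ := quad_mem (F := IntermediateField.adjoin ℂ ({v, l, Y} : Set N))
    (Y := Z) (by rw [h.hZ]; exact h.le3 (h.ev_mem _)) (by
      rintro y (hy | hy | hy | hy)
      · rw [hy]; exact Or.inl (IntermediateField.subset_adjoin _ _ (by simp))
      · rw [hy]; exact Or.inl (IntermediateField.subset_adjoin _ _ (by simp))
      · rw [hy]; exact Or.inl (IntermediateField.subset_adjoin _ _ (by simp))
      · rw [Set.mem_singleton_iff.1 hy]; exact Or.inr rfl) hx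
  have key : ∀ a ∈ IntermediateField.adjoin ℂ ({v, l, Y} : Set N), ∃ q p₀ p₁ : ℂ[X][X], q ≠ 0 ∧
      ev v l q * a = ev v l p₀ + ev v l p₁ * Y := by
    intro a ha
    obtain ⟨c, hc, d, hd, rfl⟩ := quad_mem (F := IntermediateField.adjoin ℂ ({v, l} : Set N))
      (Y := Y) (by rw [h.hY]; exact h.ev_mem _) (by
        rintro y (hy | hy | hy)
        · rw [hy]; exact Or.inl (IntermediateField.subset_adjoin _ _ (by simp))
        · rw [hy]; exact Or.inl (IntermediateField.subset_adjoin _ _ (by simp))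
        · rw [Set.mem_singleton_iff.1 hy]; exact Or.inr rfl) ha
    obtain ⟨p, q, hq, hpq⟩ := frac_mem h.ind hc
    obtain ⟨p', q', hq', hpq'⟩ := frac_mem h.ind hd
    refine ⟨q * q', q' * p, q * p', mul_ne_zero hq hq', ?_⟩
    simp only [map_mul]
    linear_combination ev v l q' * hpq + ev v l q * Y * hpq'
  obtain ⟨q, p₀, p₁, hq, h1⟩ := key a ha
  obtain ⟨q', p₂, p₃, hq', h2⟩ := key b hb
  refine ⟨q * q', ![q' * p₀, q' * p₁, q * p₂, q * p₃], mul_ne_zero hq hq', ?_⟩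
  unfold val4
  simp only [Matrix.cons_val, map_mul]
  linear_combination ev v l q' * h1 + ev v l q * Z * h2

theorem mem_of_frac {q : ℂ[X][X]} (hq : q ≠ 0) {p : Fin 4 → ℂ[X][X]} {x : N}
    (hx : ev v l q * x = val4 p v l Y Z) : x ∈ Bs q v l Y Z := by
  have h1 : x = (ev v l q)⁻¹ * val4 p v l Y Z := by
    rw [← hx, inv_mul_cancel_left₀ (ev_ne_zero h.ind hq)]
  rw [h1]
  exact mul_mem (mem_inv q) (mem_val4 q p)

/-- finitely many elements lie in one of the rings -/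
theorem exists_mem_Bs (T : Finset N) : ∃ s : ℂ[X][X], s ≠ 0 ∧
    ∀ t : ℂ[X][X], s ∣ t → t ≠ 0 → ∀ x ∈ T, x ∈ Bs t v l Y Z := by
  classical
  induction T using Finset.induction_on with
  | empty => exact ⟨1, one_ne_zero, fun t _ _ x hx => absurd hx (by simp)⟩
  | insert a T _ ih =>
    obtain ⟨s, hs, hT⟩ := ih
    obtain ⟨q, p, hq, hp⟩ := h.exists_frac a
    refine ⟨s * q, mul_ne_zero hs hq, fun t ht ht0 x hx => ?_⟩
    rw [Finset.mem_insert] at hx
    rcases hx with rfl | hx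
    · exact Bs_mono (Dvd.dvd.trans (Dvd.intro_left s rfl) ht) (ev_ne_zero h.ind ht0)
        (h.mem_of_frac hq hp)
    · exact hT t (Dvd.dvd.trans (Dvd.intro q rfl) ht) ht0 x hx

end Fld

end

end Vale.Agent.P297.H72
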