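import Vale.Agent.P297.H72.Third

/-!
Morphisms from spectra of subrings of a field to a proper scheme.
-/

set_option linter.unusedSectionVars false
set_option linter.style.haveILetI false

open CategoryTheory AlgebraicGeometry IntermediateField Polynomial

namespace Vale.Agent.P297.H72

open Vale.Agent.P297

section

variable {S : Scheme.{0}} (f : S ⟶ Spec (.of ℂ))

/-- the structure morphism of a `ℂ`-algebra -/
noncomputable abbrev str (B : Type) [CommRing B] [Algebra ℂ B] :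
    Spec (.of B) ⟶ Spec (.of ℂ) := Spec.map (CommRingCat.ofHom (algebraMap ℂ B))

/-- the morphism of spectra of a homomorphism of `ℂ`-algebras -/
noncomputable abbrev sp {B B' : Type} [CommRing B] [Algebra ℂ B] [CommRing B'] [Algebra ℂ B']
    (m : B →ₐ[ℂ] B') : Spec (.of B') ⟶ Spec (.of B) :=
  Spec.map (CommRingCat.ofHom m.toRingHom)

theorem sp_str {B B' : Type} [CommRing B] [Algebra ℂ B] [CommRing B'] [Algebra ℂ B']
    (m : B →ₐ[ℂ] B') : sp m ≫ str B = str B' := by
  rw [← Spec.map_comp, ← CommRingCat.ofHom_comp]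
  congr 2
  exact RingHom.ext fun a => m.commutes a

theorem sp_comp {B B' B'' : Type} [CommRing B] [Algebra ℂ B] [CommRing B'] [Algebra ℂ B']
    [CommRing B''] [Algebra ℂ B''] (m : B →ₐ[ℂ] B') (m' : B' →ₐ[ℂ] B'') :
    sp m' ≫ sp m = sp (m'.comp m) := by
  rw [← Spec.map_comp, ← CommRingCat.ofHom_comp]
  rfl

theorem sp_over {B B' : Type} [CommRing B] [Algebra ℂ B] [CommRing B'] [Algebra ℂ B']
    (m : B →ₐ[ℂ] B') {g : Spec (.of B) ⟶ S} (hg : g ≫ f = str B) : (sp m ≫ g) ≫ f = str B' := by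
  rw [Category.assoc, hg, sp_str]

/-- Morphisms to a separated scheme are determined by their restriction to the generic point. -/
theorem mor_unique [IsProper f] {B N : Type} [CommRing B] [Algebra ℂ B] [Field N] [Algebra ℂ N]
    (m : B →ₐ[ℂ] N) (hm : Function.Injective m) {g g' : Spec (.of B) ⟶ S}
    (hg : g ≫ f = str B) (hg' : g' ≫ f = str B) (h : sp m ≫ g = sp m ≫ g') : g = g' := by
  haveI : IsDomain B := hm.isDomain m.toRingHom
  haveI : IsDominant (sp m) := by
    constructor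
    have h1 : DenseRange (PrimeSpectrum.comap m.toRingHom) := by
      rw [PrimeSpectrum.denseRange_comap_iff_ker_le_nilRadical]
      have h2 : RingHom.ker m.toRingHom = ⊥ := (RingHom.injective_iff_ker_eq_bot _).1 hm
      rw [h2]
      exact bot_le
    exact h1
  haveI : IsReduced (Spec (.of B)) := inferInstance
  exact ext_of_isDominant_of_isSeparated f (by rw [hg, hg']) (sp m) h

/-- A chart around the centre of a valuation ring. -/
theorem exists_chart_at [IsProper f] {N : Type} [Field N] [Algebra ℂ N]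
    (γ : Spec (.of N) ⟶ S) (hγ : γ ≫ f = str N) (V : ValuationSubring N)
    (hk : ∀ a : ℂ, algebraMap ℂ N a ∈ V) :
    ∃ (C' : Type) (_ : CommRing C') (_ : Algebra ℂ C') (_ : Algebra.FiniteType ℂ C')
      (j' : Spec (.of C') ⟶ S) (_ : j' ≫ f = str C') (κ : C' →ₐ[ℂ] N),
      (∀ c, κ c ∈ V) ∧ sp κ ≫ j' = γ := by
  have hv : ValuativeCriterion f := by
    have h : IsProper f := inferInstance
    rw [IsProper.eq_valuativeCriterion] at h
    exact h.1.1.1
  let cV : ℂ →+* V := (algebraMap ℂ N).codRestrict V.toSubring hk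
  let sq : ValuativeCommSq f :=
    { R := V
      K := N
      i₁ := γ
      i₂ := Spec.map (CommRingCat.ofHom cV)
      commSq := ⟨by
        rw [hγ, ← Spec.map_comp, ← CommRingCat.ofHom_comp]
        rfl⟩ }
  obtain ⟨⟨⟨g, hg1, hg2⟩⟩, _⟩ := hv sq
  change Spec (.of V) ⟶ S at g
  change Spec.map (CommRingCat.ofHom (algebraMap V N)) ≫ g = γ at hg1
  obtain ⟨U, hU, hxU, -⟩ := exists_isAffineOpen_mem_and_subset (X := S)
    (x := g (IsLocalRing.closedPoint V)) (U := ⊤) trivial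
  have hrange : Set.range g ⊆ Set.range hU.fromSpec := by
    rw [hU.range_fromSpec]
    rintro _ ⟨y, rfl⟩
    exact ((IsLocalRing.specializes_closedPoint y).map g.continuous).mem_open U.2 hxU
  let q : Spec (.of V) ⟶ Spec Γ(S, U) := IsOpenImmersion.lift hU.fromSpec g hrange
  have hq : q ≫ hU.fromSpec = g := IsOpenImmersion.lift_fac _ _ _
  let φ : Γ(S, U) →+* V := (Spec.preimage q).hom
  have hφ : Spec.map (CommRingCat.ofHom φ) = q := Spec.map_preimage q
  letI := chartAlg f hU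
  have hj := chart_hj f hU
  have h1 : Spec.map (CommRingCat.ofHom ((algebraMap V N).comp φ)) ≫ hU.fromSpec = γ := by
    rw [CommRingCat.ofHom_comp, Spec.map_comp, hφ, Category.assoc, hq, hg1]
  have hcomm : ∀ a : ℂ, (algebraMap V N).comp φ (algebraMap ℂ Γ(S, U) a) = algebraMap ℂ N a := by
    have h2 : Spec.map (CommRingCat.ofHom
        (((algebraMap V N).comp φ).comp (algebraMap ℂ Γ(S, U)))) = str N := by
      rw [CommRingCat.ofHom_comp, Spec.map_comp, ← hj, ← Category.assoc]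
      change (Spec.map (CommRingCat.ofHom ((algebraMap V N).comp φ)) ≫ hU.fromSpec) ≫ f = _
      rw [h1, hγ]
    have h3 := congrArg CommRingCat.Hom.hom (Spec.map_injective h2)
    exact fun a => DFunLike.congr_fun h3 a
  refine ⟨Γ(S, U), inferInstance, inferInstance, chart_finiteType f hU, hU.fromSpec, hj,
    { (algebraMap V N).comp φ with commutes' := hcomm }, fun c => (φ c).2, h1⟩

/-- the centre of a place that dominates a point -/
theorem center_eq [IsProper f] {E : Type} [Field E] [Algebra ℂ E] [IsFF ℂ E] {B : Type}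
    [CommRing B] [Algebra ℂ B] {g : Spec (.of B) ⟶ S} (hg : g ≫ f = str B) (ρ : B →ₐ[ℂ] E)
    (χ : B →ₐ[ℂ] ℂ) (w : PlaceOver ℂ E) (hw : ∀ b, ρ b ∈ w.1.ring)
    (hχ : ∀ b, evalAt w ⟨ρ b, hw b⟩ = χ b) :
    centerMap f (sp ρ ≫ g) (sp_over f ρ hg) w = pt f g hg χ :=
  centerMap_eq_cpt f _ _ w g ρ.toRingHom rfl hw χ.toRingHom hχ (pt_aux f g hg χ)

theorem pt_comp [IsProper f] {B C : Type} [CommRing B] [Algebra ℂ B] [CommRing C] [Algebra ℂ C]
    {j : Spec (.of C) ⟶ S} (hj : j ≫ f = str C) (ι : C →ₐ[ℂ] B) (χ : B →ₐ[ℂ] ℂ) :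
    pt f (sp ι ≫ j) (sp_over f ι hj) χ = pt f j hj (χ.comp ι) := by
  apply Subtype.ext
  unfold pt
  rw [cpt_coe, cpt_coe]
  change (sp χ ≫ sp ι ≫ j) _ = (sp (χ.comp ι) ≫ j) _
  rw [← Category.assoc, sp_comp]

/-- The class of the sum of two centres. -/
theorem exists_class [IsProper f] (R : AddSubgroup (ZeroCycle S)) (hR : Rat f ≤ R)
    (hR3 : ∀ u v : closedPoints S,
      (3 : ℤ) • (Finsupp.single u (1 : ℤ) - Finsupp.single v 1) ∈ R)
    {E : Type} [Field E] [Algebra ℂ E] [IsFF ℂ E] (γ₁ γ₂ : Spec (.of E) ⟶ S)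
    (h₁ : γ₁ ≫ f = str E) (h₂ : γ₂ ≫ f = str E) :
    ∃ A : (PlaceOver ℂ E →₀ ℤ) →+ (ZeroCycle S ⧸ R), (∀ F : E, A (div ℂ F) = 0) ∧
      (∀ w w' : PlaceOver ℂ E, (3 : ℤ) • A (Finsupp.single w 1) =
        (3 : ℤ) • A (Finsupp.single w' 1)) ∧
      ∀ w : PlaceOver ℂ E, A (Finsupp.single w 1) = QuotientAddGroup.mk' R
        (Finsupp.single (centerMap f γ₁ h₁ w) 1 + Finsupp.single (centerMap f γ₂ h₂ w) 1) := by
  classical
  let A : (PlaceOver ℂ E →₀ ℤ) →+ (ZeroCycle S ⧸ R) :=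
    (QuotientAddGroup.mk' R).comp (Finsupp.mapDomain.addMonoidHom (centerMap f γ₁ h₁) +
      Finsupp.mapDomain.addMonoidHom (centerMap f γ₂ h₂))
  have hA : ∀ z, A z = QuotientAddGroup.mk' R (Finsupp.mapDomain (centerMap f γ₁ h₁) z +
      Finsupp.mapDomain (centerMap f γ₂ h₂) z) := fun z => rfl
  have hAs : ∀ w : PlaceOver ℂ E, A (Finsupp.single w 1) = QuotientAddGroup.mk' R
      (Finsupp.single (centerMap f γ₁ h₁ w) 1 + Finsupp.single (centerMap f γ₂ h₂ w) 1) := by
    intro w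
    rw [hA, Finsupp.mapDomain_single, Finsupp.mapDomain_single]
  refine ⟨A, ?_, ?_, hAs⟩
  · intro F
    rw [hA]
    refine (QuotientAddGroup.eq_zero_iff _).2 (R.add_mem (hR ?_) (hR ?_))
    · exact pushDiv_mem_Rat f γ₁ h₁ F
    · exact pushDiv_mem_Rat f γ₂ h₂ F
  · intro w w'
    rw [hAs, hAs, ← map_zsmul, ← map_zsmul, QuotientAddGroup.mk'_apply,
      QuotientAddGroup.mk'_apply, QuotientAddGroup.eq_iff_sub_mem]
    have h3 : (3 : ℤ) • (Finsupp.single (centerMap f γ₁ h₁ w) (1 : ℤ) +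
          Finsupp.single (centerMap f γ₂ h₂ w) 1) -
        (3 : ℤ) • (Finsupp.single (centerMap f γ₁ h₁ w') (1 : ℤ) +
          Finsupp.single (centerMap f γ₂ h₂ w') 1) =
        (3 : ℤ) • (Finsupp.single (centerMap f γ₁ h₁ w) (1 : ℤ) -
          Finsupp.single (centerMap f γ₁ h₁ w') 1) +
        (3 : ℤ) • (Finsupp.single (centerMap f γ₂ h₂ w) (1 : ℤ) -
          Finsupp.single (centerMap f γ₂ h₂ w') 1) := by
      simp only [smul_add, smul_sub]
      abel
    rw [h3]
    exact R.add_mem (hR3 _ _) (hR3 _ _)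

end

end Vale.Agent.P297.H72
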