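import Vale.Agent.P297.H72.OctC

/-!
At least three points of the octic of a web of quadrics over a general point of the Steiner
surface.
-/

set_option linter.unusedSectionVars false
set_option linter.style.haveILetI false
set_option linter.unusedSimpArgs false

open CategoryTheory AlgebraicGeometry IntermediateField Polynomial

namespace Vale.Agent.P297.C8

open Vale.Agent.P297 Vale.Agent.P297.H729 Vale.Agent.P297.H516 Vale.Agent.P297.H839
open Vale.Agent.P297.H72 Vale.Agent.P297.H777

variable {N : Type} [Field N] [Algebra ℂ N] {Q : Web}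

theorem GenW.unram (hQ : ∀ i, (Q i).IsSymm) (hfin : NoBase Q) (hirr : Irreducible (octic Q))
    {o : Fin 4 → N} (ho : GenW Q o) : Unram Q o := fun o' h =>
  (ho.of_qq hfin hirr one_ne_zero (by rw [h, one_smul])).jac_ne hQ hfin hirr

/-- The fibre of the quadratic map through a generic point of the octic has at least three points
up to sign. -/
theorem oct [IsAlgClosed N] (hQ : ∀ i, (Q i).IsSymm) (hfin : NoBase Q)
    (hirr : Irreducible (octic Q)) (hsp : ∃ a : Fin 4 → ℂ, Three Q a) {o : Fin 4 → N}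
    (ho : GenW Q o) :
    ∃ o' o'' : Fin 4 → N, GenW Q o' ∧ GenW Q o'' ∧ qq Q o' = qq Q o ∧ qq Q o'' = qq Q o ∧
      o' ≠ o ∧ o' ≠ -o ∧ o'' ≠ o ∧ o'' ≠ -o ∧ o'' ≠ o' ∧ o'' ≠ -o' := by
  obtain ⟨a, b, ha, hb, h⟩ := three_of_generic hQ hfin
    (fun M _ _ _ z hz => three_generic hfin hsp hz) (ho.unram hQ hfin hirr)
  exact ⟨a, b, ho.of_qq hfin hirr one_ne_zero (by rw [ha, one_smul]),
    ho.of_qq hfin hirr one_ne_zero (by rw [hb, one_smul]), ha, hb, h⟩

end Vale.Agent.P297.C8
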