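import Vale.Agent.P297.H72.OctB
import Mathlib.FieldTheory.Separable

/-!
The fibre of the quadratic map through a generic point.
-/

set_option linter.unusedSectionVars false
set_option linter.style.haveILetI false
set_option linter.unusedSimpArgs false

open CategoryTheory AlgebraicGeometry IntermediateField Polynomial

namespace Vale.Agent.P297.C8

open Vale.Agent.P297 Vale.Agent.P297.H729 Vale.Agent.P297.H516 Vale.Agent.P297.H839
open Vale.Agent.P297.H72 Vale.Agent.P297.H777

/-- The degree of an integral element over an integrally closed domain is at most the number of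
its conjugates. -/
theorem natDegree_minpoly_le {R K L : Type} [CommRing R] [IsDomain R] [IsIntegrallyClosed R]
    [Field K] [Field L] [IsAlgClosed L] [CharZero L] [Algebra R K] [IsFractionRing R K]
    [Algebra R L] [Algebra K L] [IsScalarTower R K L] {ι : Type} (x : ι → L)
    (hx : ∀ j, IsIntegral R (x j)) (θ : L) (hi : IsIntegral R θ)
    (hθ : θ ∈ IntermediateField.adjoin K (Set.range x)) (Z : Finset L)
    (hZ : ∀ φ : IntermediateField.adjoin K (Set.range x) →ₐ[K] L, φ ⟨θ, hθ⟩ ∈ Z) :
    (minpoly R θ).natDegree ≤ Z.card := by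
  classical
  have h1 : minpoly K θ = (minpoly R θ).map (algebraMap R K) :=
    minpoly.isIntegrallyClosed_eq_field_fractions' K hi
  have h2 : (minpoly R θ).natDegree = (minpoly K θ).natDegree := by
    rw [h1, (minpoly.monic hi).natDegree_map]
  have hik : ∀ y : L, IsIntegral R y → IsIntegral K y := fun y hy => hy.tower_top
  haveI : CharZero K := (algebraMap K L).charZero
  have hsep : (minpoly K θ).Separable := (minpoly.irreducible (hik θ hi)).separable
  rw [h2, ← Polynomial.card_rootSet_eq_natDegree (K := L) hsep (IsAlgClosed.splits _),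
    ← Set.toFinset_card]
  refine Finset.card_le_card fun y hy => ?_
  rw [Set.mem_toFinset, Polynomial.mem_rootSet] at hy
  obtain ⟨φ, hφ⟩ := IntermediateField.exists_algHom_adjoin_of_splits_of_aeval (F := K) (E := L)
    (K := L) (S := Set.range x) (by
      rintro _ ⟨j, rfl⟩
      exact ⟨hik _ (hx j), IsAlgClosed.splits _⟩) hθ hy.2
  rw [← hφ]
  exact hZ φ

/-- The coordinates are integral over the values of the quadrics. -/
theorem integral_coord {Q : Web} (hfin : NoBase Q) {M : Type} [Field M] [Algebra ℂ M]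
    (z : Fin 4 → M) (j : Fin 4) :
    (MvPolynomial.aeval (qq Q z) : MvPolynomial (Fin 4) ℂ →ₐ[ℂ] M).toRingHom.IsIntegralElem
      (z j) := by
  let Φ : MvPolynomial (Fin 4) ℂ →ₐ[ℂ] M := MvPolynomial.aeval (qq Q z)
  have h1 : z j ∈ (⨅ V : {V : ValuationSubring M // (Set.range Φ) ⊆ V.toSubring},
      V.1.toSubring) := by
    rw [Subring.mem_iInf]
    rintro ⟨V, hV⟩
    refine fin_of_val hfin V (fun a => hV ⟨MvPolynomial.C a, ?_⟩) z (fun i => hV
      ⟨MvPolynomial.X i, ?_⟩) j
    · exact MvPolynomial.aeval_C _ _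
    · exact MvPolynomial.aeval_X _ _
  rw [iInf_valuationSubring_superset] at h1
  have h2 : IsIntegral (Subring.closure (Set.range Φ)) (z j) := h1
  obtain ⟨p, hp, hp0⟩ := h2
  have hcl : ∀ y : Subring.closure (Set.range Φ), ∃ r, Φ r = y := by
    intro y
    have h3 : (y : M) ∈ Φ.toRingHom.range := by
      have h4 : Subring.closure (Set.range Φ) ≤ Φ.toRingHom.range :=
        Subring.closure_le.mpr fun w hw => hw
      exact h4 y.2
    exact h3
  choose r hr using hcl
  -- lift the polynomial
  let Ψ : MvPolynomial (Fin 4) ℂ →+* Subring.closure (Set.range Φ) :=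
    Φ.toRingHom.codRestrict _ (fun w => Subring.subset_closure ⟨w, rfl⟩)
  have hΨ : Function.Surjective Ψ := fun y => ⟨r y, Subtype.ext (hr y)⟩
  have hl : p ∈ Polynomial.lifts Ψ := by
    rw [Polynomial.lifts_iff_coeff_lifts]
    exact fun n => hΨ _
  obtain ⟨q, hq, _, hqm⟩ := Polynomial.lifts_and_natDegree_eq_and_monic hl hp
  refine ⟨q, hqm, ?_⟩
  rw [← hq, Polynomial.eval₂_map] at hp0
  exact hp0

/-- The coordinate ring is integral over the polynomials in the quadrics. -/
theorem integral_X {Q : Web} (hfin : NoBase Q) (j : Fin 4) :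
    (MvPolynomial.aeval (qq Q (MvPolynomial.X : Fin 4 → MvPolynomial (Fin 4) ℂ)) :
      MvPolynomial (Fin 4) ℂ →ₐ[ℂ] MvPolynomial (Fin 4) ℂ).toRingHom.IsIntegralElem
      (MvPolynomial.X j) := by
  let S := MvPolynomial (Fin 4) ℂ
  let M := FractionRing S
  obtain ⟨p, hp, hp0⟩ := integral_coord hfin (fun i => algebraMap S M (MvPolynomial.X i)) j
  refine ⟨p, hp, ?_⟩
  apply IsFractionRing.injective S M
  rw [map_zero, ← hp0, Polynomial.hom_eval₂]
  congr 1
  refine MvPolynomial.ringHom_ext (fun a => ?_) (fun i => ?_)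
  · change algebraMap S M (MvPolynomial.aeval _ (MvPolynomial.C a)) =
      MvPolynomial.aeval _ (MvPolynomial.C a)
    rw [MvPolynomial.aeval_C, MvPolynomial.aeval_C]
    exact (IsScalarTower.algebraMap_apply ℂ S M a).symm
  · change algebraMap S M (MvPolynomial.aeval _ (MvPolynomial.X i)) =
      MvPolynomial.aeval _ (MvPolynomial.X i)
    rw [MvPolynomial.aeval_X, MvPolynomial.aeval_X]
    exact map_qq Q (IsScalarTower.toAlgHom ℂ S M) _ i

/-- The quadrics are algebraically independent. -/
theorem indep_qq_X {Q : Web} (hfin : NoBase Q) :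
    AlgebraicIndependent ℂ (qq Q (MvPolynomial.X : Fin 4 → MvPolynomial (Fin 4) ℂ)) := by
  let S := MvPolynomial (Fin 4) ℂ
  let y : Fin 4 → S := qq Q MvPolynomial.X
  let A : Subalgebra ℂ S := Algebra.adjoin ℂ (Set.range y)
  have hy : ∀ r : MvPolynomial (Fin 4) ℂ, MvPolynomial.aeval y r ∈ A := by
    intro r
    have h1 : MvPolynomial.aeval y r ∈ (MvPolynomial.aeval y : _ →ₐ[ℂ] S).range := ⟨r, rfl⟩
    rwa [← Algebra.adjoin_range_eq_range_aeval] at h1
  have hint : ∀ f : S, IsIntegral A f := by
    intro f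
    let B : Subalgebra A S := integralClosure A S
    let B' : Subalgebra ℂ S := B.restrictScalars ℂ
    have h2 : (⊤ : Subalgebra ℂ S) ≤ B' := by
      rw [← MvPolynomial.adjoin_range_X, Algebra.adjoin_le_iff]
      rintro _ ⟨j, rfl⟩
      change IsIntegral A _
      obtain ⟨p, hp, hp0⟩ := integral_X hfin j
      let g : MvPolynomial (Fin 4) ℂ →+* A :=
        (MvPolynomial.aeval y : _ →ₐ[ℂ] S).toRingHom.codRestrict A hy
      refine ⟨p.map g, hp.map g, ?_⟩
      rw [Polynomial.eval₂_map]
      exact hp0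
    exact h2 (Algebra.mem_top : f ∈ ⊤)
  haveI : Algebra.IsAlgebraic A S := by
    constructor
    intro f
    exact (hint f).isAlgebraic
  have h3 : IsTranscendenceBasis ℂ y := by
    refine Algebra.IsAlgebraic.isTranscendenceBasis_of_le_trdeg_of_finite ℂ y ?_
    rw [MvPolynomial.trdeg_of_isDomain]
    simp
  exact h3.1

theorem indep_qq {Q : Web} (hfin : NoBase Q) {M : Type} [Field M] [Algebra ℂ M]
    {z : Fin 4 → M} (hz : AlgebraicIndependent ℂ z) : AlgebraicIndependent ℂ (qq Q z) := by
  have h1 := (indep_qq_X hfin).map' (f := (MvPolynomial.aeval z : _ →ₐ[ℂ] M)) hz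
  have h2 : (MvPolynomial.aeval z : MvPolynomial (Fin 4) ℂ →ₐ[ℂ] M) ∘
      (qq Q (MvPolynomial.X : Fin 4 → MvPolynomial (Fin 4) ℂ)) = qq Q z := by
    funext i
    exact aeval_qq_X Q z i
  rwa [h2] at h1

theorem exists_sep {n : ℕ} (v : Fin n → (Fin 4 → ℂ)) (hv : ∀ i, v i ≠ 0) :
    ∃ c : Fin 4 → ℂ, ∀ i, ∑ j, c j * v i j ≠ 0 := by
  classical
  let F : MvPolynomial (Fin 4) ℂ :=
    ∏ i, ∑ j, MvPolynomial.X j * MvPolynomial.C (v i j)
  have hF : F ≠ 0 := by
    refine Finset.prod_ne_zero_iff.mpr fun i _ => ?_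
    obtain ⟨k, hk⟩ := Function.ne_iff.mp (hv i)
    intro h0
    apply hk
    have h1 := congrArg (MvPolynomial.eval (Pi.single k (1 : ℂ))) h0
    rw [map_sum, map_zero] at h1
    simp only [map_mul, MvPolynomial.eval_X, MvPolynomial.eval_C, Pi.single_apply, ite_mul,
      one_mul, zero_mul, Finset.sum_ite_eq', Finset.mem_univ, if_true] at h1
    exact h1
  obtain ⟨c, hc⟩ : ∃ c, MvPolynomial.eval c F ≠ 0 := by
    by_contra h
    push Not at h
    exact hF (MvPolynomial.funext fun c => by rw [h c, map_zero])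
  refine ⟨c, fun i hi => hc ?_⟩
  rw [map_prod]
  refine Finset.prod_eq_zero (Finset.mem_univ i) ?_
  rw [map_sum]
  simpa using hi

/-- The square of a linear form. -/
noncomputable def octLin {M : Type} [CommRing M] [Algebra ℂ M] (c : Fin 4 → ℂ) (w : Fin 4 → M) : M :=
  (∑ j, algebraMap ℂ M (c j) * w j) ^ 2

theorem octLin_neg {M : Type} [CommRing M] [Algebra ℂ M] (c : Fin 4 → ℂ) (w : Fin 4 → M) :
    octLin c (-w) = octLin c w := by
  simp only [octLin, Pi.neg_apply, mul_neg, Finset.sum_neg_distrib, neg_sq]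

theorem map_octLin {M M' : Type} [CommRing M] [Algebra ℂ M] [CommRing M'] [Algebra ℂ M']
    (g : M →ₐ[ℂ] M') (c : Fin 4 → ℂ) (w : Fin 4 → M) :
    g (octLin c w) = octLin c (fun j => g (w j)) := by
  simp only [octLin, map_pow, map_sum, map_mul, AlgHom.commutes]

theorem octLin_ne {a b : Fin 4 → ℂ} {c : Fin 4 → ℂ} (h1 : ∑ j, c j * (b - a) j ≠ 0)
    (h2 : ∑ j, c j * (b + a) j ≠ 0) : octLin c b ≠ octLin c a := by
  intro h
  apply mul_ne_zero h1 h2
  simp only [octLin, Algebra.algebraMap_self, RingHom.id_apply] at h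
  simp only [Pi.sub_apply, Pi.add_apply, mul_sub, mul_add, Finset.sum_sub_distrib,
    Finset.sum_add_distrib]
  linear_combination h

/-- The fibre of the quadratic map through a generic point has at least three points up to sign,
if some fibre has. -/
theorem three_generic {Q : Web} (hfin : NoBase Q) (hsp : ∃ a : Fin 4 → ℂ, Three Q a)
    {M : Type} [Field M] [IsAlgClosed M] [Algebra ℂ M] {z : Fin 4 → M}
    (hz : AlgebraicIndependent ℂ z) : Three Q z := by
  classical
  obtain ⟨a, b, d, hab, had, h1, h2, h3, h4, h5, h6⟩ := hsp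
  obtain ⟨c, hc⟩ := exists_sep ![b - a, b + a, d - a, d + a, d - b, d + b] (by
    intro i
    fin_cases i
    · exact sub_ne_zero.mpr h1
    · exact fun h => h2 (eq_neg_of_add_eq_zero_left h)
    · exact sub_ne_zero.mpr h3
    · exact fun h => h4 (eq_neg_of_add_eq_zero_left h)
    · exact sub_ne_zero.mpr h5
    · exact fun h => h6 (eq_neg_of_add_eq_zero_left h))
  have hlab : octLin c b ≠ octLin c a := octLin_ne (hc 0) (hc 1)
  have hlad : octLin c d ≠ octLin c a := octLin_ne (hc 2) (hc 3)
  have hlbd : octLin c d ≠ octLin c b := octLin_ne (hc 4) (hc 5)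
  by_contra hT
  obtain ⟨z', hz'⟩ : ∃ z', ∀ w, qq Q w = qq Q z → w = z ∨ w = -z ∨ w = z' ∨ w = -z' := by
    by_cases h : ∃ w, qq Q w = qq Q z ∧ w ≠ z ∧ w ≠ -z
    · obtain ⟨w, hw, hw1, hw2⟩ := h
      refine ⟨w, fun u hu => ?_⟩
      by_contra hu'
      push Not at hu'
      exact hT ⟨w, u, hw, hu, hw1, hw2, hu'.1, hu'.2.1, hu'.2.2.1, hu'.2.2.2⟩
    · push Not at h
      refine ⟨z, fun u hu => ?_⟩
      by_cases hu1 : u = z
      · exact Or.inl hu1
      · exact Or.inr (Or.inl (h u hu hu1))
  let R := MvPolynomial (Fin 4) ℂ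
  letI : Algebra R M := (MvPolynomial.aeval (qq Q z) : R →ₐ[ℂ] M).toRingHom.toAlgebra
  have hRM : ∀ r : R, algebraMap R M r = MvPolynomial.aeval (qq Q z) r := fun _ => rfl
  have hinj : Function.Injective (algebraMap R M) := indep_qq hfin hz
  haveI : FaithfulSMul R M := (faithfulSMul_iff_algebraMap_injective R M).mpr hinj
  let K := FractionRing R
  letI : Algebra K M := FractionRing.liftAlgebra R M
  haveI : IsScalarTower R K M := FractionRing.isScalarTower_liftAlgebra R M
  haveI : CharZero M := charZero_of_injective_algebraMap (algebraMap ℂ M).injective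
  let κ : ℂ →+* K := (algebraMap R K).comp MvPolynomial.C
  have hκ : ∀ t : ℂ, algebraMap K M (κ t) = algebraMap ℂ M t := by
    intro t
    change algebraMap K M (algebraMap R K (MvPolynomial.C t)) = _
    rw [← IsScalarTower.algebraMap_apply R K M, hRM, MvPolynomial.aeval_C]
  let E := IntermediateField.adjoin K (Set.range z)
  let zE : Fin 4 → E := fun j => ⟨z j, IntermediateField.subset_adjoin _ _ ⟨j, rfl⟩⟩
  have hθE : ((∑ j, algebraMap K E (κ (c j)) * zE j) ^ 2 : E) = (octLin c z : M) := by
    rw [octLin]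
    push_cast
    congr 1
    refine Finset.sum_congr rfl fun j _ => ?_
    congr 1
    exact hκ _
  have hθ : octLin c z ∈ IntermediateField.adjoin K (Set.range z) := by
    rw [← hθE]
    exact ((∑ j, algebraMap K E (κ (c j)) * zE j) ^ 2 : E).2
  have hint : ∀ j, IsIntegral R (z j) := fun j => integral_coord hfin z j
  have hiθ : IsIntegral R (octLin c z) := by
    refine IsIntegral.pow (IsIntegral.sum _ fun j _ => IsIntegral.mul ?_ (hint j)) 2
    rw [← hκ]
    change IsIntegral R (algebraMap K M (algebraMap R K (MvPolynomial.C (c j))))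
    rw [← IsScalarTower.algebraMap_apply R K M]
    exact isIntegral_algebraMap
  have hdeg := natDegree_minpoly_le (R := R) (K := K) z hint (octLin c z) hiθ hθ
    {octLin c z, octLin c z'} (by
      intro φ
      have hφ : ∀ k : K, φ (algebraMap K E k) = algebraMap K M k := fun k => φ.commutes k
      have hw : qq Q (fun j => φ (zE j)) = qq Q z := by
        funext i
        let s : E := ∑ a, ∑ b, algebraMap K E (κ (Q i a b)) * (zE a * zE b)
        have hs1 : s = algebraMap K E (algebraMap R K (MvPolynomial.X i)) := by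
          apply Subtype.ext
          have e1 : (s : M) = qq Q z i := by
            rw [qq_apply]
            change ((∑ a, ∑ b, algebraMap K E (κ (Q i a b)) * (zE a * zE b) : E) : M) = _
            push_cast
            refine Finset.sum_congr rfl fun a _ => Finset.sum_congr rfl fun b _ => ?_
            congr 1
            exact hκ _
          rw [e1]
          change _ = algebraMap K M (algebraMap R K (MvPolynomial.X i))
          rw [← IsScalarTower.algebraMap_apply R K M, hRM, MvPolynomial.aeval_X]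
        have hs2 : φ s = qq Q (fun j => φ (zE j)) i := by
          rw [qq_apply]
          change φ (∑ a, ∑ b, algebraMap K E (κ (Q i a b)) * (zE a * zE b)) = _
          simp only [map_sum, map_mul, hφ, hκ]
        rw [← hs2, hs1, AlgHom.commutes, ← IsScalarTower.algebraMap_apply R K M, hRM,
          MvPolynomial.aeval_X]
      have hv : φ ⟨octLin c z, hθ⟩ = octLin c (fun j => φ (zE j)) := by
        have e1 : (⟨octLin c z, hθ⟩ : E) = (∑ j, algebraMap K E (κ (c j)) * zE j) ^ 2 :=
          Subtype.ext hθE.symm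
        rw [e1]
        simp only [octLin, map_pow, map_sum, map_mul, hφ, hκ]
      rw [hv, Finset.mem_insert, Finset.mem_singleton]
      rcases hz' _ hw with h | h | h | h
      · left; rw [h]
      · left; rw [h, octLin_neg]
      · right; rw [h]
      · right; rw [h, octLin_neg])
  have hdeg2 : (minpoly R (octLin c z)).natDegree ≤ 2 := hdeg.trans Finset.card_le_two
  have hmon := minpoly.monic hiθ
  have hP0 := minpoly.aeval R (octLin c z)
  generalize minpoly R (octLin c z) = P at hdeg2 hmon hP0
  let Ψ : R →ₐ[ℂ] MvPolynomial (Fin 4) ℂ :=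
    MvPolynomial.aeval (qq Q (MvPolynomial.X : Fin 4 → MvPolynomial (Fin 4) ℂ))
  have hgen : ∀ {A : Type} [CommRing A] [Algebra ℂ A] (p : Fin 4 → A),
      MvPolynomial.aeval p (P.eval₂ Ψ.toRingHom
        (octLin c (MvPolynomial.X : Fin 4 → MvPolynomial (Fin 4) ℂ))) =
      P.eval₂ (MvPolynomial.aeval (qq Q p) : R →ₐ[ℂ] A).toRingHom (octLin c p) := by
    intro A _ _ p
    change (MvPolynomial.aeval p : _ →ₐ[ℂ] A).toRingHom (P.eval₂ Ψ.toRingHom _) = _
    rw [Polynomial.hom_eval₂]
    have e1 : (MvPolynomial.aeval p : MvPolynomial (Fin 4) ℂ →ₐ[ℂ] A).toRingHom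
        (octLin c (MvPolynomial.X : Fin 4 → MvPolynomial (Fin 4) ℂ)) = octLin c p := by
      have e2 := map_octLin (MvPolynomial.aeval p : MvPolynomial (Fin 4) ℂ →ₐ[ℂ] A) c MvPolynomial.X
      simp only [MvPolynomial.aeval_X] at e2
      exact e2
    rw [e1]
    congr 1
    refine MvPolynomial.ringHom_ext (fun t => ?_) (fun i => ?_)
    · change MvPolynomial.aeval p (MvPolynomial.aeval _ (MvPolynomial.C t)) =
        MvPolynomial.aeval _ (MvPolynomial.C t)
      rw [MvPolynomial.aeval_C, MvPolynomial.aeval_C]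
      exact MvPolynomial.aeval_C _ _
    · change MvPolynomial.aeval p (MvPolynomial.aeval _ (MvPolynomial.X i)) =
        MvPolynomial.aeval _ (MvPolynomial.X i)
      rw [MvPolynomial.aeval_X, MvPolynomial.aeval_X]
      exact aeval_qq_X Q p i
  have hF0 : P.eval₂ Ψ.toRingHom
      (octLin c (MvPolynomial.X : Fin 4 → MvPolynomial (Fin 4) ℂ)) = 0 := by
    have e1 := hgen z
    have e2 : P.eval₂ (MvPolynomial.aeval (qq Q z) : R →ₐ[ℂ] M).toRingHom (octLin c z) = 0 := hP0
    rw [e2] at e1
    exact (injective_iff_map_eq_zero _).mp hz _ e1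
  have hroot : ∀ p : Fin 4 → ℂ, qq Q p = qq Q a →
      (P.map (MvPolynomial.aeval (qq Q a) : R →ₐ[ℂ] ℂ).toRingHom).IsRoot (octLin c p) := by
    intro p hp
    have e1 := hgen p
    rw [hF0, map_zero, hp] at e1
    rw [Polynomial.IsRoot, Polynomial.eval_map]
    exact e1.symm
  have hmonic := hmon.map (MvPolynomial.aeval (qq Q a) : R →ₐ[ℂ] ℂ).toRingHom
  have hcard := Polynomial.card_le_degree_of_subset_roots
    (p := P.map (MvPolynomial.aeval (qq Q a) : R →ₐ[ℂ] ℂ).toRingHom)
    (Z := {octLin c a, octLin c b, octLin c d}) (by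
      intro t ht
      rw [Finset.mem_val, Finset.mem_insert, Finset.mem_insert, Finset.mem_singleton] at ht
      rw [Polynomial.mem_roots hmonic.ne_zero]
      rcases ht with rfl | rfl | rfl
      · exact hroot a rfl
      · exact hroot b hab
      · exact hroot d had)
  rw [Finset.card_eq_three.mpr ⟨_, _, _, hlab.symm, hlad.symm, hlbd.symm, rfl⟩,
    hmon.natDegree_map] at hcard
  omega

end Vale.Agent.P297.C8
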