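import Vale.Agent.P297.H72.Mor
import Mathlib.Algebra.Polynomial.Bivariate

/-!
The rings `ℂ[v, l, 1/s, Y, Z]` with `Y² = Ψ(v, l)`, `Z² = Δ(v, l)`.
-/

set_option linter.unusedSectionVars false
set_option linter.style.haveILetI false

open CategoryTheory AlgebraicGeometry IntermediateField Polynomial

namespace Vale.Agent.P297.H72

open Vale.Agent.P297

/-- evaluation of a polynomial in two variables -/
noncomputable def ev {A : Type} [CommRing A] [Algebra ℂ A] (v l : A) : ℂ[X][X] →ₐ[ℂ] A :=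
  Polynomial.aevalAeval v l

section Ev

variable {A : Type} [CommRing A] [Algebra ℂ A]

theorem ev_C (v l : A) (p : ℂ[X]) : ev v l (C p) = aeval v p := by
  unfold ev; exact Polynomial.aevalAeval_C v l p

theorem ev_X (v l : A) : ev v l X = l := by
  unfold ev; exact Polynomial.aevalAeval_Y v l

theorem ev_CX (v l : A) : ev v l (C X) = v := by rw [ev_C, aeval_X]

theorem ev_hom_ext {φ ψ : ℂ[X][X] →ₐ[ℂ] A} (h1 : φ (C X) = ψ (C X)) (h2 : φ X = ψ X) :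
    φ = ψ := by
  have h3 : ∀ p : ℂ[X], φ (C p) = ψ (C p) := by
    intro p
    induction p using Polynomial.induction_on' with
    | add p q hp hq => rw [C_add, map_add, map_add, hp, hq]
    | monomial n a =>
      rw [← C_mul_X_pow_eq_monomial, C_mul, C_pow, map_mul, map_mul, map_pow, map_pow, h1]
      congr 1
      have h4 : (C (C a) : ℂ[X][X]) = algebraMap ℂ _ a := rfl
      rw [h4, AlgHom.commutes, AlgHom.commutes]
  apply AlgHom.ext
  intro p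
  induction p using Polynomial.induction_on' with
  | add p q hp hq => rw [map_add, map_add, hp, hq]
  | monomial n a => rw [← C_mul_X_pow_eq_monomial, map_mul, map_mul, map_pow, map_pow, h2, h3]

theorem map_ev {B : Type} [CommRing B] [Algebra ℂ B] (φ : A →ₐ[ℂ] B) (v l : A) (p : ℂ[X][X]) :
    φ (ev v l p) = ev (φ v) (φ l) p := by
  have h : φ.comp (ev v l) = ev (φ v) (φ l) := by
    apply ev_hom_ext
    · rw [AlgHom.comp_apply, ev_CX, ev_CX]
    · rw [AlgHom.comp_apply, ev_X, ev_X]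
  exact DFunLike.congr_fun h p

end Ev

/-- the relations between the four coordinates -/
structure Rel4 (Ψ Δ s : ℂ[X][X]) {E : Type} [Field E] [Algebra ℂ E] (v l Y Z : E) : Prop where
  hY : Y ^ 2 = ev v l Ψ
  hZ : Z ^ 2 = ev v l Δ
  hs : ev v l s ≠ 0

/-- a combination of `1, Y, Z, Y Z` -/
noncomputable def val4 (p : Fin 4 → ℂ[X][X]) {E : Type} [Field E] [Algebra ℂ E] (v l Y Z : E) : E :=
  ev v l (p 0) + ev v l (p 1) * Y + ev v l (p 2) * Z + ev v l (p 3) * (Y * Z)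

/-- the homomorphism from the polynomial ring in five variables -/
noncomputable def hom5 (s : ℂ[X][X]) {E : Type} [Field E] [Algebra ℂ E] (v l Y Z : E) :
    MvPolynomial (Fin 5) ℂ →ₐ[ℂ] E :=
  MvPolynomial.aeval ![v, l, (ev v l s)⁻¹, Y, Z]

theorem normal_form (Ψ Δ s : ℂ[X][X]) (F : MvPolynomial (Fin 5) ℂ) :
    ∃ (k : ℕ) (p : Fin 4 → ℂ[X][X]), ∀ (E : Type) [Field E] [Algebra ℂ E] (v l Y Z : E),
      Rel4 Ψ Δ s v l Y Z → (ev v l s) ^ k * hom5 s v l Y Z F = val4 p v l Y Z := by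
  induction F using MvPolynomial.induction_on with
  | C a =>
    refine ⟨0, ![C (C a), 0, 0, 0], fun E _ _ v l Y Z _ => ?_⟩
    have h1 : ev v l (C (C a)) = algebraMap ℂ E a := by rw [ev_C, aeval_C]
    simp [hom5, val4, h1]
  | add F G hF hG =>
    obtain ⟨k, p, hp⟩ := hF
    obtain ⟨k', p', hp'⟩ := hG
    refine ⟨k + k', fun i => s ^ k' * p i + s ^ k * p' i, fun E _ _ v l Y Z h => ?_⟩
    have h1 := hp E v l Y Z h
    have h2 := hp' E v l Y Z h
    unfold val4 at h1 h2 ⊢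
    simp only [map_add, map_mul, map_pow]
    linear_combination (ev v l s) ^ k' * h1 + (ev v l s) ^ k * h2
  | mul_X F i hF =>
    obtain ⟨k, p, hp⟩ := hF
    fin_cases i
    · refine ⟨k, fun i => C X * p i, fun E _ _ v l Y Z h => ?_⟩
      have h1 := hp E v l Y Z h
      unfold val4 at h1 ⊢
      have h2 : hom5 s v l Y Z (F * MvPolynomial.X 0) = hom5 s v l Y Z F * v := by
        rw [map_mul]; congr 1; simp [hom5]
      change ev v l s ^ k * hom5 s v l Y Z (F * MvPolynomial.X 0) = _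
      rw [h2]
      simp only [map_mul, ev_CX]
      linear_combination v * h1
    · refine ⟨k, fun i => X * p i, fun E _ _ v l Y Z h => ?_⟩
      have h1 := hp E v l Y Z h
      unfold val4 at h1 ⊢
      have h2 : hom5 s v l Y Z (F * MvPolynomial.X 1) = hom5 s v l Y Z F * l := by
        rw [map_mul]; congr 1; simp [hom5]
      change ev v l s ^ k * hom5 s v l Y Z (F * MvPolynomial.X 1) = _
      rw [h2]
      simp only [map_mul, ev_X]
      linear_combination l * h1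
    · refine ⟨k + 1, p, fun E _ _ v l Y Z h => ?_⟩
      have h1 := hp E v l Y Z h
      have h2 : hom5 s v l Y Z (F * MvPolynomial.X 2) = hom5 s v l Y Z F * (ev v l s)⁻¹ := by
        rw [map_mul]; congr 1; simp [hom5]
      change ev v l s ^ (k + 1) * hom5 s v l Y Z (F * MvPolynomial.X 2) = _
      rw [h2, ← h1, pow_succ]
      field_simp [h.hs]
    · refine ⟨k, ![Ψ * p 1, p 0, Ψ * p 3, p 2], fun E _ _ v l Y Z h => ?_⟩
      have h1 := hp E v l Y Z h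
      unfold val4 at h1 ⊢
      have h2 : hom5 s v l Y Z (F * MvPolynomial.X 3) = hom5 s v l Y Z F * Y := by
        rw [map_mul]; congr 1; simp [hom5]
      change ev v l s ^ k * hom5 s v l Y Z (F * MvPolynomial.X 3) = _
      rw [h2]
      simp only [Matrix.cons_val, map_mul, ← h.hY]
      linear_combination Y * h1
    · refine ⟨k, ![Δ * p 2, Δ * p 3, p 0, p 1], fun E _ _ v l Y Z h => ?_⟩
      have h1 := hp E v l Y Z h
      unfold val4 at h1 ⊢
      have h2 : hom5 s v l Y Z (F * MvPolynomial.X 4) = hom5 s v l Y Z F * Z := by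
        rw [map_mul]; congr 1; simp [hom5]
      change ev v l s ^ k * hom5 s v l Y Z (F * MvPolynomial.X 4) = _
      rw [h2]
      simp only [Matrix.cons_val, map_mul, ← h.hZ]
      linear_combination Z * h1

section

variable {N : Type} [Field N] [Algebra ℂ N]

/-- the ring `ℂ[v, l, 1/s, Y, Z]` -/
noncomputable def Bs (s : ℂ[X][X]) (v l Y Z : N) : Subalgebra ℂ N := (hom5 s v l Y Z).range

/-- the surjection onto `ℂ[v, l, 1/s, Y, Z]` -/
noncomputable def toBs (s : ℂ[X][X]) (v l Y Z : N) :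
    MvPolynomial (Fin 5) ℂ →ₐ[ℂ] Bs s v l Y Z := (hom5 s v l Y Z).rangeRestrict

theorem toBs_surjective (s : ℂ[X][X]) (v l Y Z : N) : Function.Surjective (toBs s v l Y Z) :=
  (hom5 s v l Y Z).rangeRestrict_surjective

theorem toBs_coe (s : ℂ[X][X]) (v l Y Z : N) (F : MvPolynomial (Fin 5) ℂ) :
    (toBs s v l Y Z F : N) = hom5 s v l Y Z F := rfl

theorem Bs_fg (s : ℂ[X][X]) (v l Y Z : N) : (Bs s v l Y Z).FG := by
  have h : Algebra.FiniteType ℂ (hom5 s v l Y Z).range :=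
    Algebra.FiniteType.of_surjective (hom5 s v l Y Z).rangeRestrict
      (hom5 s v l Y Z).rangeRestrict_surjective
  exact (Subalgebra.fg_iff_finiteType _).2 h

variable {Ψ Δ : ℂ[X][X]} {v l Y Z : N}

theorem mem_v (s : ℂ[X][X]) : v ∈ Bs s v l Y Z := ⟨MvPolynomial.X 0, by simp [hom5]⟩

theorem mem_l (s : ℂ[X][X]) : l ∈ Bs s v l Y Z := ⟨MvPolynomial.X 1, by simp [hom5]⟩

theorem mem_inv (s : ℂ[X][X]) : (ev v l s)⁻¹ ∈ Bs s v l Y Z := ⟨MvPolynomial.X 2, by simp [hom5]⟩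

theorem mem_Y (s : ℂ[X][X]) : Y ∈ Bs s v l Y Z := ⟨MvPolynomial.X 3, by simp [hom5]⟩

theorem mem_Z (s : ℂ[X][X]) : Z ∈ Bs s v l Y Z := ⟨MvPolynomial.X 4, by simp [hom5]⟩

theorem mem_ev (s p : ℂ[X][X]) : ev v l p ∈ Bs s v l Y Z := by
  have h := map_ev (Bs s v l Y Z).val ⟨v, mem_v s⟩ ⟨l, mem_l s⟩ p
  change _ = ev v l p at h
  rw [← h]
  exact (ev _ _ p : Bs s v l Y Z).2

theorem mem_val4 (s : ℂ[X][X]) (p : Fin 4 → ℂ[X][X]) : val4 p v l Y Z ∈ Bs s v l Y Z := by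
  unfold val4
  exact add_mem (add_mem (add_mem (mem_ev s _) (mul_mem (mem_ev s _) (mem_Y s)))
    (mul_mem (mem_ev s _) (mem_Z s))) (mul_mem (mem_ev s _) (mul_mem (mem_Y s) (mem_Z s)))

theorem Bs_le {s : ℂ[X][X]} {B : Subalgebra ℂ N} (hv : v ∈ B) (hl : l ∈ B)
    (hs : (ev v l s)⁻¹ ∈ B) (hY : Y ∈ B) (hZ : Z ∈ B) : Bs s v l Y Z ≤ B := by
  rintro _ ⟨F, rfl⟩
  change hom5 s v l Y Z F ∈ B
  unfold hom5
  induction F using MvPolynomial.induction_on with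
  | C a => rw [MvPolynomial.aeval_C]; exact B.algebraMap_mem a
  | add F G hF hG => rw [map_add]; exact add_mem hF hG
  | mul_X F i hF =>
    rw [map_mul, MvPolynomial.aeval_X]
    refine mul_mem hF ?_
    fin_cases i
    · exact hv
    · exact hl
    · exact hs
    · exact hY
    · exact hZ

theorem Bs_mono {s t : ℂ[X][X]} (h : s ∣ t) (ht : ev v l t ≠ 0) :
    Bs s v l Y Z ≤ Bs t v l Y Z := by
  obtain ⟨r, rfl⟩ := h
  apply Bs_le (mem_v _) (mem_l _) _ (mem_Y _) (mem_Z _)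
  have h1 : (ev v l s)⁻¹ = ev v l r * (ev v l (s * r))⁻¹ := by
    rw [map_mul] at ht ⊢
    have h2 := left_ne_zero_of_mul ht
    have h3 := right_ne_zero_of_mul ht
    field_simp
  rw [h1]
  exact mul_mem (mem_ev _ _) (mem_inv _)

/-- Homomorphisms from `ℂ[v, l, 1/s, Y, Z]`. -/
theorem exists_hom (s : ℂ[X][X]) (hrel : Rel4 Ψ Δ s v l Y Z)
    (hind : ∀ p : Fin 4 → ℂ[X][X], val4 p v l Y Z = 0 → p = 0)
    {E : Type} [Field E] [Algebra ℂ E] {v' l' Y' Z' : E} (h' : Rel4 Ψ Δ s v' l' Y' Z') :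
    ∃ ρ : Bs s v l Y Z →ₐ[ℂ] E, ρ ⟨v, mem_v s⟩ = v' ∧ ρ ⟨l, mem_l s⟩ = l' ∧
      ρ ⟨Y, mem_Y s⟩ = Y' ∧ ρ ⟨Z, mem_Z s⟩ = Z' := by
  obtain ⟨ρ, hρ⟩ := exists_alg_lift (toBs s v l Y Z)
    (toBs_surjective s v l Y Z) (hom5 s v' l' Y' Z') (by
      intro F hF
      obtain ⟨k, p, hp⟩ := normal_form Ψ Δ s F
      have h1 := hp N v l Y Z hrel
      have h2 : hom5 s v l Y Z F = 0 := congrArg Subtype.val hF
      rw [h2, mul_zero] at h1
      have h3 := hind p h1.symm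
      have h4 := hp E v' l' Y' Z' h'
      rw [h3] at h4
      have h5 : val4 (0 : Fin 4 → ℂ[X][X]) v' l' Y' Z' = 0 := by simp [val4]
      rw [h5] at h4
      exact (mul_eq_zero.1 h4).resolve_left (pow_ne_zero _ h'.hs))
  have key : ∀ (i : Fin 5) (x : N) (hx : x ∈ Bs s v l Y Z)
      (_ : hom5 s v l Y Z (MvPolynomial.X i) = x),
      ρ ⟨x, hx⟩ = hom5 s v' l' Y' Z' (MvPolynomial.X i) := by
    intro i x hx hi
    rw [← hρ]
    congr 1
    exact Subtype.ext hi.symm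
  refine ⟨ρ, ?_, ?_, ?_, ?_⟩
  · rw [key 0 v _ (by simp [hom5])]; simp [hom5]
  · rw [key 1 l _ (by simp [hom5])]; simp [hom5]
  · rw [key 3 Y _ (by simp [hom5])]; simp [hom5]
  · rw [key 4 Z _ (by simp [hom5])]; simp [hom5]

/-- Homomorphisms are determined by the images of the coordinates. -/
theorem hom_ext4 {s : ℂ[X][X]} (hs : ev v l s ≠ 0) {E : Type} [Field E] [Algebra ℂ E]
    {ρ ρ' : Bs s v l Y Z →ₐ[ℂ] E} (h1 : ρ ⟨v, mem_v s⟩ = ρ' ⟨v, mem_v s⟩)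
    (h2 : ρ ⟨l, mem_l s⟩ = ρ' ⟨l, mem_l s⟩) (h3 : ρ ⟨Y, mem_Y s⟩ = ρ' ⟨Y, mem_Y s⟩)
    (h4 : ρ ⟨Z, mem_Z s⟩ = ρ' ⟨Z, mem_Z s⟩) : ρ = ρ' := by
  have hev : ∀ σ : Bs s v l Y Z →ₐ[ℂ] E, σ ⟨ev v l s, mem_ev s s⟩ =
      ev (σ ⟨v, mem_v s⟩) (σ ⟨l, mem_l s⟩) s := by
    intro σ
    rw [← map_ev]
    congr 1
    apply Subtype.ext
    exact (map_ev (Bs s v l Y Z).val ⟨v, mem_v s⟩ ⟨l, mem_l s⟩ s).symm
  have hinv : ∀ σ : Bs s v l Y Z →ₐ[ℂ] E, σ ⟨(ev v l s)⁻¹, mem_inv s⟩ =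
      (ev (σ ⟨v, mem_v s⟩) (σ ⟨l, mem_l s⟩) s)⁻¹ := by
    intro σ
    apply eq_inv_of_mul_eq_one_left
    rw [← hev, ← map_mul]
    have h5 : (⟨(ev v l s)⁻¹, mem_inv s⟩ * ⟨ev v l s, mem_ev s s⟩ : Bs s v l Y Z) = 1 :=
      Subtype.ext (inv_mul_cancel₀ hs)
    rw [h5, map_one]
  have h5 : ρ.comp (toBs s v l Y Z) = ρ'.comp (toBs s v l Y Z) := by
    apply MvPolynomial.algHom_ext
    intro i
    have key : ∀ (x : N) (hx : x ∈ Bs s v l Y Z) (_ : hom5 s v l Y Z (MvPolynomial.X i) = x),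
        ρ ⟨x, hx⟩ = ρ' ⟨x, hx⟩ → ρ.comp (toBs s v l Y Z) (MvPolynomial.X i) =
          ρ'.comp (toBs s v l Y Z) (MvPolynomial.X i) := by
      rintro x hx hi h6
      have h7 : toBs s v l Y Z (MvPolynomial.X i) = ⟨x, hx⟩ := Subtype.ext hi
      rw [AlgHom.comp_apply, AlgHom.comp_apply, h7]
      exact h6
    fin_cases i
    · exact key v (mem_v s) (by simp [hom5]) h1
    · exact key l (mem_l s) (by simp [hom5]) h2
    · exact key _ (mem_inv s) (by simp [hom5]) (by rw [hinv, hinv, h1, h2])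
    · exact key Y (mem_Y s) (by simp [hom5]) h3
    · exact key Z (mem_Z s) (by simp [hom5]) h4
  apply AlgHom.ext
  intro x
  obtain ⟨F, hF⟩ := toBs_surjective s v l Y Z x
  rw [← hF]
  exact DFunLike.congr_fun h5 F

theorem hom_ev {s : ℂ[X][X]} {E : Type} [Field E] [Algebra ℂ E] (σ : Bs s v l Y Z →ₐ[ℂ] E)
    (p : ℂ[X][X]) : σ ⟨ev v l p, mem_ev s p⟩ = ev (σ ⟨v, mem_v s⟩) (σ ⟨l, mem_l s⟩) p := by
  rw [← map_ev]
  congr 1
  apply Subtype.ext
  exact (map_ev (Bs s v l Y Z).val ⟨v, mem_v s⟩ ⟨l, mem_l s⟩ p).symm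

theorem hom_rel4 {s : ℂ[X][X]} (hrel : Rel4 Ψ Δ s v l Y Z) {E : Type} [Field E] [Algebra ℂ E]
    (σ : Bs s v l Y Z →ₐ[ℂ] E) : Rel4 Ψ Δ s (σ ⟨v, mem_v s⟩) (σ ⟨l, mem_l s⟩)
      (σ ⟨Y, mem_Y s⟩) (σ ⟨Z, mem_Z s⟩) := by
  refine ⟨?_, ?_, ?_⟩
  · rw [← hom_ev, ← map_pow]
    congr 1
    exact Subtype.ext hrel.hY
  · rw [← hom_ev, ← map_pow]
    congr 1
    exact Subtype.ext hrel.hZ
  · rw [← hom_ev]
    intro h0
    have h1 : (⟨(ev v l s)⁻¹, mem_inv s⟩ * ⟨ev v l s, mem_ev s s⟩ : Bs s v l Y Z) = 1 :=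
      Subtype.ext (inv_mul_cancel₀ hrel.hs)
    have h2 := congrArg σ h1
    rw [map_mul, h0, mul_zero, map_one] at h2
    exact zero_ne_one h2

end

end Vale.Agent.P297.H72
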