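import Vale.Agent.P297.H72.Oct

/-!
Special points of a web of quadrics: three quadrics have a common zero, and its orbit under a
group gives points with the same values.
-/

set_option linter.unusedSectionVars false
set_option linter.style.haveILetI false
set_option linter.unusedSimpArgs false

open CategoryTheory AlgebraicGeometry IntermediateField Polynomial

namespace Vale.Agent.P297.C8

open Vale.Agent.P297 Vale.Agent.P297.H729 Vale.Agent.P297.H516 Vale.Agent.P297.H839
open Vale.Agent.P297.H72 Vale.Agent.P297.H777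

/-- Three quadrics of projective space have a common zero. -/
theorem exists_common_zero (Q : Web) :
    ∃ o : Fin 4 → ℂ, o ≠ 0 ∧ ∀ k : Fin 3, qq Q o k.succ = 0 := by
  by_contra hcon
  push Not at hcon
  let S := MvPolynomial (Fin 4) ℂ
  let L := FractionRing S
  let y : Fin 3 → S := fun k => qq Q (MvPolynomial.X : Fin 4 → S) k.succ
  let o : Fin 4 → L := fun j => algebraMap S L (MvPolynomial.X j)
  let g : S →ₐ[ℂ] L := IsScalarTower.toAlgHom ℂ S L
  have hinj : Function.Injective g := IsFractionRing.injective S L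
  have hg : ∀ f : S, MvPolynomial.aeval o f = g f := by
    intro f
    have h1 := MvPolynomial.comp_aeval_apply (MvPolynomial.X : Fin 4 → S) g f
    rw [MvPolynomial.aeval_X_left_apply] at h1
    exact h1.symm
  have hX : ∀ j, IsIntegral (Algebra.adjoin ℂ (Set.range y)) (MvPolynomial.X j : S) := by
    intro j
    have h1 := isIntegral_of_no_zero y (fun _ => 2) (fun _ => by norm_num)
      (fun k => qq_X_homogeneous Q k.succ) (fun z hz => by
        by_contra h0
        obtain ⟨k, hk⟩ := hcon z h0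
        apply hk
        have h2 := hz k
        rw [aeval_qq_X] at h2
        exact h2) o j
    have h2 : (Set.range fun k => MvPolynomial.aeval o (y k)) = g '' Set.range y := by
      rw [← Set.range_comp]
      congr 1
      funext k
      exact hg _
    rw [h2] at h1
    exact isIntegral_pullback g hinj _ h1
  let A : Subalgebra ℂ S := Algebra.adjoin ℂ (Set.range y)
  have hint : ∀ f : S, IsIntegral A f := by
    intro f
    let B : Subalgebra A S := integralClosure A S
    let B' : Subalgebra ℂ S := B.restrictScalars ℂ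
    have h2 : (⊤ : Subalgebra ℂ S) ≤ B' := by
      rw [← MvPolynomial.adjoin_range_X, Algebra.adjoin_le_iff]
      rintro _ ⟨j, rfl⟩
      exact hX j
    exact h2 (Algebra.mem_top : f ∈ ⊤)
  haveI : Algebra.IsAlgebraic (Algebra.adjoin ℂ (Set.range y)) S :=
    ⟨fun f => (hint f).isAlgebraic⟩
  have h3 : Algebra.trdeg ℂ S ≤ Cardinal.mk (Set.range y) :=
    Algebra.IsAlgebraic.trdeg_le_cardinalMk ℂ (Set.range y)
  have h4 : Algebra.trdeg ℂ S = 4 := by
    rw [MvPolynomial.trdeg_of_isDomain]
    simp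
  have h5 : Cardinal.mk (Set.range y) ≤ 3 := by
    refine Cardinal.mk_range_le.trans ?_
    simp
  have h6 : (4 : Cardinal) ≤ 3 := by
    rw [← h4]
    exact h3.trans h5
  exact absurd h6 (by norm_num)

/-- Special points from two linear maps. -/
theorem three_of_maps {Q : Web} (A B : (Fin 4 → ℂ) → Fin 4 → ℂ)
    (hA0 : ∀ o, (∀ k : Fin 3, qq Q o k.succ = 0) → qq Q (A o) = qq Q o)
    (hB0 : ∀ o, (∀ k : Fin 3, qq Q o k.succ = 0) → qq Q (B o) = qq Q o)
    (h1 : ∀ o, o ≠ 0 → A o ≠ o) (h2 : ∀ o, o ≠ 0 → A o ≠ -o)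
    (h3 : ∀ o, o ≠ 0 → B o ≠ o) (h4 : ∀ o, o ≠ 0 → B o ≠ -o)
    (h5 : ∀ o, o ≠ 0 → B o ≠ A o) (h6 : ∀ o, o ≠ 0 → B o ≠ -A o) :
    ∃ a : Fin 4 → ℂ, Three Q a := by
  obtain ⟨o, ho, hq⟩ := exists_common_zero Q
  exact ⟨o, A o, B o, hA0 o hq, hB0 o hq, h1 o ho, h2 o ho, h3 o ho, h4 o ho, h5 o ho, h6 o ho⟩

end Vale.Agent.P297.C8
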