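import Vale.Agent.P297.H72.Vert

/-!
The classes of the cycles over the points of the surface.
-/

set_option linter.unusedSectionVars false
set_option linter.style.haveILetI false

open CategoryTheory AlgebraicGeometry IntermediateField Polynomial

namespace Vale.Agent.P297.H72

open Vale.Agent.P297 Vale.Agent.P297.H124

theorem ev_coeff_top {p : ℂ[X][X]} {n : ℕ} (α : ℂ) : (p.map (evalRingHom α)).coeff n =
    (p.coeff n).eval α := by
  rw [coeff_map, coe_evalRingHom]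

theorem exists_root_top {p : ℂ[X]} {n : ℕ} (hn : 0 < n) (hp : p.natDegree ≤ n)
    (h : p.coeff n ≠ 0) : ∃ x, p.eval x = 0 := by
  have h1 : p.natDegree = n := natDegree_eq_of_le_of_coeff_ne_zero hp h
  apply IsAlgClosed.exists_root p
  have hp0 : p ≠ 0 := by
    rintro rfl
    exact h (coeff_zero n)
  rw [degree_eq_natDegree hp0, h1]
  exact_mod_cast hn.ne'

/-- the values of `v` where the pencil degenerates -/
theorem AtFib.exists_W {Ψ Δ P Q : ℂ[X][X]} {α : ℂ} (h : AtFib Ψ Δ P Q α) :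
    ∃ W : ℂ[X], W ≠ 0 ∧ ∀ v₀ c : ℂ,
      P.map (evalRingHom v₀) = C c * Q.map (evalRingHom v₀) → W.eval v₀ = 0 := by
  by_cases hW : ∃ i k, (P.coeff i * Q.coeff k - P.coeff k * Q.coeff i).eval α ≠ 0
  · obtain ⟨i, k, hik⟩ := hW
    refine ⟨P.coeff i * Q.coeff k - P.coeff k * Q.coeff i,
      fun h0 => hik (by rw [h0, eval_zero]), fun v₀ c hc => ?_⟩
    have h1 : ∀ n, (P.coeff n).eval v₀ = c * (Q.coeff n).eval v₀ := by
      intro n
      have h2 := congrArg (fun q => q.coeff n) hc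
      simp only [coeff_map, coeff_C_mul, coe_evalRingHom] at h2
      exact h2
    rw [eval_sub, eval_mul, eval_mul, h1, h1]
    ring
  · exfalso
    push Not at hW
    obtain ⟨n, hn, hP, hQ, htop⟩ := h.top
    have h1 : ∀ i, (P.coeff i).eval α * (Q.coeff n).eval α =
        (P.coeff n).eval α * (Q.coeff i).eval α := by
      intro i
      have h2 := hW i n
      rw [eval_sub, eval_mul, eval_mul] at h2
      linear_combination h2
    have h2 : C ((Q.coeff n).eval α) * P.map (evalRingHom α) =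
        C ((P.coeff n).eval α) * Q.map (evalRingHom α) := by
      ext i
      rw [coeff_C_mul, coeff_C_mul, coeff_map, coeff_map, coe_evalRingHom]
      linear_combination h1 i
    have h3 : ∀ x, (Q.coeff n).eval α * ev α x P = (P.coeff n).eval α * ev α x Q := by
      intro x
      have h4 := congrArg (eval x) h2
      rw [eval_mul, eval_C, eval_mul, eval_C, ← H160.ev_complex, ← H160.ev_complex] at h4
      exact h4
    by_cases hq : (Q.coeff n).eval α = 0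
    · have hp : (P.coeff n).eval α ≠ 0 := fun h0 => htop ⟨h0, hq⟩
      obtain ⟨x, hx⟩ := exists_root_top hn ((natDegree_map_le).trans hP)
        (p := P.map (evalRingHom α)) (by rw [ev_coeff_top]; exact hp)
      rw [← H160.ev_complex] at hx
      have h4 := h3 x
      rw [hx, mul_zero] at h4
      exact h.cop x ⟨hx, (mul_eq_zero.1 h4.symm).resolve_left hp⟩
    · obtain ⟨x, hx⟩ := exists_root_top hn ((natDegree_map_le).trans hQ)
        (p := Q.map (evalRingHom α)) (by rw [ev_coeff_top]; exact hq)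
      rw [← H160.ev_complex] at hx
      have h4 := h3 x
      rw [hx, mul_zero] at h4
      exact h.cop x ⟨(mul_eq_zero.1 h4).resolve_left hq, hx⟩

section

variable {N : Type} [Field N] [Algebra ℂ N] {Ψ Δ : ℂ[X][X]} {v l Y Z : N}
  {S : Scheme.{0}} (f : S ⟶ Spec (.of ℂ)) [IsProper f]

theorem incl_coe {s t : ℂ[X][X]} (h : Bs s v l Y Z ≤ Bs t v l Y Z) (b : Bs s v l Y Z) :
    (Subalgebra.inclusion h b : N) = (b : N) := Subalgebra.coe_inclusion h b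

theorem incl_mk {s t : ℂ[X][X]} (h : Bs s v l Y Z ≤ Bs t v l Y Z) {x : N}
    (hx : x ∈ Bs s v l Y Z) (hx' : x ∈ Bs t v l Y Z) :
    Subalgebra.inclusion h ⟨x, hx⟩ = ⟨x, hx'⟩ := Subtype.ext (incl_coe h _)

theorem tauB_incl {τ : N →ₐ[ℂ] N} (hτ : IsInv τ v l Y Z) {s t : ℂ[X][X]}
    (h : Bs s v l Y Z ≤ Bs t v l Y Z) :
    (tauB hτ t).comp (Subalgebra.inclusion h) = (Subalgebra.inclusion h).comp (tauB hτ s) := by
  apply AlgHom.ext
  intro b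
  apply Subtype.ext
  rw [AlgHom.comp_apply, AlgHom.comp_apply, tauB_coe, incl_coe, incl_coe, tauB_coe]

theorem val_incl {s t : ℂ[X][X]} (h : Bs s v l Y Z ≤ Bs t v l Y Z) :
    (Bs t v l Y Z).val.comp (Subalgebra.inclusion h) = (Bs s v l Y Z).val :=
  AlgHom.ext fun b => by rw [AlgHom.comp_apply, Subalgebra.val_apply, Subalgebra.val_apply, incl_coe]

/-- **A component of the fibre of the fibration through a point.** -/
theorem fibre_step (hfld : Fld Ψ Δ v l Y Z) {τ : N →ₐ[ℂ] N} (hτ : IsInv τ v l Y Z)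
    (R : AddSubgroup (ZeroCycle S)) (hR : Rat f ≤ R)
    (hR3 : ∀ u v : closedPoints S,
      (3 : ℤ) • (Finsupp.single u (1 : ℤ) - Finsupp.single v 1) ∈ R)
    {P Q H : ℂ[X][X]} (hrelH : Q * (H ^ 2 - Ψ) = P * H ^ 2) {α : ℂ} (hα : AtFib Ψ Δ P Q α)
    {s : ℂ[X][X]} (hs : s ≠ 0)
    (hthird : ∀ (E : Type) [Field E] [Algebra ℂ E] [IsFF ℂ E] (ρ : Bs s v l Y Z →ₐ[ℂ] E) (e₀ : ℂ),
        ρ ⟨Y, mem_Y s⟩ = algebraMap ℂ E e₀ * ev (ρ ⟨v, mem_v s⟩) (ρ ⟨l, mem_l s⟩) H →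
        ∀ (E₀ : IntermediateField ℂ E) [IsFF ℂ E₀],
          E₀ = IntermediateField.adjoin ℂ
            ({ρ ⟨v, mem_v s⟩, ρ ⟨l, mem_l s⟩, ρ ⟨Y, mem_Y s⟩} : Set E) → ThirdProp E₀)
    {g : Spec (.of (Bs s v l Y Z)) ⟶ S} (hg : g ≫ f = str (Bs s v l Y Z))
    {s₁ : ℂ[X][X]} (hs₁ : s₁ ≠ 0) {g₁ : Spec (.of (Bs s₁ v l Y Z)) ⟶ S}
    (hg₁ : g₁ ≫ f = str (Bs s₁ v l Y Z))
    (hgen : sp (Bs s v l Y Z).val ≫ g = sp (Bs s₁ v l Y Z).val ≫ g₁)
    (ξ : Bs s v l Y Z →ₐ[ℂ] ℂ) {v₀ l₀ : ℂ} (hv₀ : ξ ⟨v, mem_v s⟩ = v₀) (hl₀ : ξ ⟨l, mem_l s⟩ = l₀)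
    (hH : ev v₀ l₀ H ≠ 0) (hQ : ev v₀ l₀ Q ≠ 0)
    (hW : ∀ c : ℂ, P.map (evalRingHom v₀) ≠ C c * Q.map (evalRingHom v₀))
    (hbad : ∀ c : ℂ, ev v₀ l₀ P = c * ev v₀ l₀ Q →
      (∀ x, ev α x P = c * ev α x Q → ev α x s₁ ≠ 0) ∧
      ∀ n, P.natDegree ≤ n → Q.natDegree ≤ n →
        ¬ ((P.coeff n).eval α = 0 ∧ (Q.coeff n).eval α = 0) →
        (P.coeff n).eval α ≠ c * (Q.coeff n).eval α) :
    ∃ χ : Bs s₁ v l Y Z →ₐ[ℂ] ℂ, χ ⟨v, mem_v s₁⟩ = α ∧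
      QuotientAddGroup.mk' R (cy f hτ s hg ξ) = QuotientAddGroup.mk' R (cy f hτ s₁ hg₁ χ) := by
  have hrel : Rel4 Ψ Δ s v l Y Z := hfld.rel hs
  have hrel₁ : Rel4 Ψ Δ s₁ v l Y Z := hfld.rel hs₁
  have hξ := hom_rel4 hrel ξ
  rw [hv₀, hl₀] at hξ
  obtain ⟨e₀, he₀⟩ : ∃ e₀, e₀ * ev v₀ l₀ H = ξ ⟨Y, mem_Y s⟩ :=
    ⟨ξ ⟨Y, mem_Y s⟩ / ev v₀ l₀ H, div_mul_cancel₀ _ hH⟩
  have hevrel : ∀ {A : Type} [Field A] [Algebra ℂ A] (x y : A), ev x y Q ≠ 0 →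
      ev x y P = algebraMap ℂ A (1 - e₀ ^ 2) * ev x y Q →
      ev x y Ψ = (algebraMap ℂ A e₀ * ev x y H) ^ 2 := by
    intro A _ _ x y hQ' hP'
    have h1 := congrArg (ev x y) hrelH
    rw [map_mul, map_sub, map_mul, map_pow, hP'] at h1
    apply mul_left_cancel₀ hQ'
    rw [map_sub, map_one, map_pow] at h1
    linear_combination -h1
  have hc₀ : ev v₀ l₀ P = (1 - e₀ ^ 2) * ev v₀ l₀ Q := by
    have h1 := congrArg (ev v₀ l₀) hrelH
    rw [map_mul, map_sub, map_mul, map_pow, ← hξ.hY, ← he₀] at h1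
    apply mul_right_cancel₀ (pow_ne_zero 2 hH)
    linear_combination -h1
  obtain ⟨hb1, hb2⟩ := hbad _ hc₀
  obtain ⟨n, hn, hPn, hQn, htop⟩ := hα.top
  have hb3 := hb2 n hPn hQn htop
  obtain ⟨G, hG⟩ : ∃ G, G = P - C (C (1 - e₀ ^ 2)) * Q := ⟨_, rfl⟩
  have hevG : ∀ {A : Type} [Field A] [Algebra ℂ A] (x y : A),
      ev x y G = ev x y P - algebraMap ℂ A (1 - e₀ ^ 2) * ev x y Q := by
    intro A _ _ x y
    rw [hG, map_sub, map_mul, ev_C, aeval_C]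
  have hG0 : ev v₀ l₀ G = 0 := by
    rw [hevG, hc₀]
    exact sub_self _
  have hGv : G.map (evalRingHom v₀) ≠ 0 := by
    intro h0
    apply hW (1 - e₀ ^ 2)
    rw [hG, Polynomial.map_sub, Polynomial.map_mul, map_C, coe_evalRingHom, eval_C,
      sub_eq_zero] at h0
    exact h0
  have hGn : (G.coeff n).eval α ≠ 0 := by
    rw [hG, coeff_sub, coeff_C_mul, eval_sub, eval_mul, eval_C]
    exact sub_ne_zero.2 hb3
  have hGdeg : G.natDegree = n := by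
    apply natDegree_eq_of_le_of_coeff_ne_zero
    · rw [hG]
      exact (natDegree_sub_le _ _).trans (max_le hPn ((natDegree_C_mul_le _ _).trans hQn))
    · intro h0
      rw [h0, eval_zero] at hGn
      exact hGn rfl
  have hGlead : G.leadingCoeff.eval α ≠ 0 := by
    rw [leadingCoeff, hGdeg]
    exact hGn
  obtain ⟨π, hπ, ⟨G', hGG'⟩, hπ0, hπdeg, l₁, hl₁⟩ := H160.exists_component G v₀ l₀ α hG0 hGv hGlead
  have hGl₁ : ev α l₁ P = (1 - e₀ ^ 2) * ev α l₁ Q := by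
    have h1 := hevG (A := ℂ) α l₁
    rw [hGG', map_mul, hl₁, zero_mul] at h1
    exact (sub_eq_zero.1 h1.symm)
  have hQl₁ : ev α l₁ Q ≠ 0 := by
    intro h0
    apply hα.cop l₁
    rw [hGl₁, h0, mul_zero]
    exact ⟨rfl, rfl⟩
  have hs₁l₁ := hb1 l₁ hGl₁
  -- the curve
  obtain ⟨v₁, l₁', htr, hplane⟩ := exists_plane π hπ hπdeg
  obtain ⟨Y₁, hY₁⟩ : ∃ Y₁, Y₁ = algebraMap ℂ Om e₀ * ev v₁ l₁' H := ⟨_, rfl⟩
  obtain ⟨Z₁, hZ₁⟩ := IsAlgClosed.exists_pow_nat_eq (ev v₁ l₁' Δ) (n := 2) two_pos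
  have hevm : ∀ p, ev v₁ l₁' p ∈ IntermediateField.adjoin ℂ ({v₁, l₁', Y₁} : Set Om) := by
    intro p
    have h3 := map_ev (IntermediateField.adjoin ℂ ({v₁, l₁', Y₁} : Set Om)).val
      ⟨v₁, IntermediateField.subset_adjoin _ _ (by simp)⟩
      ⟨l₁', IntermediateField.subset_adjoin _ _ (by simp)⟩ p
    change _ = ev v₁ l₁' p at h3
    rw [← h3]
    exact Subtype.prop _
  obtain ⟨E, i1, i2, i3, E₀, i4, i5, v', l', Y', Z', φ, hv', hl', hY', hZ', hE₀, hfin⟩ :=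
    exists_double v₁ l₁' Y₁ Z₁ v₁ htr (IntermediateField.subset_adjoin _ _ (by simp))
      (by rw [hZ₁]; exact hevm Δ)
  have hφ : Function.Injective φ := φ.toRingHom.injective
  have hevφ : ∀ p, φ (ev v' l' p) = ev v₁ l₁' p := by
    intro p
    rw [map_ev, hv', hl']
  have hplane' : ∀ p : ℂ[X][X], ev v' l' p = 0 ↔ π ∣ p := by
    intro p
    rw [← hplane, ← hevφ, map_eq_zero_iff φ hφ]
  have htr' : Transcendental ℂ v' := by
    intro halg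
    apply htr
    rw [← hv']
    exact (isAlgebraic_algHom_iff φ hφ).2 halg
  have eY' : Y' = algebraMap ℂ E e₀ * ev v' l' H := hφ (by
    rw [hY', hY₁, map_mul, φ.commutes, hevφ])
  have eP : ev v' l' P = algebraMap ℂ E (1 - e₀ ^ 2) * ev v' l' Q := by
    have h1 := hevG (A := E) v' l'
    rw [(hplane' G).2 ⟨G', hGG'⟩] at h1
    exact (sub_eq_zero.1 h1.symm)
  have hndvd : ∀ p : ℂ[X][X], ev v₀ l₀ p ≠ 0 → ev v' l' p ≠ 0 := by
    intro p hp h0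
    obtain ⟨p', rfl⟩ := (hplane' p).1 h0
    apply hp
    rw [map_mul, hπ0, zero_mul]
  have hndvd₁ : ∀ p : ℂ[X][X], ev α l₁ p ≠ 0 → ev v' l' p ≠ 0 := by
    intro p hp h0
    obtain ⟨p', rfl⟩ := (hplane' p).1 h0
    apply hp
    rw [map_mul, hl₁, zero_mul]
  have eY : Y' ^ 2 = ev v' l' Ψ := by
    rw [eY', hevrel v' l' (hndvd Q hQ) eP]
  have eZ : Z' ^ 2 = ev v' l' Δ := hφ (by rw [map_pow, hZ', hZ₁, hevφ])
  have hrel' : Rel4 Ψ Δ (s * s₁) v' l' Y' Z' := by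
    refine ⟨eY, eZ, ?_⟩
    rw [map_mul]
    exact mul_ne_zero (hndvd s hξ.hs) (hndvd₁ s₁ hs₁l₁)
  have hss : s * s₁ ≠ 0 := mul_ne_zero hs hs₁
  obtain ⟨ρ', ρv, ρl, ρY, ρZ⟩ := exists_hom (s * s₁) (hfld.rel hss) hfld.ind4 hrel'
  have hle : Bs s v l Y Z ≤ Bs (s * s₁) v l Y Z :=
    Bs_mono (Dvd.intro _ rfl) (ev_ne_zero hfld.ind hss)
  have hle₁ : Bs s₁ v l Y Z ≤ Bs (s * s₁) v l Y Z :=
    Bs_mono (Dvd.intro_left _ rfl) (ev_ne_zero hfld.ind hss)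
  obtain ⟨ρ, hρ⟩ : ∃ ρ : Bs s v l Y Z →ₐ[ℂ] E, ρ = ρ'.comp (Subalgebra.inclusion hle) := ⟨_, rfl⟩
  obtain ⟨ρ₁, hρ₁⟩ : ∃ ρ : Bs s₁ v l Y Z →ₐ[ℂ] E, ρ = ρ'.comp (Subalgebra.inclusion hle₁) :=
    ⟨_, rfl⟩
  have hρv : ρ ⟨v, mem_v s⟩ = v' := by
    rw [hρ, AlgHom.comp_apply, incl_mk hle _ (mem_v _), ρv]
  have hρl : ρ ⟨l, mem_l s⟩ = l' := by
    rw [hρ, AlgHom.comp_apply, incl_mk hle _ (mem_l _), ρl]
  have hρY : ρ ⟨Y, mem_Y s⟩ = Y' := by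
    rw [hρ, AlgHom.comp_apply, incl_mk hle _ (mem_Y _), ρY]
  have hρ₁v : ρ₁ ⟨v, mem_v s₁⟩ = v' := by
    rw [hρ₁, AlgHom.comp_apply, incl_mk hle₁ _ (mem_v _), ρv]
  have hρ₁l : ρ₁ ⟨l, mem_l s₁⟩ = l' := by
    rw [hρ₁, AlgHom.comp_apply, incl_mk hle₁ _ (mem_l _), ρl]
  have hρ₁Y : ρ₁ ⟨Y, mem_Y s₁⟩ = Y' := by
    rw [hρ₁, AlgHom.comp_apply, incl_mk hle₁ _ (mem_Y _), ρY]
  -- the two morphisms agree
  have hgg : sp (Subalgebra.inclusion hle) ≫ g = sp (Subalgebra.inclusion hle₁) ≫ g₁ := by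
    refine mor_unique f (Bs (s * s₁) v l Y Z).val Subtype.val_injective (sp_over f _ hg)
      (sp_over f _ hg₁) ?_
    rw [← Category.assoc, ← Category.assoc, sp_comp, sp_comp, val_incl, val_incl]
    exact hgen
  have hatt₁ : sp ρ ≫ g = sp ρ₁ ≫ g₁ := by
    rw [hρ, hρ₁, ← sp_comp, ← sp_comp, Category.assoc, Category.assoc, hgg]
  have hatt₂ : sp (ρ.comp (tauB hτ s)) ≫ g = sp (ρ₁.comp (tauB hτ s₁)) ≫ g₁ := by
    have e1 : ρ.comp (tauB hτ s) =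
        (ρ'.comp (tauB hτ (s * s₁))).comp (Subalgebra.inclusion hle) := by
      rw [hρ, AlgHom.comp_assoc, AlgHom.comp_assoc, ← tauB_incl]
    have e2 : ρ₁.comp (tauB hτ s₁) =
        (ρ'.comp (tauB hτ (s * s₁))).comp (Subalgebra.inclusion hle₁) := by
      rw [hρ₁, AlgHom.comp_assoc, AlgHom.comp_assoc, ← tauB_incl]
    rw [e1, e2, ← sp_comp (Subalgebra.inclusion hle), ← sp_comp (Subalgebra.inclusion hle₁),
      Category.assoc, Category.assoc, hgg]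
  have e1 := sp_over f ρ hg
  have e2 := sp_over f (ρ.comp (tauB hτ s)) hg
  obtain ⟨A, hA0, hA3, hA⟩ := exists_class f R hR hR3 _ _ e1 e2
  have hv'E : v' ∈ E₀ := by
    rw [hE₀]; exact IntermediateField.subset_adjoin _ _ (by simp)
  have hl'E : l' ∈ E₀ := by
    rw [hE₀]; exact IntermediateField.subset_adjoin _ _ (by simp)
  have hY'E : Y' ∈ E₀ := by
    rw [hE₀]; exact IntermediateField.subset_adjoin _ _ (by simp)
  have hT : ThirdProp E₀ := by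
    refine hthird E ρ e₀ ?_ E₀ ?_
    · rw [hρv, hρl, hρY, eY']
    · rw [hρv, hρl, hρY, hE₀]
  -- kernel
  have hker : ∀ (x y : ℂ), ev x y π = 0 → ∀ p q : ℂ[X][X],
      ev v' l' p + ev v' l' q * Y' = 0 → ev x y p + ev x y q * (e₀ * ev x y H) = 0 := by
    intro x y hxy p q hpq
    have h1 : ev v' l' (p + q * (C (C e₀) * H)) = 0 := by
      rw [map_add, map_mul, map_mul, ev_C, aeval_C, ← eY']
      exact hpq
    obtain ⟨p', hp'⟩ := (hplane' _).1 h1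
    have h2 := congrArg (ev x y) hp'
    rw [map_add, map_mul, map_mul, ev_C, aeval_C, map_mul, hxy, zero_mul] at h2
    exact h2
  -- the first place
  obtain ⟨w, hw, hw'⟩ := exists_place_class f hτ hrel R E₀ hg (ρ := ρ)
    (by rw [hρv]; exact hv'E) (by rw [hρl]; exact hl'E) (by rw [hρY]; exact hY'E)
    ⟨rfl, rfl⟩ e1 e2 A hA ξ (by
      intro p q hpq
      rw [hρv, hρl, hρY] at hpq
      rw [hv₀, hl₀, ← he₀]
      exact hker v₀ l₀ hπ0 p q hpq) (by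
      refine ⟨lin v₀, ?_, ?_⟩
      · rw [hρv, hρl, ev_lin]
        exact sub_ne_zero_of_tr htr' _
      · rw [hv₀, hl₀, ev_lin]
        exact sub_self _)
  -- the second place
  obtain ⟨Z₂, hZ₂⟩ := IsAlgClosed.exists_pow_nat_eq (ev α l₁ Δ) (n := 2) two_pos
  have hrel₂ : Rel4 Ψ Δ s₁ α l₁ (e₀ * ev α l₁ H) Z₂ := by
    refine ⟨?_, hZ₂, hs₁l₁⟩
    exact (hevrel (A := ℂ) α l₁ hQl₁ hGl₁).symm
  obtain ⟨χ, χv, χl, χY, χZ⟩ := exists_hom s₁ hrel₁ hfld.ind4 hrel₂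
  obtain ⟨x, hx, hx'⟩ := exists_place_class f hτ hrel₁ R E₀ hg₁ (ρ := ρ₁)
    (by rw [hρ₁v]; exact hv'E) (by rw [hρ₁l]; exact hl'E) (by rw [hρ₁Y]; exact hY'E)
    ⟨hatt₁, hatt₂⟩ e1 e2 A hA χ (by
      intro p q hpq
      rw [hρ₁v, hρ₁l, hρ₁Y] at hpq
      rw [χv, χl, χY]
      exact hker α l₁ hl₁ p q hpq) (by
      refine ⟨lin α, ?_, ?_⟩
      · rw [hρ₁v, hρ₁l, ev_lin]
        exact sub_ne_zero_of_tr htr' _
      · rw [χv, χl, ev_lin]
        exact sub_self _)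
  refine ⟨χ, χv, ?_⟩
  rw [← hw, ← hx]
  exact fibre_const_sub E₀ hT hfin A hA0 hA3 hw' hx'

end

end Vale.Agent.P297.H72
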