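import Vale.Agent.P297.H72.TG
import Vale.Agent.P297.H600.FibreThird

/-!
**The sum of a generic point and its conjugate over the twin is constant modulo `R`.**
-/

set_option linter.unusedSectionVars false
set_option linter.style.haveILetI false

open CategoryTheory AlgebraicGeometry IntermediateField Polynomial

namespace Vale.Agent.P297.H72

open Vale.Agent.P297 Vale.Agent.P297.H124

section

variable {N : Type} [Field N] [Algebra ℂ N] {Ψ Δ : ℂ[X][X]} {v l Y Z : N}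
  {S : Scheme.{0}} (f : S ⟶ Spec (.of ℂ)) [IsProper f]

theorem ev_ne_of_dvd {A : Type} [Field A] [Algebra ℂ A] {x y : A} {p q : ℂ[X][X]} (h : p ∣ q)
    (hq : ev x y q ≠ 0) : ev x y p ≠ 0 := by
  obtain ⟨r, rfl⟩ := h
  rw [map_mul] at hq
  exact left_ne_zero_of_mul hq

/-- The cycle cut out by a homomorphism from a big ring. -/
theorem pair_eq_cy {C : Type} [CommRing C] [Algebra ℂ C] (j : Spec (.of C) ⟶ S)
    (hj : j ≫ f = str C) {τ : N →ₐ[ℂ] N} (hτ : IsInv τ v l Y Z) {s : ℂ[X][X]} (ι : C →ₐ[ℂ] N)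
    (ι' : C →ₐ[ℂ] Bs s v l Y Z) (hι : ∀ c, (ι' c : N) = ι c) {B : Subalgebra ℂ N}
    (hB : Bs s v l Y Z ≤ B) (ξ : B →ₐ[ℂ] ℂ) :
    pair f j hj B ξ (Finsupp.single ι (1 : ℤ) + Finsupp.single (τ.comp ι) 1) =
      cy f hτ s (sp_over f ι' hj) (ξ.comp (Subalgebra.inclusion hB)) := by
  have h1 : ∀ c, ι c ∈ B := fun c => by rw [← hι]; exact hB (ι' c).2
  have h2 : ∀ c, τ.comp ι c ∈ B := fun c => by
    rw [AlgHom.comp_apply, ← hι]
    exact hB (hτ.mem s (ι' c).2)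
  rw [map_add, pair_single, pair_single, one_smul, one_smul, cyc_of_mem f j hj B ξ ι h1,
    cyc_of_mem f j hj B ξ _ h2]
  unfold cy
  rw [pt_comp f hj ι', pt_comp f hj ι']
  have e1 : ξ.comp (ι.codRestrict B h1) = (ξ.comp (Subalgebra.inclusion hB)).comp ι' := by
    apply AlgHom.ext
    intro c
    rw [AlgHom.comp_apply, AlgHom.comp_apply, AlgHom.comp_apply]
    congr 1
    apply Subtype.ext
    rw [Subalgebra.coe_inclusion, hι]
    rfl
  have e2 : ξ.comp ((τ.comp ι).codRestrict B h2) =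
      ((ξ.comp (Subalgebra.inclusion hB)).comp (tauB hτ s)).comp ι' := by
    apply AlgHom.ext
    intro c
    rw [AlgHom.comp_apply, AlgHom.comp_apply, AlgHom.comp_apply, AlgHom.comp_apply]
    congr 1
    apply Subtype.ext
    rw [Subalgebra.coe_inclusion, tauB_coe, hι]
    rfl
  rw [e1, e2]

/-- The factors that exclude the bad fibres. -/
theorem AtFib.exists_bad {P Q s₁ : ℂ[X][X]} {α : ℂ} (hα : AtFib Ψ Δ P Q α)
    (hs₁ : ¬ lin α ∣ s₁) : ∃ B : ℂ[X][X], B ≠ 0 ∧ ∀ v₀ l₀ : ℂ, ev v₀ l₀ B ≠ 0 →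
      (∀ c : ℂ, P.map (evalRingHom v₀) ≠ C c * Q.map (evalRingHom v₀)) ∧
      ∀ c : ℂ, ev v₀ l₀ P = c * ev v₀ l₀ Q →
      (∀ x, ev α x P = c * ev α x Q → ev α x s₁ ≠ 0) ∧
      ∀ n, P.natDegree ≤ n → Q.natDegree ≤ n →
        ¬ ((P.coeff n).eval α = 0 ∧ (Q.coeff n).eval α = 0) →
        (P.coeff n).eval α ≠ c * (Q.coeff n).eval α := by
  classical
  obtain ⟨W, hW, hWv⟩ := hα.exists_W
  obtain ⟨n₀, hn₀, hPn, hQn, htop⟩ := hα.top
  have hne : ∀ c : ℂ, P - C (C c) * Q ≠ 0 := by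
    intro c h0
    apply hW
    apply Polynomial.funext
    intro v₀
    rw [eval_zero]
    apply hWv v₀ c
    have h1 := congrArg (Polynomial.map (evalRingHom v₀)) (sub_eq_zero.1 h0)
    rw [Polynomial.map_mul, map_C, coe_evalRingHom, eval_C] at h1
    exact h1
  let T : Finset ℂ := (s₁.map (evalRingHom α)).roots.toFinset
  let c₁ : ℂ → ℂ := fun x => ev α x P / ev α x Q
  let c₂ : ℂ := (P.coeff n₀).eval α / (Q.coeff n₀).eval α
  have hs₁' : s₁.map (evalRingHom α) ≠ 0 := fun h0 => hs₁ ((lin_dvd_iff α s₁).2 h0)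
  refine ⟨C W * (∏ x ∈ T, (P - C (C (c₁ x)) * Q)) * (P - C (C c₂) * Q), ?_, ?_⟩
  · refine mul_ne_zero (mul_ne_zero (C_ne_zero.2 hW) ?_) (hne _)
    exact Finset.prod_ne_zero_iff.2 fun x _ => hne _
  · intro v₀ l₀ hB
    rw [map_mul, map_mul] at hB
    have h1 := left_ne_zero_of_mul (left_ne_zero_of_mul hB)
    have h2 := right_ne_zero_of_mul (left_ne_zero_of_mul hB)
    have h3 := right_ne_zero_of_mul hB
    have hcc : ∀ c c' : ℂ, ev v₀ l₀ P = c * ev v₀ l₀ Q → c' = c →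
        ev v₀ l₀ (P - C (C c') * Q) = 0 := by
      rintro c c' hc rfl
      rw [map_sub, map_mul, ev_C, aeval_C, hc]
      exact sub_self _
    refine ⟨?_, ?_⟩
    · intro c hc
      apply h1
      rw [ev_C, coe_aeval_eq_eval]
      exact hWv v₀ c hc
    · intro c hc
      refine ⟨?_, ?_⟩
      · intro x hx hx0
        have hQx : ev α x Q ≠ 0 := by
          intro h0
          apply hα.cop x
          rw [hx, h0, mul_zero]
          exact ⟨rfl, rfl⟩
        have hxT : x ∈ T := by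
          rw [Multiset.mem_toFinset, mem_roots hs₁', IsRoot, ← H160.ev_complex]
          exact hx0
        apply h2
        rw [map_prod]
        apply Finset.prod_eq_zero hxT
        apply hcc c _ hc
        change ev α x P / ev α x Q = c
        rw [hx, mul_div_cancel_right₀ _ hQx]
      · intro n hP hQ hn hcn
        have hnn : n = n₀ := by
          rcases lt_trichotomy n n₀ with h | h | h
          · exfalso
            apply htop
            rw [coeff_eq_zero_of_natDegree_lt (hP.trans_lt h),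
              coeff_eq_zero_of_natDegree_lt (hQ.trans_lt h), eval_zero]
            exact ⟨rfl, rfl⟩
          · exact h
          · exfalso
            apply hn
            rw [coeff_eq_zero_of_natDegree_lt (hPn.trans_lt h),
              coeff_eq_zero_of_natDegree_lt (hQn.trans_lt h), eval_zero]
            exact ⟨rfl, rfl⟩
        subst hnn
        have hQ0 : (Q.coeff n).eval α ≠ 0 := by
          intro h0
          apply hn
          rw [hcn, h0, mul_zero]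
          exact ⟨rfl, rfl⟩
        apply h3
        apply hcc c _ hc
        change (P.coeff n).eval α / (Q.coeff n).eval α = c
        rw [hcn, mul_div_cancel_right₀ _ hQ0]

/-- **[TG]** -/
theorem third_good {C : Type} [CommRing C]
    [Algebra ℂ C] [Algebra.FiniteType ℂ C] (j : Spec (.of C) ⟶ S) (hj : j ≫ f = str C)
    (R : AddSubgroup (ZeroCycle S)) (hR : Rat f ≤ R)
    (hR3 : ∀ u v : closedPoints S,
      (3 : ℤ) • (Finsupp.single u (1 : ℤ) - Finsupp.single v 1) ∈ R)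
    (hfld : Fld Ψ Δ v l Y Z) {τ : N →ₐ[ℂ] N} (hτ : IsInv τ v l Y Z)
    {P Q H : ℂ[X][X]} {e a b : N} {F : Fin 10 → ℂ[X]} (hfib : Fib Ψ P Q H v l Y e a b F)
    {α : ℂ} (hα : AtFib Ψ Δ P Q α) (ι : C →ₐ[ℂ] N) :
    Finsupp.single ι (1 : ℤ) + Finsupp.single (τ.comp ι) 1 ∈ Good f j hj R N := by
  classical
  have hγ := sp_over f ι hj
  -- the extension to `v = α`
  obtain ⟨t, ht⟩ := exists_tr
  obtain ⟨Y₁, hY₁⟩ := IsAlgClosed.exists_pow_nat_eq (ev (algebraMap ℂ Om α) t Ψ) (n := 2) two_pos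
  obtain ⟨Z₁, hZ₁⟩ := IsAlgClosed.exists_pow_nat_eq (ev (algebraMap ℂ Om α) t Δ) (n := 2) two_pos
  obtain ⟨r, q, hq, hdeg, hr, hrq⟩ := hα.quart
  have hind := H160.ind_of_nonsquare α ht hY₁ hZ₁
    (fun s => by rw [hrq]; exact not_sq hr hq hdeg s) hα.nsq hα.nsq'
  obtain ⟨s₁, hs₁, g₁, hg₁, hgen₁⟩ := exists_extend hfld α hY₁ hZ₁ hind f (sp ι ≫ j) hγ
  have hs₁0 : s₁ ≠ 0 := by
    rintro h0
    exact hs₁ (h0 ▸ dvd_zero _)
  -- the ring
  obtain ⟨G, hG⟩ := (inferInstance : Algebra.FiniteType ℂ C).out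
  obtain ⟨s₂, hs₂, hmem⟩ := hfld.exists_mem_Bs (G.image ι)
  obtain ⟨s₀, hs₀, hthird⟩ := H600.fibre_third hfld hfib
  obtain ⟨B, hB, hBad⟩ := hα.exists_bad hs₁
  obtain ⟨s, hs⟩ : ∃ s, s = s₂ * s₀ * Q * H * B := ⟨_, rfl⟩
  have hs0 : s ≠ 0 := by
    rw [hs]
    exact mul_ne_zero (mul_ne_zero (mul_ne_zero (mul_ne_zero hs₂ hs₀) hfib.hQ) hfib.hH) hB
  have d₂ : s₂ ∣ s := ⟨s₀ * Q * H * B, by rw [hs]; ring⟩
  have d₀ : s₀ ∣ s := ⟨s₂ * Q * H * B, by rw [hs]; ring⟩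
  have dQ : Q ∣ s := ⟨s₂ * s₀ * H * B, by rw [hs]; ring⟩
  have dH : H ∣ s := ⟨s₂ * s₀ * Q * B, by rw [hs]; ring⟩
  have dB : B ∣ s := ⟨s₂ * s₀ * Q * H, by rw [hs]; ring⟩
  have hιm : ∀ c, ι c ∈ Bs s v l Y Z := by
    intro c
    have h1 : c ∈ Algebra.adjoin ℂ (G : Set C) := by rw [hG]; trivial
    have h2 : Algebra.adjoin ℂ (G : Set C) ≤ (Bs s v l Y Z).comap ι := by
      rw [Algebra.adjoin_le_iff]
      intro x hx
      exact hmem s d₂ hs0 _ (Finset.mem_image_of_mem ι hx)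
    exact h2 h1
  let ι' : C →ₐ[ℂ] Bs s v l Y Z := ι.codRestrict _ hιm
  have hι' : ∀ c, (ι' c : N) = ι c := fun c => rfl
  have hg := sp_over f ι' hj
  have hgen : sp (Bs s v l Y Z).val ≫ (sp ι' ≫ j) = sp (Bs s₁ v l Y Z).val ≫ g₁ := by
    rw [hgen₁, ← Category.assoc, sp_comp]
    have h1 : (Bs s v l Y Z).val.comp ι' = ι := AlgHom.ext hι'
    rw [h1]
  have hrel := hfld.rel hs0
  -- every class comes from the fibre `v = α`
  have key : ∀ ξ : Bs s v l Y Z →ₐ[ℂ] ℂ, ∃ χ : Bs s₁ v l Y Z →ₐ[ℂ] ℂ, χ ⟨v, mem_v s₁⟩ = α ∧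
      QuotientAddGroup.mk' R (cy f hτ s hg ξ) = QuotientAddGroup.mk' R (cy f hτ s₁ hg₁ χ) := by
    intro ξ
    have hξs := (hom_rel4 hrel ξ).hs
    have hB' := hBad _ _ (ev_ne_of_dvd dB hξs)
    exact fibre_step f hfld hτ R hR hR3 hfib.rel hα hs0 (hthird s hs0 d₀) hg hs₁0 hg₁ hgen ξ
      rfl rfl (ev_ne_of_dvd dH hξs) (ev_ne_of_dvd dQ hξs) hB'.1 hB'.2
  refine ⟨Bs s v l Y Z, Bs_fg s v l Y Z, fun D hD ξ₁ ξ₂ => ?_⟩
  rw [pair_eq_cy f j hj hτ ι ι' hι' hD ξ₁, pair_eq_cy f j hj hτ ι ι' hι' hD ξ₂]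
  obtain ⟨χ₁, h1, h2⟩ := key (ξ₁.comp (Subalgebra.inclusion hD))
  obtain ⟨χ₂, h3, h4⟩ := key (ξ₂.comp (Subalgebra.inclusion hD))
  have h5 := class_vertical f hfld hτ R hR hR3 hα hs₁ hg₁ χ₁ χ₂ h1 h3
  rw [← h2, ← h4, QuotientAddGroup.mk'_apply, QuotientAddGroup.mk'_apply,
    QuotientAddGroup.eq_iff_sub_mem] at h5
  exact h5

end

end Vale.Agent.P297.H72
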