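import Vale.Agent.P297.H72.Frac

/-!
The valuation ring over `v = a₀`.
-/

set_option linter.unusedSectionVars false
set_option linter.style.haveILetI false

open CategoryTheory AlgebraicGeometry IntermediateField Polynomial

namespace Vale.Agent.P297.H72

open Vale.Agent.P297

section

variable {N : Type} [Field N] [Algebra ℂ N] {Ψ Δ : ℂ[X][X]} {v l Y Z : N}

/-- the polynomial `v - a` -/
noncomputable def lin (a : ℂ) : ℂ[X][X] := C (X - C a)

theorem ev_lin {A : Type} [CommRing A] [Algebra ℂ A] (v l : A) (a : ℂ) :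
    ev v l (lin a) = v - algebraMap ℂ A a := by
  unfold lin; rw [ev_C]; simp

theorem lin_ne_zero (a : ℂ) : lin a ≠ 0 := by
  unfold lin
  rw [Ne, C_eq_zero]
  exact X_sub_C_ne_zero a

theorem lin_not_isUnit (a : ℂ) : ¬ IsUnit (lin a) := by
  unfold lin
  rw [isUnit_C]
  exact not_isUnit_X_sub_C a

/-- A valuation ring over `v = a` all of whose elements have denominators prime to `v - a`. -/
theorem exists_val (h : Fld Ψ Δ v l Y Z) (a : ℂ) {E : Type} [Field E] [Algebra ℂ E]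
    {l₁ Y₁ Z₁ : E} (hY₁ : Y₁ ^ 2 = ev (algebraMap ℂ E a) l₁ Ψ)
    (hZ₁ : Z₁ ^ 2 = ev (algebraMap ℂ E a) l₁ Δ)
    (hind₁ : ∀ p : Fin 4 → ℂ[X][X], val4 p (algebraMap ℂ E a) l₁ Y₁ Z₁ = 0 →
      ∀ i, lin a ∣ p i) :
    ∃ V : ValuationSubring N, (∀ c : ℂ, algebraMap ℂ N c ∈ V) ∧
      ∀ b ∈ V, ∃ (q : ℂ[X][X]) (p : Fin 4 → ℂ[X][X]), ¬ lin a ∣ q ∧
        ev v l q * b = val4 p v l Y Z := by
  have hrel := h.rel (one_ne_zero : (1 : ℂ[X][X]) ≠ 0)
  obtain ⟨ρ, hρv, hρl, hρY, hρZ⟩ := exists_hom 1 hrel h.ind4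
    (E := E) (v' := algebraMap ℂ E a) (l' := l₁) (Y' := Y₁) (Z' := Z₁)
    ⟨hY₁, hZ₁, by rw [map_one]; exact one_ne_zero⟩
  let B := Bs (1 : ℂ[X][X]) v l Y Z
  let P : Ideal B := RingHom.ker ρ.toRingHom
  haveI hP : P.IsPrime := RingHom.ker_isPrime ρ.toRingHom
  have hu : ∀ y : P.primeCompl, IsUnit (algebraMap B N y) := by
    intro y
    rw [isUnit_iff_ne_zero]
    intro h0
    apply y.2
    have h1 : (y : B) = 0 := Subtype.ext h0
    rw [h1]
    exact P.zero_mem
  let F : Localization.AtPrime P →+* N := IsLocalization.lift (M := P.primeCompl) hu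
  obtain ⟨V, hV, hloc⟩ := IsLocalRing.exists_factor_valuationRing F
  have hB : ∀ b : B, (b : N) ∈ V := by
    intro b
    have h1 := hV (algebraMap B _ b)
    rwa [IsLocalization.lift_eq] at h1
  -- elements of `B` outside `P` are units of `V`
  have hunit : ∀ b : B, ρ b ≠ 0 → (b : N)⁻¹ ∈ V := by
    intro b hb
    have h1 : b ∉ P := hb
    have h2 : IsUnit (algebraMap B (Localization.AtPrime P) b) :=
      IsLocalization.map_units _ (⟨b, h1⟩ : P.primeCompl)
    obtain ⟨c, hc⟩ := h2.exists_right_inv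
    have h3 := congrArg F hc
    rw [map_mul, map_one, IsLocalization.lift_eq] at h3
    have h4 : (b : N)⁻¹ = F c := inv_eq_of_mul_eq_one_right h3
    rw [h4]
    exact hV c
  have hnonunit : ∀ b : B, ρ b = 0 → (b : N) ≠ 0 → (b : N)⁻¹ ∉ V := by
    intro b hb hb0 hinv
    have h1 : IsUnit ((F.codRestrict V.toSubring hV) (algebraMap B _ b)) := by
      refine IsUnit.of_mul_eq_one (⟨_, hinv⟩ : V.toSubring) ?_
      apply Subtype.ext
      change F (algebraMap B _ b) * (b : N)⁻¹ = 1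
      rw [IsLocalization.lift_eq]
      exact mul_inv_cancel₀ hb0
    have h2 := hloc.map_nonunit _ h1
    rw [IsLocalization.AtPrime.isUnit_to_map_iff (Localization.AtPrime P) P] at h2
    exact h2 hb
  have hρlin : ρ ⟨ev v l (lin a), mem_ev 1 _⟩ = 0 := by
    rw [hom_ev, ev_lin, hρv, sub_self]
  have hlin0 : ev v l (lin a) ≠ 0 := ev_ne_zero h.ind (lin_ne_zero a)
  have hval : ∀ p : Fin 4 → ℂ[X][X], ρ ⟨val4 p v l Y Z, mem_val4 1 p⟩ =
      val4 p (algebraMap ℂ E a) l₁ Y₁ Z₁ := by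
    intro p
    have h1 : (⟨val4 p v l Y Z, mem_val4 1 p⟩ : B) = ⟨ev v l (p 0), mem_ev 1 _⟩ +
        ⟨ev v l (p 1), mem_ev 1 _⟩ * ⟨Y, mem_Y 1⟩ + ⟨ev v l (p 2), mem_ev 1 _⟩ * ⟨Z, mem_Z 1⟩ +
        ⟨ev v l (p 3), mem_ev 1 _⟩ * (⟨Y, mem_Y 1⟩ * ⟨Z, mem_Z 1⟩) := Subtype.ext rfl
    rw [h1]
    simp only [map_add, map_mul, hom_ev, hρv, hρl, hρY, hρZ]
    rfl
  refine ⟨V, fun c => hB (algebraMap ℂ B c), ?_⟩
  intro b hb
  obtain ⟨q₀, p₀, hq₀, hp₀⟩ := h.exists_frac b
  have hfm : FiniteMultiplicity (lin a) q₀ :=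
    FiniteMultiplicity.of_not_isUnit (lin_not_isUnit a) hq₀
  obtain ⟨q, hq, hqn⟩ := hfm.exists_eq_pow_mul_and_not_dvd
  rw [hq] at hp₀
  generalize multiplicity (lin a) q₀ = n at hp₀
  have key : ∀ (n : ℕ) (p : Fin 4 → ℂ[X][X]), ev v l (lin a ^ n * q) * b = val4 p v l Y Z →
      ∃ p' : Fin 4 → ℂ[X][X], ev v l q * b = val4 p' v l Y Z := by
    intro n
    induction n with
    | zero =>
      intro p hp
      rw [pow_zero, one_mul] at hp
      exact ⟨p, hp⟩
    | succ n ih =>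
      intro p hp
      have h1 : ρ ⟨val4 p v l Y Z, mem_val4 1 p⟩ = 0 := by
        by_contra hne
        have h2 := hunit _ hne
        have h3 : val4 p v l Y Z ≠ 0 := by
          intro h0
          apply hne
          have h4 : (⟨val4 p v l Y Z, mem_val4 1 p⟩ : B) = 0 := Subtype.ext h0
          rw [h4, map_zero]
        apply hnonunit _ hρlin hlin0
        have h5 : (ev v l (lin a))⁻¹ = (ev v l (lin a ^ n * q) * b) * (val4 p v l Y Z)⁻¹ := by
          have h6 : ev v l (lin a) * (ev v l (lin a ^ n * q) * b) = val4 p v l Y Z := by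
            rw [← hp, pow_succ]
            simp only [map_mul]
            ring
          rw [← h6, mul_inv]
          have h7 : ev v l (lin a ^ n * q) * b ≠ 0 := by
            intro h0
            rw [h0, mul_zero] at h6
            exact h3 h6.symm
          rw [mul_comm (ev v l (lin a))⁻¹, ← mul_assoc, mul_inv_cancel₀ h7, one_mul]
        change (ev v l (lin a))⁻¹ ∈ V
        rw [h5]
        exact V.mul_mem _ _ (V.mul_mem _ _ (hB ⟨_, mem_ev 1 _⟩) hb) h2
      rw [hval] at h1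
      have h2 := hind₁ p h1
      choose p' hp' using h2
      apply ih p'
      apply mul_left_cancel₀ hlin0
      have h3 : val4 p v l Y Z = ev v l (lin a) * val4 p' v l Y Z := by
        unfold val4
        rw [hp' 0, hp' 1, hp' 2, hp' 3]
        simp only [map_mul]
        ring
      rw [← h3, ← hp, pow_succ]
      simp only [map_mul]
      ring
  obtain ⟨p', hp'⟩ := key n p₀ hp₀
  exact ⟨q, p', hqn, hp'⟩

end

end Vale.Agent.P297.H72
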