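import Vale.Agent.P297.H72.Dbl
import Vale.Agent.P297.H160.Comp

/-!
The fibre `v = α`.
-/

set_option linter.unusedSectionVars false
set_option linter.style.haveILetI false

open CategoryTheory AlgebraicGeometry IntermediateField Polynomial

namespace Vale.Agent.P297.H72

open Vale.Agent.P297 Vale.Agent.P297.H124

section

variable {N : Type} [Field N] [Algebra ℂ N] {Ψ Δ : ℂ[X][X]} {v l Y Z : N}
  {S : Scheme.{0}} (f : S ⟶ Spec (.of ℂ)) [IsProper f]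

/-- A place over a point, and the classes of the places with the same restriction. -/
theorem exists_place_class {τ : N →ₐ[ℂ] N} (hτ : IsInv τ v l Y Z) {s : ℂ[X][X]}
    (hrel : Rel4 Ψ Δ s v l Y Z) (R : AddSubgroup (ZeroCycle S))
    {E : Type} [Field E] [Algebra ℂ E] [IsFF ℂ E] (E₀ : IntermediateField ℂ E) [IsFF ℂ E₀]
    [FiniteDimensional E₀ E]
    {g : Spec (.of (Bs s v l Y Z)) ⟶ S} (hg : g ≫ f = str (Bs s v l Y Z))
    {ρ : Bs s v l Y Z →ₐ[ℂ] E} (hv : ρ ⟨v, mem_v s⟩ ∈ E₀) (hl : ρ ⟨l, mem_l s⟩ ∈ E₀)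
    (hY : ρ ⟨Y, mem_Y s⟩ ∈ E₀)
    {γ₁ γ₂ : Spec (.of E) ⟶ S} (hatt : Att hτ s g ρ γ₁ γ₂)
    (h₁ : γ₁ ≫ f = str E) (h₂ : γ₂ ≫ f = str E)
    (A : (PlaceOver ℂ E →₀ ℤ) →+ (ZeroCycle S ⧸ R))
    (hA : ∀ w : PlaceOver ℂ E, A (Finsupp.single w 1) = QuotientAddGroup.mk' R
      (Finsupp.single (centerMap f γ₁ h₁ w) 1 + Finsupp.single (centerMap f γ₂ h₂ w) 1))
    (χ : Bs s v l Y Z →ₐ[ℂ] ℂ)
    (hker : ∀ p q : ℂ[X][X], ev (ρ ⟨v, mem_v s⟩) (ρ ⟨l, mem_l s⟩) p +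
      ev (ρ ⟨v, mem_v s⟩) (ρ ⟨l, mem_l s⟩) q * ρ ⟨Y, mem_Y s⟩ = 0 →
      ev (χ ⟨v, mem_v s⟩) (χ ⟨l, mem_l s⟩) p +
        ev (χ ⟨v, mem_v s⟩) (χ ⟨l, mem_l s⟩) q * χ ⟨Y, mem_Y s⟩ = 0)
    (hex : ∃ p : ℂ[X][X], ev (ρ ⟨v, mem_v s⟩) (ρ ⟨l, mem_l s⟩) p ≠ 0 ∧
      ev (χ ⟨v, mem_v s⟩) (χ ⟨l, mem_l s⟩) p = 0) :
    ∃ w : PlaceOver ℂ E, A (Finsupp.single w 1) = QuotientAddGroup.mk' R (cy f hτ s hg χ) ∧
      ∀ w' : PlaceOver ℂ E, restrictPlace E₀ w' = restrictPlace E₀ w →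
        A (Finsupp.single w' 1) = A (Finsupp.single w 1) := by
  have hrelχ := hom_rel4 hrel χ
  obtain ⟨w, hw, χ', hχ', h3, h4, h5⟩ := exists_place_over hrel ρ _ _ _ hrelχ.hY hker hrelχ.hs hex
  refine ⟨w, ?_, ?_⟩
  · rw [class_eq f hτ R hg hatt h₁ h₂ A hA w χ' hw hχ']
    rcases hom_eq_or hτ hrel h3 h4 h5 with h6 | h6
    · rw [h6]
    · rw [h6, cy_tau f hτ hrel.hs]
  · intro w' hw'
    refine class_const f hτ hrel R E₀ hg hv hl hY hatt h₁ h₂ A hA w w' χ' hw hχ' ?_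
    intro x hx
    exact (restrictPlace_eq_iff (K := E₀) w' w).1 hw' ⟨x, hx⟩

theorem exists_tr : ∃ t : Om, Transcendental ℂ t := by
  obtain ⟨t, _, ht, _⟩ := exists_plane X irreducible_X (by simp)
  exact ⟨t, ht⟩

theorem not_sq {r q : ℂ[X]} (hr : r ≠ 0) (hq : Squarefree q)
    (hdeg : q.natDegree = 3 ∨ q.natDegree = 4) (s : ℂ[X]) : s ^ 2 ≠ r ^ 2 * q := by
  intro h
  have h1 : r ∣ s := by
    rw [← IsIntegrallyClosed.pow_dvd_pow_iff two_ne_zero]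
    exact ⟨q, h⟩
  obtain ⟨u, rfl⟩ := h1
  have h2 : q = u * u := by
    apply mul_left_cancel₀ (pow_ne_zero 2 hr)
    rw [← h]; ring
  have h3 : IsUnit u := hq u ⟨1, by rw [mul_one]; exact h2⟩
  have h4 := natDegree_eq_zero_of_isUnit h3
  have hu0 : u ≠ 0 := h3.ne_zero
  rw [h2, natDegree_mul hu0 hu0, h4] at hdeg
  omega

/-- Cycles over the fibre `v = α`. -/
theorem class_vertical (hfld : Fld Ψ Δ v l Y Z) {τ : N →ₐ[ℂ] N} (hτ : IsInv τ v l Y Z)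
    (R : AddSubgroup (ZeroCycle S)) (hR : Rat f ≤ R)
    (hR3 : ∀ u v : closedPoints S,
      (3 : ℤ) • (Finsupp.single u (1 : ℤ) - Finsupp.single v 1) ∈ R)
    {P Q : ℂ[X][X]} {α : ℂ} (hα : AtFib Ψ Δ P Q α) {s : ℂ[X][X]} (hs : ¬ lin α ∣ s)
    {g : Spec (.of (Bs s v l Y Z)) ⟶ S} (hg : g ≫ f = str (Bs s v l Y Z))
    (χ χ' : Bs s v l Y Z →ₐ[ℂ] ℂ) (h1 : χ ⟨v, mem_v s⟩ = α) (h2 : χ' ⟨v, mem_v s⟩ = α) :
    QuotientAddGroup.mk' R (cy f hτ s hg χ) = QuotientAddGroup.mk' R (cy f hτ s hg χ') := by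
  have hs0 : s ≠ 0 := by
    rintro h0
    exact hs (h0 ▸ dvd_zero _)
  have hrel : Rel4 Ψ Δ s v l Y Z := hfld.rel hs0
  obtain ⟨t, ht⟩ := exists_tr
  obtain ⟨r, q, hq, hdeg, hr, hrq⟩ := hα.quart
  obtain ⟨Y₁, hY₁⟩ := IsAlgClosed.exists_pow_nat_eq (ev (algebraMap ℂ Om α) t Ψ) (n := 2) two_pos
  obtain ⟨Z₁, hZ₁⟩ := IsAlgClosed.exists_pow_nat_eq (ev (algebraMap ℂ Om α) t Δ) (n := 2) two_pos
  have hZmem : Z₁ ^ 2 ∈ IntermediateField.adjoin ℂ ({algebraMap ℂ Om α, t, Y₁} : Set Om) := by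
    rw [hZ₁]
    have h3 := map_ev (IntermediateField.adjoin ℂ ({algebraMap ℂ Om α, t, Y₁} : Set Om)).val
      ⟨algebraMap ℂ Om α, IntermediateField.subset_adjoin _ _ (by simp)⟩
      ⟨t, IntermediateField.subset_adjoin _ _ (by simp)⟩ Δ
    change _ = ev (algebraMap ℂ Om α) t Δ at h3
    rw [← h3]
    exact Subtype.prop _
  obtain ⟨E, i1, i2, i3, E₀, i4, i5, v', l', Y', Z', φ, hv', hl', hY', hZ', hE₀, hfin⟩ :=
    exists_double (algebraMap ℂ Om α) t Y₁ Z₁ t ht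
      (IntermediateField.subset_adjoin _ _ (by simp)) hZmem
  have hφ : Function.Injective φ := φ.toRingHom.injective
  have hv'' : v' = algebraMap ℂ E α := hφ (by rw [hv', φ.commutes])
  subst hv''
  have htr : Transcendental ℂ l' := by
    intro halg
    apply ht
    rw [← hl']
    exact (isAlgebraic_algHom_iff φ hφ).2 halg
  have eY : Y' ^ 2 = ev (algebraMap ℂ E α) l' Ψ := hφ (by
    rw [map_pow, hY', hY₁, map_ev, hv', hl'])
  have eZ : Z' ^ 2 = ev (algebraMap ℂ E α) l' Δ := hφ (by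
    rw [map_pow, hZ', hZ₁, map_ev, hv', hl'])
  have hne : ∀ p : ℂ[X][X], ¬ lin α ∣ p → ev (algebraMap ℂ E α) l' p ≠ 0 := by
    intro p hp h0
    rw [ev_eq_eval] at h0
    apply hp
    rw [lin_dvd_iff]
    by_contra hne
    exact htr ⟨_, hne, h0⟩
  have hrel' : Rel4 Ψ Δ s (algebraMap ℂ E α) l' Y' Z' := ⟨eY, eZ, hne s hs⟩
  have hind := H160.ind_of_nonsquare α htr eY eZ (fun s => by rw [hrq]; exact not_sq hr hq hdeg s)
    hα.nsq hα.nsq'
  obtain ⟨ρ, ρv, ρl, ρY, ρZ⟩ := exists_hom s hrel hfld.ind4 hrel'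
  have e1 := sp_over f ρ hg
  have e2 := sp_over f (ρ.comp (tauB hτ s)) hg
  obtain ⟨A, hA0, hA3, hA⟩ := exists_class f R hR hR3 _ _ e1 e2
  have hvE : ρ ⟨v, mem_v s⟩ ∈ E₀ := by
    rw [ρv, hE₀]; exact IntermediateField.subset_adjoin _ _ (by simp)
  have hlE : ρ ⟨l, mem_l s⟩ ∈ E₀ := by
    rw [ρl, hE₀]; exact IntermediateField.subset_adjoin _ _ (by simp)
  have hYE : ρ ⟨Y, mem_Y s⟩ ∈ E₀ := by
    rw [ρY, hE₀]; exact IntermediateField.subset_adjoin _ _ (by simp)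
  -- divisibility by three on the curve
  have hthird : ThirdProp E₀ := by
    have hl0 : l' ∈ E₀ := by rw [← ρl]; exact hlE
    have hY0 : Y' ∈ E₀ := by rw [← ρY]; exact hYE
    let l₀ : E₀ := ⟨l', hl0⟩
    let Y₀ : E₀ := ⟨Y', hY0⟩
    have hl₀ : Transcendental ℂ l₀ := by
      intro halg
      apply htr
      exact (isAlgebraic_algHom_iff E₀.val E₀.val.toRingHom.injective).2 halg
    have hr0 : aeval l₀ r ≠ 0 := fun h0 => hl₀ ⟨r, hr, h0⟩
    have hYsq : Y₀ ^ 2 = aeval l₀ r ^ 2 * aeval l₀ q := by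
      apply Subtype.ext
      have h3 : aeval l' (Ψ.map (evalRingHom α)) = Y' ^ 2 := by rw [eY, ev_eq_eval]
      rw [hrq, map_mul, map_pow] at h3
      have h4 : ∀ p : ℂ[X], ((aeval l₀ p : E₀) : E) = aeval l' p := fun p =>
        (aeval_algHom_apply E₀.val l₀ p).symm
      change Y' ^ 2 = ((aeval l₀ r : E₀) : E) ^ 2 * ((aeval l₀ q : E₀) : E)
      rw [h4, h4, ← h3]
    have htop : IntermediateField.adjoin ℂ ({l₀, Y₀} : Set E₀) = ⊤ := by
      rw [eq_top_iff]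
      intro z _
      have h3 : (z : E) ∈ (IntermediateField.adjoin ℂ ({l₀, Y₀} : Set E₀)).map E₀.val := by
        rw [IntermediateField.adjoin_map]
        have h4 : E₀.val '' {l₀, Y₀} = {l', Y'} := by
          simp only [Set.image_insert_eq, Set.image_singleton]
          rfl
        rw [h4]
        have h5 : E₀ ≤ IntermediateField.adjoin ℂ ({l', Y'} : Set E) := by
          rw [hE₀, IntermediateField.adjoin_le_iff]
          rintro x (hx | hx | hx)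
          · rw [hx]; exact IntermediateField.algebraMap_mem _ _
          · rw [hx]; exact IntermediateField.subset_adjoin _ _ (by simp)
          · rw [Set.mem_singleton_iff.1 hx]; exact IntermediateField.subset_adjoin _ _ (by simp)
        exact h5 z.2
      obtain ⟨w, hw, hwz⟩ := h3
      have h6 : z = w := Subtype.ext hwz.symm
      rw [h6]
      exact hw
    have hmem : ∀ p : ℂ[X], aeval l₀ p ∈ ℂ⟮l₀⟯ := fun p =>
      IntermediateField.algebra_adjoin_le_adjoin ℂ {l₀} (aeval_mem_adjoin_singleton ℂ l₀)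
    refine thirdProp_poly E₀ hl₀ q hq hdeg (θ := Y₀ / aeval l₀ r) ?_ ?_
    · rw [div_pow, hYsq, mul_div_cancel_left₀ _ (pow_ne_zero 2 hr0)]
    · intro x
      obtain ⟨a, ha, b, hb, hab⟩ := exists_quad ℂ⟮l₀⟯ Y₀ (by
        rw [hYsq]; exact mul_mem (pow_mem (hmem r) 2) (hmem q)) {l₀, Y₀} (by
        rintro x (hx | hx)
        · left; rw [hx]; exact IntermediateField.mem_adjoin_simple_self ℂ l₀
        · right; exact hx) htop x
      refine ⟨a, ha, b * aeval l₀ r, mul_mem hb (hmem r), ?_⟩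
      rw [hab]
      field_simp
  have key : ∀ χ : Bs s v l Y Z →ₐ[ℂ] ℂ, χ ⟨v, mem_v s⟩ = α → ∃ w : PlaceOver ℂ E,
      A (Finsupp.single w 1) = QuotientAddGroup.mk' R (cy f hτ s hg χ) ∧
      ∀ w' : PlaceOver ℂ E, restrictPlace E₀ w' = restrictPlace E₀ w →
        A (Finsupp.single w' 1) = A (Finsupp.single w 1) := by
    intro χ hχ
    refine exists_place_class f hτ hrel R E₀ hg hvE hlE hYE ⟨rfl, rfl⟩ e1 e2 A hA χ ?_ ?_
    · intro p q hpq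
      rw [ρv, ρl, ρY] at hpq
      have h3 : val4 ![p, q, 0, 0] (algebraMap ℂ E α) l' Y' Z' = 0 := by
        unfold val4
        simp only [Matrix.cons_val_zero, Matrix.cons_val_one, Matrix.cons_val]
        rw [map_zero, zero_mul, zero_mul, add_zero, add_zero]
        exact hpq
      have h4 : ∀ p : ℂ[X][X], lin α ∣ p → ev (χ ⟨v, mem_v s⟩) (χ ⟨l, mem_l s⟩) p = 0 := by
        rintro _ ⟨p, rfl⟩
        rw [map_mul, ev_lin, hχ]
        simp
      have h5 := hind _ h3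
      have h6 : lin α ∣ p := h5 0
      have h7 : lin α ∣ q := h5 1
      rw [h4 p h6, h4 q h7]
      ring
    · refine ⟨X - C (C (χ ⟨l, mem_l s⟩)), ?_, ?_⟩
      · rw [ρv, ρl, map_sub, ev_X, ev_C, aeval_C]
        exact sub_ne_zero_of_tr htr _
      · rw [map_sub, ev_X, ev_C, aeval_C]
        exact sub_self _
  obtain ⟨w, hw, hw'⟩ := key χ h1
  obtain ⟨x, hx, hx'⟩ := key χ' h2
  rw [← hw, ← hx]
  exact fibre_const_sub E₀ hthird hfin A hA0 hA3 hw' hx'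

end

end Vale.Agent.P297.H72
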