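import Vale.Agent.P297.H72.ThirdGood
import Vale.Agent.P297.H572.QuarticGood
import Vale.Agent.P297.H160.ThreeFib
import Vale.Agent.P297.H160.ThreeMain

/-!
The surfaces with `ℤ/3`-torsion: Bloch's conjecture with integral coefficients.
-/

set_option linter.unusedSectionVars false
set_option linter.style.haveILetI false

open CategoryTheory AlgebraicGeometry IntermediateField Polynomial

namespace Vale.Agent.P297.H72

open Vale.Agent.P297 Vale.Agent.P297.H839 Vale.Agent.P297.H109 Vale.Agent.P297.H729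
open Vale.Agent.P297.H600 Vale.Agent.P297.H964 Vale.Agent.P297.H160 Vale.Agent.P297.H212.Z

/-- Removal of a factor. -/
theorem kill_factor {S : Scheme.{0}} (f : S ⟶ Spec (.of ℂ)) [IsProper f] (n : ℤ)
    (h : ∀ R : AddSubgroup (ZeroCycle S), Rat f ≤ R →
      (∀ x y : closedPoints S, n • (Finsupp.single x (1 : ℤ) - Finsupp.single y 1) ∈ R) →
      ∀ x y : closedPoints S, Finsupp.single x (1 : ℤ) - Finsupp.single y 1 ∈ R) (m : ℤ)
    (h0 : ∀ x y : closedPoints S,
      (m * n) • (Finsupp.single x (1 : ℤ) - Finsupp.single y 1) ∈ Rat f)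
    (x y : closedPoints S) : m • (Finsupp.single x (1 : ℤ) - Finsupp.single y 1) ∈ Rat f := by
  let R : AddSubgroup (ZeroCycle S) :=
    (Rat f).comap (DistribSMul.toAddMonoidHom (ZeroCycle S) m)
  have hR : ∀ z, z ∈ R ↔ m • z ∈ Rat f := fun z => Iff.rfl
  have h1 : Rat f ≤ R := fun z hz => (hR z).2 (AddSubgroup.zsmul_mem _ hz _)
  exact (hR _).1 (h R h1 (fun x y => (hR _).2 (by rw [smul_smul]; exact h0 x y)) x y)

theorem z3Qo_ne {N : Type} [Field N] [Algebra ℂ N] (c d₁ d₂ : ℂ) {v l : N}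
    (hind : AlgebraicIndependent ℂ ![v, l]) :
    z3Qo (algebraMap ℂ N c) (algebraMap ℂ N d₁) (algebraMap ℂ N d₂) v l ≠ 0 := by
  refine nz2 hind (z3Qo (MvPolynomial.C c) (MvPolynomial.C d₁) (MvPolynomial.C d₂)
    (MvPolynomial.X 0) (MvPolynomial.X 1)) ?_ ?_
  · simp [z3Qo, z3m]
  · by_contra hcon
    push Not at hcon
    have h0 := hcon 0 0
    have h1 := hcon 0 1
    simp [z3Qo, z3m] at h0 h1
    have h3 : (1 : ℂ) = 0 := by linear_combination h0 - h1
    norm_num at h3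

/-- the core: in an algebraically closed field -/
theorem z3_core {K A : Type} [Field K] [Algebra ℂ K] [Field A] [Algebra ℂ A] [IsAlgClosed A]
    (m : K →ₐ[ℂ] A) (c d₁ d₂ e g α : ℂ) (hA : c * g ^ 2 + e ^ 2 ≠ 0) (hd₂ : d₂ ≠ 0)
    (hCC : d₁ ^ 2 - 4 * c * d₁ - 3 * c * d₂ ^ 2 + 4 * c ^ 2 ≠ 0)
    (hD : zI c d₁ d₂ e g ≠ 0 ∨ zJ c d₁ d₂ e g ≠ 0)
    (hB : (4 * c - g) ^ 3 ≠ 27 * (c * g ^ 2 + e ^ 2))
    (hat : AtFib (pPsi c d₁ d₂ e g) (pDelta c d₁ d₂ e g) (pP c e g) (pQ c d₁ d₂ e g) α)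
    {v r t θ : A} (hQ : z3QR (algebraMap ℂ A c) (algebraMap ℂ A d₁) (algebraMap ℂ A d₂) v r +
      θ ^ 2 * z3Qo (algebraMap ℂ A c) (algebraMap ℂ A d₁) (algebraMap ℂ A d₂) v t = 0)
    (F : IntermediateField ℂ A) (hF : F = IntermediateField.adjoin ℂ {v, r})
    (hFa : Algebra.IsAlgebraic F A) (p n ζ l η : A) (hp : p ∈ F) (hn : n ∈ F)
    (hq : θ ^ 4 - 2 * p * θ ^ 2 + n = 0) (hζ : (2 * ζ ^ 2 - p) ^ 2 = n)
    (hns : ∀ a ∈ F, a ^ 2 ≠ n)
    (hf1 : F ⊔ IntermediateField.adjoin ℂ {ζ} = IntermediateField.adjoin ℂ {v, l, η})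
    (hrat : IsRational (F ⊔ IntermediateField.adjoin ℂ {θ ^ 2}))
    (hvl : AlgebraicIndependent ℂ ![v, l])
    (hη : η ^ 2 * (z3phi (algebraMap ℂ A c) (algebraMap ℂ A d₁) (algebraMap ℂ A d₂)
        (algebraMap ℂ A e) (algebraMap ℂ A g) v * z3C (algebraMap ℂ A c) (algebraMap ℂ A d₁)
          (algebraMap ℂ A d₂) (algebraMap ℂ A e) (algebraMap ℂ A g) v l ^ 2) =
        z3phi (algebraMap ℂ A c) (algebraMap ℂ A d₁) (algebraMap ℂ A d₂)
        (algebraMap ℂ A e) (algebraMap ℂ A g) v * z3C (algebraMap ℂ A c) (algebraMap ℂ A d₁)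
          (algebraMap ℂ A d₂) (algebraMap ℂ A e) (algebraMap ℂ A g) v l ^ 2 -
        4 * z3D (algebraMap ℂ A c) (algebraMap ℂ A e) (algebraMap ℂ A g) v l ^ 3)
    (hηC : η * z3C (algebraMap ℂ A c) (algebraMap ℂ A d₁) (algebraMap ℂ A d₂) (algebraMap ℂ A e)
        (algebraMap ℂ A g) v l = θ * (t - l) * z3Dn (algebraMap ℂ A c) (algebraMap ℂ A d₁)
          (algebraMap ℂ A d₂) (algebraMap ℂ A g) v l)
    (hrD : r * z3Dn (algebraMap ℂ A c) (algebraMap ℂ A d₁) (algebraMap ℂ A d₂)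
      (algebraMap ℂ A g) v l + z3Nn (algebraMap ℂ A c) (algebraMap ℂ A d₁)
        (algebraMap ℂ A d₂) (algebraMap ℂ A e) v l = 0)
    (hDn : z3Dn (algebraMap ℂ A c) (algebraMap ℂ A d₁) (algebraMap ℂ A d₂) (algebraMap ℂ A g)
      v l ≠ 0)
    (hm : m.fieldRange = F ⊔ IntermediateField.adjoin ℂ {θ})
    {S : Scheme.{0}} (f : S ⟶ Spec (.of ℂ)) [IsProper f]
    {B : Type} [CommRing B] [Algebra ℂ B] [Algebra.FiniteType ℂ B] (i : B →ₐ[ℂ] K)
    (j : Spec (.of B) ⟶ S) (hj : j ≫ f = str B)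
    (R : AddSubgroup (ZeroCycle S)) (hR : Rat f ≤ R)
    (hR3 : ∀ x y : closedPoints S,
      (3 : ℤ) • (Finsupp.single x (1 : ℤ) - Finsupp.single y 1) ∈ R) :
    Finsupp.single (m.comp i) (2 : ℤ) ∈ Good f j hj R A := by
  have : CharZero A := charZero_of_injective_algebraMap (algebraMap ℂ A).injective
  have hvF : v ∈ F := by rw [hF]; exact IntermediateField.subset_adjoin _ _ (by simp)
  have hrF : r ∈ F := by rw [hF]; exact IntermediateField.subset_adjoin _ _ (by simp)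
  obtain ⟨ph, hph⟩ : ∃ ph, ph = z3phi (algebraMap ℂ A c) (algebraMap ℂ A d₁) (algebraMap ℂ A d₂)
    (algebraMap ℂ A e) (algebraMap ℂ A g) v := ⟨_, rfl⟩
  obtain ⟨CC, hCC'⟩ : ∃ CC, CC = z3C (algebraMap ℂ A c) (algebraMap ℂ A d₁) (algebraMap ℂ A d₂)
    (algebraMap ℂ A e) (algebraMap ℂ A g) v l := ⟨_, rfl⟩
  obtain ⟨Dn, hDn'⟩ : ∃ Dn, Dn = z3Dn (algebraMap ℂ A c) (algebraMap ℂ A d₁) (algebraMap ℂ A d₂)
    (algebraMap ℂ A g) v l := ⟨_, rfl⟩
  obtain ⟨Qo, hQo'⟩ : ∃ Qo, Qo = z3Qo (algebraMap ℂ A c) (algebraMap ℂ A d₁) (algebraMap ℂ A d₂)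
    v l := ⟨_, rfl⟩
  have hph0 : ph ≠ 0 := by rw [hph]; exact z3phi_ne c d₁ d₂ e g (hvl.transcendental 0)
  have hCC0 : CC ≠ 0 := by rw [hCC']; exact z3C_ne c d₁ d₂ e g hvl
  have hQo0 : Qo ≠ 0 := by rw [hQo']; exact z3Qo_ne c d₁ d₂ hvl
  obtain ⟨Y, hY⟩ : ∃ Y, Y = ph * CC * η := ⟨_, rfl⟩
  obtain ⟨Z, hZ⟩ : ∃ Z, Z = ph * Dn * Qo * θ + (v - l) * Y := ⟨_, rfl⟩
  rw [← hCC', ← hDn'] at hηC
  rw [← hDn'] at hrD hDn
  have hYt : Y = ph * Dn * (θ * (t - l)) := by
    rw [hY]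
    linear_combination ph * hηC
  have hYsq : Y ^ 2 = z3Psi (algebraMap ℂ A c) (algebraMap ℂ A d₁) (algebraMap ℂ A d₂)
      (algebraMap ℂ A e) (algebraMap ℂ A g) v l := by
    unfold z3Psi
    have hη₁ := hη
    rw [← hph, ← hCC'] at hη₁ ⊢
    rw [hY]
    linear_combination ph * hη₁
  have hZsq : Z ^ 2 = z3Delta (algebraMap ℂ A c) (algebraMap ℂ A d₁) (algebraMap ℂ A d₂)
      (algebraMap ℂ A e) (algebraMap ℂ A g) v l := by
    have h1 := z3_Z_sq (algebraMap ℂ A c) (algebraMap ℂ A d₁) (algebraMap ℂ A d₂)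
      (algebraMap ℂ A e) (algebraMap ℂ A g) v r t θ l Y hQ
      (by rw [← hDn']; exact hrD) (by rw [← hph, ← hDn']; exact hYt) hYsq
    rw [← hph, ← hDn', ← hQo', ← hZ] at h1
    exact h1
  obtain ⟨N, hNdef⟩ : ∃ N : IntermediateField ℂ A,
    N = IntermediateField.adjoin ℂ ({v, l, Y, Z} : Set A) := ⟨_, rfl⟩
  have hvN : v ∈ N := by rw [hNdef]; exact IntermediateField.subset_adjoin _ _ (by simp)
  have hlN : l ∈ N := by rw [hNdef]; exact IntermediateField.subset_adjoin _ _ (by simp)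
  have hYN : Y ∈ N := by rw [hNdef]; exact IntermediateField.subset_adjoin _ _ (by simp)
  have hZN : Z ∈ N := by rw [hNdef]; exact IntermediateField.subset_adjoin _ _ (by simp)
  have hev : ∀ (L : IntermediateField ℂ A) (_ : v ∈ L) (_ : l ∈ L), ph ∈ L ∧ CC ∈ L ∧ Dn ∈ L ∧
      z3Nn (algebraMap ℂ A c) (algebraMap ℂ A d₁) (algebraMap ℂ A d₂) (algebraMap ℂ A e) v l ∈ L ∧
      Qo ∈ L := by
    intro L hv hl
    refine ⟨?_, ?_, ?_, ?_, ?_⟩
    · rw [hph, ← ev_pphi (l := l)]; exact ev_mem_of L hv hl _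
    · rw [hCC', ← ev_pC]; exact ev_mem_of L hv hl _
    · have h1 := map_z3Dn (ev v l : ℂ[X][X] →+* A) (kk c) (kk d₁) (kk d₂) (kk g) (C X) X
      simp only [RingHom.coe_coe, ev_kk, ev_CX, ev_X] at h1
      rw [hDn', ← h1]
      exact ev_mem_of L hv hl _
    · have h1 := map_z3Nn (ev v l : ℂ[X][X] →+* A) (kk c) (kk d₁) (kk d₂) (kk e) (C X) X
      simp only [RingHom.coe_coe, ev_kk, ev_CX, ev_X] at h1
      rw [← h1]
      exact ev_mem_of L hv hl _
    · have h1 := map_z3Qo (ev v l : ℂ[X][X] →+* A) (kk c) (kk d₁) (kk d₂) (C X) X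
      simp only [RingHom.coe_coe, ev_kk, ev_CX, ev_X] at h1
      rw [hQo', ← h1]
      exact ev_mem_of L hv hl _
  obtain ⟨hphN, hCCN, hDnN, hNnN, hQoN⟩ := hev N hvN hlN
  have hηN : η ∈ N := by
    have h1 : η = Y / (ph * CC) := by rw [hY]; field_simp
    rw [h1]
    exact div_mem hYN (mul_mem hphN hCCN)
  have hθeq : θ = (Z - (v - l) * Y) / (ph * Dn * Qo) := by
    rw [hZ]
    field_simp
    ring
  have hθN : θ ∈ N := by
    rw [hθeq]
    exact div_mem (sub_mem hZN (mul_mem (sub_mem hvN hlN) hYN))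
      (mul_mem (mul_mem hphN hDnN) hQoN)
  have hrN : r ∈ N := by
    have h1 : r = -(z3Nn (algebraMap ℂ A c) (algebraMap ℂ A d₁) (algebraMap ℂ A d₂)
        (algebraMap ℂ A e) v l) / Dn := by
      rw [eq_div_iff hDn]
      linear_combination hrD
    rw [h1]
    exact div_mem (neg_mem hNnN) hDnN
  have hFN : F ≤ N := by
    rw [hF, IntermediateField.adjoin_le_iff]
    rintro z (hz | hz)
    · rw [hz]; exact hvN
    · rw [Set.mem_singleton_iff.1 hz]; exact hrN
  have hmN : m.fieldRange ≤ N := by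
    rw [hm]
    exact sup_adjoin_le hFN hθN
  -- the field data
  let v' : N := ⟨v, hvN⟩
  let l' : N := ⟨l, hlN⟩
  let Y' : N := ⟨Y, hYN⟩
  let Z' : N := ⟨Z, hZN⟩
  let η' : N := ⟨η, hηN⟩
  have hind₁ : AlgebraicIndependent ℂ ![v', l'] := by
    have h1 : AlgebraicIndependent ℂ (N.val ∘ ![v', l']) := by
      have h2 : (N.val ∘ ![v', l']) = ![v, l] := by
        funext k
        fin_cases k <;> rfl
      rw [h2]
      exact hvl
    exact h1.of_comp N.val
  have hevN : ∀ q, ((ev v' l' q : N) : A) = ev v l q := fun q => map_ev N.val v' l' q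
  have hY' : Y' ^ 2 = ev v' l' (pPsi c d₁ d₂ e g) := Subtype.ext (by
    rw [hevN, ev_pPsi]
    exact hYsq)
  have hZ' : Z' ^ 2 = ev v' l' (pDelta c d₁ d₂ e g) := Subtype.ext (by
    rw [hevN, ev_pDelta]
    exact hZsq)
  have htop' : IntermediateField.adjoin ℂ ({v', l', Y', Z'} : Set N) = ⊤ := by
    rw [eq_top_iff]
    intro z _
    have h1 : (z : A) ∈ (IntermediateField.adjoin ℂ ({v', l', Y', Z'} : Set N)).map N.val := by
      rw [IntermediateField.adjoin_map]
      have h2 : N.val '' {v', l', Y', Z'} = {v, l, Y, Z} := by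
        simp only [Set.image_insert_eq, Set.image_singleton]
        rfl
      rw [h2, ← hNdef]
      exact z.2
    obtain ⟨w, hw, hwz⟩ := h1
    have h3 : z = w := Subtype.ext hwz.symm
    rw [h3]
    exact hw
  obtain ⟨r₁, q₁, hq₁, hdeg₁, hr₁, hrq₁⟩ := hat.quart
  have hfld : Fld (pPsi c d₁ d₂ e g) (pDelta c d₁ d₂ e g) v' l' Y' Z' :=
    fld_of_nonsquare hind₁ hY' hZ' htop'
      (nsq_of_map α (fun s => by rw [hrq₁]; exact not_sq hr₁ hq₁ hdeg₁ s))
      (nsq_of_map α hat.nsq) (nsq_of_map α hat.nsq')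
  -- the fibration
  have hη' : η' ^ 2 * (z3phi (algebraMap ℂ N c) (algebraMap ℂ N d₁) (algebraMap ℂ N d₂)
        (algebraMap ℂ N e) (algebraMap ℂ N g) v' * z3C (algebraMap ℂ N c) (algebraMap ℂ N d₁)
          (algebraMap ℂ N d₂) (algebraMap ℂ N e) (algebraMap ℂ N g) v' l' ^ 2) =
        z3phi (algebraMap ℂ N c) (algebraMap ℂ N d₁) (algebraMap ℂ N d₂)
        (algebraMap ℂ N e) (algebraMap ℂ N g) v' * z3C (algebraMap ℂ N c) (algebraMap ℂ N d₁)
          (algebraMap ℂ N d₂) (algebraMap ℂ N e) (algebraMap ℂ N g) v' l' ^ 2 -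
        4 * z3D (algebraMap ℂ N c) (algebraMap ℂ N e) (algebraMap ℂ N g) v' l' ^ 3 := by
    rw [← ev_pphi (l := l'), ← ev_pC, ← ev_pD]
    apply Subtype.ext
    change η ^ 2 * (((ev v' l' (z3phi (kk c) (kk d₁) (kk d₂) (kk e) (kk g) (C X)) : N) : A) *
      ((ev v' l' (z3C (kk c) (kk d₁) (kk d₂) (kk e) (kk g) (C X) X) : N) : A) ^ 2) =
      ((ev v' l' (z3phi (kk c) (kk d₁) (kk d₂) (kk e) (kk g) (C X)) : N) : A) *
      ((ev v' l' (z3C (kk c) (kk d₁) (kk d₂) (kk e) (kk g) (C X) X) : N) : A) ^ 2 -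
      4 * ((ev v' l' (z3D (kk c) (kk e) (kk g) (C X) X) : N) : A) ^ 3
    rw [hevN, hevN, hevN, ev_pphi, ev_pC, ev_pD]
    exact hη
  obtain ⟨a, b, F', hfib⟩ := z3_fib c d₁ d₂ e g hA hd₂ hCC hD (Or.inl hB) hind₁ hη'
  have hYfib : z3phi (algebraMap ℂ N c) (algebraMap ℂ N d₁) (algebraMap ℂ N d₂)
        (algebraMap ℂ N e) (algebraMap ℂ N g) v' * z3C (algebraMap ℂ N c) (algebraMap ℂ N d₁)
          (algebraMap ℂ N d₂) (algebraMap ℂ N e) (algebraMap ℂ N g) v' l' * η' = Y' := by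
    rw [← ev_pphi (l := l'), ← ev_pC]
    apply Subtype.ext
    change ((ev v' l' (z3phi (kk c) (kk d₁) (kk d₂) (kk e) (kk g) (C X)) : N) : A) *
      ((ev v' l' (z3C (kk c) (kk d₁) (kk d₂) (kk e) (kk g) (C X) X) : N) : A) * η = Y
    rw [hevN, hevN, ev_pphi, ev_pC, ← hph, ← hCC', hY]
  rw [hYfib] at hfib
  -- the field of the twin
  obtain ⟨L, hL⟩ : ∃ L : IntermediateField ℂ A, L = IntermediateField.adjoin ℂ {v, l, η} :=
    ⟨_, rfl⟩
  have hvL : v ∈ L := by rw [hL]; exact IntermediateField.subset_adjoin _ _ (by simp)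
  have hlL : l ∈ L := by rw [hL]; exact IntermediateField.subset_adjoin _ _ (by simp)
  have hηL : η ∈ L := by rw [hL]; exact IntermediateField.subset_adjoin _ _ (by simp)
  obtain ⟨hphL, hCCL, hDnL, hNnL, hQoL⟩ := hev L hvL hlL
  have hYL : Y ∈ L := by rw [hY]; exact mul_mem (mul_mem hphL hCCL) hηL
  have hθL : θ ∉ L := by
    intro hθ
    apply hfld.hZF
    have hZL : Z ∈ L := by
      rw [hZ]
      exact add_mem (mul_mem (mul_mem (mul_mem hphL hDnL) hQoL) hθ)
        (mul_mem (sub_mem hvL hlL) hYL)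
    have hle : L ≤ (IntermediateField.adjoin ℂ ({v', l', Y'} : Set N)).map N.val := by
      have h2 : (IntermediateField.adjoin ℂ ({v', l', Y'} : Set N)).map N.val =
          IntermediateField.adjoin ℂ ({v, l, Y} : Set A) := by
        rw [IntermediateField.adjoin_map]
        congr 1
        simp only [Set.image_insert_eq, Set.image_singleton]
        rfl
      rw [h2, hL, IntermediateField.adjoin_le_iff]
      have hv2 : v ∈ IntermediateField.adjoin ℂ ({v, l, Y} : Set A) :=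
        IntermediateField.subset_adjoin _ _ (by simp)
      have hl2 : l ∈ IntermediateField.adjoin ℂ ({v, l, Y} : Set A) :=
        IntermediateField.subset_adjoin _ _ (by simp)
      rintro z (hz | hz | hz)
      · rw [hz]; exact hv2
      · rw [hz]; exact hl2
      · rw [Set.mem_singleton_iff.1 hz]
        obtain ⟨k1, k2, -, -, -⟩ := hev _ hv2 hl2
        have h1 : η = Y / (ph * CC) := by rw [hY]; field_simp
        rw [h1]
        exact div_mem (IntermediateField.subset_adjoin _ _ (by simp)) (mul_mem k1 k2)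
    obtain ⟨w, hw, hwz⟩ := hle hZL
    have h3 : Z' = w := Subtype.ext hwz.symm
    rw [h3]
    exact hw
  have hθζ : θ ∉ F ⊔ IntermediateField.adjoin ℂ {ζ} := by rw [hf1, ← hL]; exact hθL
  -- the embedding
  have hmem : ∀ a : K, m a ∈ N.toSubalgebra := fun a => hmN ⟨a, rfl⟩
  let ιK : K →ₐ[ℂ] N := m.codRestrict N.toSubalgebra hmem
  let ι : B →ₐ[ℂ] N := ιK.comp i
  let G : AddSubgroup ((K →ₐ[ℂ] A) →₀ ℤ) := (Good f j hj R A).comap
    (Finsupp.mapDomain.addMonoidHom (fun φ : K →ₐ[ℂ] A => φ.comp i))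
  have hGm : ∀ z, z ∈ G ↔ Finsupp.mapDomain (fun φ : K →ₐ[ℂ] A => φ.comp i) z ∈
    Good f j hj R A := fun z => Iff.rfl
  have hfin := quartic_good hFa p n ζ hp hn hq hζ hns hθζ hm G
    (fun z hz => (hGm z).2 (Good.mono hR (good_of_stable hz i)))
    (fun g z hz => by
      rw [hGm] at hz ⊢
      have h1 := Good.map g.toAlgHom hz
      rw [← Finsupp.mapDomain_comp] at h1
      rw [act_apply, ← Finsupp.mapDomain_comp]
      exact h1)
    (fun g hg hgθ => by
      rw [hf1, ← hL] at hg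
      have hgZ : g Z = -Z := by
        have h1 : g Z = ph * Dn * Qo * g θ + (v - l) * Y := by
          conv_lhs => rw [hZ]
          rw [map_add, map_mul, map_mul, map_mul, map_mul, map_sub, hg _ hphL, hg _ hDnL,
            hg _ hQoL, hg _ hvL, hg _ hlL, hg _ hYL]
        have h2 : (g Z) ^ 2 = Z ^ 2 := by
          rw [← map_pow, hZsq, ← ev_pDelta]
          exact hg _ (ev_mem_of L hvL hlL _)
        rcases sq_eq_sq_iff_eq_or_eq_neg.1 h2 with h3 | h3
        · exfalso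
          apply hgθ
          have h4 : ph * Dn * Qo * g θ = ph * Dn * Qo * θ := by
            rw [h1] at h3
            conv_rhs at h3 => rw [hZ]
            exact add_right_cancel h3
          exact mul_left_cancel₀ (mul_ne_zero (mul_ne_zero hph0 hDn) hQo0) h4
        · exact h3
      have hgN : ∀ z : N, g z ∈ N.toSubalgebra := by
        have h1 : N ≤ N.comap g.toAlgHom := by
          conv_lhs => rw [hNdef]
          rw [IntermediateField.adjoin_le_iff]
          rintro z (hz | hz | hz | hz)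
          · rw [hz]
            change g v ∈ N
            rw [hg _ hvL]; exact hvN
          · rw [hz]
            change g l ∈ N
            rw [hg _ hlL]; exact hlN
          · rw [hz]
            change g Y ∈ N
            rw [hg _ hYL]; exact hYN
          · rw [Set.mem_singleton_iff.1 hz]
            change g Z ∈ N
            rw [hgZ]; exact neg_mem hZN
        exact fun z => h1 z.2
      let τ : N →ₐ[ℂ] N := (g.toAlgHom.comp N.val).codRestrict N.toSubalgebra hgN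
      have hτ : IsInv τ v' l' Y' Z' :=
        ⟨Subtype.ext (hg _ hvL), Subtype.ext (hg _ hlL), Subtype.ext (hg _ hYL),
          Subtype.ext hgZ⟩
      have h1 := third_good f j hj R hR hR3 hfld hτ hfib hat ι
      have h2 := Good.map N.val h1
      rw [Finsupp.mapDomain_add, Finsupp.mapDomain_single, Finsupp.mapDomain_single] at h2
      rw [hGm, Finsupp.mapDomain_add, Finsupp.mapDomain_single, Finsupp.mapDomain_single]
      exact h2) hrat
  rw [hGm, Finsupp.mapDomain_single] at hfin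
  exact hfin

section

variable {K : Type} [Field K] [Algebra ℂ K]

/-- From three to two. -/
theorem z3_half (c d₁ d₂ e g α : ℂ) (hA : c * g ^ 2 + e ^ 2 ≠ 0) (hd₂ : d₂ ≠ 0)
    (hCC : d₁ ^ 2 - 4 * c * d₁ - 3 * c * d₂ ^ 2 + 4 * c ^ 2 ≠ 0)
    (hD : zI c d₁ d₂ e g ≠ 0 ∨ zJ c d₁ d₂ e g ≠ 0)
    (hB : (4 * c - g) ^ 3 ≠ 27 * (c * g ^ 2 + e ^ 2)) (hα : d₂ * α = 2 * c - d₁)
    (hφ : z3phi c d₁ d₂ e g α ≠ 0) (hN : α ^ 2 + c ≠ 0) {v r t θ : K}
    (hind : AlgebraicIndependent ℂ ![v, r])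
    (htop : IntermediateField.adjoin ℂ {v, r, t, θ} = ⊤)
    (hQ : z3QR (algebraMap ℂ K c) (algebraMap ℂ K d₁) (algebraMap ℂ K d₂) v r +
      θ ^ 2 * z3Qo (algebraMap ℂ K c) (algebraMap ℂ K d₁) (algebraMap ℂ K d₂) v t = 0)
    (hC : z3CR (algebraMap ℂ K c) (algebraMap ℂ K e) (algebraMap ℂ K g) v r +
      θ ^ 2 * z3E (algebraMap ℂ K c) (algebraMap ℂ K e) (algebraMap ℂ K g) v r t = 0)
    {S : Scheme.{0}} [IsIntegral S] (f : S ⟶ Spec (.of ℂ)) [IsProper f]
    (hS : IsFunctionFieldOf f K) (R : AddSubgroup (ZeroCycle S)) (hR : Rat f ≤ R)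
    (hR3 : ∀ x y : closedPoints S,
      (3 : ℤ) • (Finsupp.single x (1 : ℤ) - Finsupp.single y 1) ∈ R) (x y : closedPoints S) :
    (2 : ℤ) • (Finsupp.single x (1 : ℤ) - Finsupp.single y 1) ∈ R := by
  -- the fibre
  have hQ3 : α ^ 2 - 3 * c ≠ 0 := by
    intro h0
    apply hCC
    have h1 : d₁ = 2 * c - d₂ * α := by rw [hα]; ring
    rw [h1]
    linear_combination d₂ ^ 2 * h0
  have hat := z3_atFib c d₁ d₂ e g α hα hφ (by intro h; apply hA; linear_combination h)
    (by intro h; apply hB; rw [h]; ring) hQ3 hN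
  let A := AlgebraicClosure K
  let m : K →ₐ[ℂ] A := IsScalarTower.toAlgHom ℂ K A
  have hinj : Function.Injective m := m.toRingHom.injective
  have hind' : AlgebraicIndependent ℂ ![m v, m r] := by
    have h := hind.map' (f := m) hinj
    have h2 : (m ∘ ![v, r]) = ![m v, m r] := by
      funext i
      fin_cases i <;> rfl
    rwa [h2] at h
  have hm : m.fieldRange = IntermediateField.adjoin ℂ {m v, m r, m t, m θ} := by
    rw [AlgHom.fieldRange_eq_map, ← htop, IntermediateField.adjoin_map]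
    congr 1
    simp only [Set.image_insert_eq, Set.image_singleton]
  have hQ' : z3QR (algebraMap ℂ A c) (algebraMap ℂ A d₁) (algebraMap ℂ A d₂) (m v) (m r) +
      (m θ) ^ 2 * z3Qo (algebraMap ℂ A c) (algebraMap ℂ A d₁) (algebraMap ℂ A d₂) (m v) (m t) =
      0 := by
    have h0 := congrArg m hQ
    unfold z3QR z3Qo z3m at h0 ⊢
    simpa only [map_add, map_sub, map_mul, map_pow, map_neg, map_zero, map_ofNat,
      AlgHom.commutes] using h0
  have hC' : z3CR (algebraMap ℂ A c) (algebraMap ℂ A e) (algebraMap ℂ A g) (m v) (m r) +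
      (m θ) ^ 2 * z3E (algebraMap ℂ A c) (algebraMap ℂ A e) (algebraMap ℂ A g) (m v) (m r)
        (m t) = 0 := by
    have h0 := congrArg m hC
    unfold z3CR z3E at h0 ⊢
    simpa only [map_add, map_sub, map_mul, map_pow, map_neg, map_zero, map_ofNat,
      AlgHom.commutes] using h0
  obtain ⟨F, hF⟩ : ∃ F : IntermediateField ℂ A, F = IntermediateField.adjoin ℂ {m v, m r} :=
    ⟨_, rfl⟩
  have hvF : m v ∈ F := by rw [hF]; exact IntermediateField.subset_adjoin _ _ (by simp)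
  have hrF : m r ∈ F := by rw [hF]; exact IntermediateField.subset_adjoin _ _ (by simp)
  obtain ⟨p, n, ζ, l, η, hp, hn, hq, hζ, hns, hf1, hf2, hrat, hvl, hη, hηC, hrD, hDn⟩ :=
    z3_twin_strong c d₁ d₂ e g hd₂ hind' hQ' hC' F hF
  -- `A` is algebraic over `F`
  have hAlg : ∀ z : A, IsAlgebraic F z := by
    have hmF : z3m (algebraMap ℂ A d₁) (algebraMap ℂ A d₂) (m v) ∈ F := by
      unfold z3m
      exact sub_mem (sub_mem (pow_mem hvF 2) (mul_mem (F.algebraMap_mem _) hvF))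
        (F.algebraMap_mem _)
    have hQRF : z3QR (algebraMap ℂ A c) (algebraMap ℂ A d₁) (algebraMap ℂ A d₂) (m v) (m r) ∈ F := by
      unfold z3QR
      exact sub_mem (add_mem (sub_mem hmF (mul_mem (ofNat_mem F 2) (F.algebraMap_mem _)))
        (mul_mem (mul_mem (ofNat_mem F 2) hvF) hrF)) (mul_mem (ofNat_mem F 3) (pow_mem hrF 2))
    have hCRF : z3CR (algebraMap ℂ A c) (algebraMap ℂ A e) (algebraMap ℂ A g) (m v) (m r) ∈ F := by
      unfold z3CR
      exact add_mem (sub_mem (sub_mem (mul_mem hvF (pow_mem hrF 2)) (pow_mem hrF 3))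
        (mul_mem (add_mem (F.algebraMap_mem _) (F.algebraMap_mem _)) hrF))
        (sub_mem (mul_mem (F.algebraMap_mem _) hvF) (F.algebraMap_mem _))
    have hta : IsAlgebraic F (m t) := by
      refine alg_of_quad F ?_ ?_ ?_ ?_ (z3_quad _ _ _ _ _ _ _ _ _ hQ' hC')
      · exact sub_mem (mul_mem (neg_mem (one_mem F)) hCRF) (mul_mem (add_mem hvF hrF) hQRF)
      · exact sub_mem (mul_mem (mul_mem (ofNat_mem F 2) hvF) hCRF)
          (mul_mem (mul_mem (ofNat_mem F 2) (sub_mem (mul_mem hvF hrF) (F.algebraMap_mem _))) hQRF)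
      · exact sub_mem (mul_mem (neg_mem (add_mem hmF (mul_mem (ofNat_mem F 2)
          (F.algebraMap_mem _)))) hCRF) (mul_mem (add_mem (sub_mem (mul_mem (sub_mem
          (F.algebraMap_mem _) (F.algebraMap_mem _)) hrF) (mul_mem (F.algebraMap_mem _) hvF))
          (F.algebraMap_mem _)) hQRF)
      · rintro ⟨h0, -, -⟩
        exact z3F2_ne c d₁ d₂ e g hind' h0
    have hθa : IsAlgebraic F (m θ) := by
      have h1 : IsAlgebraic F ((m θ) ^ 2) := by
        have h2 : (m θ) ^ 2 ∈ F ⊔ IntermediateField.adjoin ℂ {m t} := by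
          rw [← hf2]
          exact mem_sup_adjoin F _
        have hle : F ⊔ IntermediateField.adjoin ℂ {m t} ≤
            (algebraicClosure F A).restrictScalars ℂ := by
          refine sup_le ?_ ?_
          · intro z hz
            exact mem_algebraicClosure_iff.2 (isAlgebraic_mem _ _ hz)
          · rw [IntermediateField.adjoin_le_iff]
            rintro z hz
            rw [Set.mem_singleton_iff.1 hz]
            exact mem_algebraicClosure_iff.2 hta
        exact mem_algebraicClosure_iff.1 (hle h2)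
      exact IsAlgebraic.of_pow two_pos h1
    refine alg_trans m.fieldRange F ?_ ?_
    · intro z
      obtain ⟨q, hq0, hqz⟩ := Algebra.IsAlgebraic.isAlgebraic (R := K) z
      let e : K →+* m.fieldRange := (m.rangeRestrict).toRingHom
      refine ⟨q.map e, ?_, ?_⟩
      · intro h0
        exact hq0 ((Polynomial.map_eq_zero e).1 h0)
      · rw [Polynomial.aeval_def, Polynomial.eval₂_map]
        exact hqz
    · have hle : m.fieldRange ≤ (algebraicClosure F A).restrictScalars ℂ := by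
        rw [hm, IntermediateField.adjoin_le_iff]
        rintro b (hb | hb | hb | hb)
        · rw [hb]; exact mem_algebraicClosure_iff.2 (isAlgebraic_mem _ _ hvF)
        · rw [hb]; exact mem_algebraicClosure_iff.2 (isAlgebraic_mem _ _ hrF)
        · rw [hb]; exact mem_algebraicClosure_iff.2 hta
        · rw [Set.mem_singleton_iff.1 hb]; exact mem_algebraicClosure_iff.2 hθa
      intro z hz
      exact mem_algebraicClosure_iff.1 (hle hz)
  have hFa : Algebra.IsAlgebraic F A := ⟨hAlg⟩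
  have hmr : m.fieldRange = F ⊔ IntermediateField.adjoin ℂ {m θ} := by
    rw [hm]
    apply le_antisymm
    · rw [IntermediateField.adjoin_le_iff]
      rintro b (hb | hb | hb | hb)
      · rw [hb]; exact (le_sup_left : F ≤ _) hvF
      · rw [hb]; exact (le_sup_left : F ≤ _) hrF
      · rw [hb]
        have h3 : m t ∈ F ⊔ IntermediateField.adjoin ℂ {m t} := mem_sup_adjoin F _
        rw [← hf2] at h3
        refine (sup_adjoin_le (le_sup_left : F ≤ F ⊔ IntermediateField.adjoin ℂ {m θ}) ?_) h3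
        exact pow_mem (mem_sup_adjoin F _) 2
      · rw [Set.mem_singleton_iff.1 hb]; exact mem_sup_adjoin F _
    · refine sup_adjoin_le ?_ (IntermediateField.subset_adjoin _ _ (by simp))
      rw [hF]
      apply IntermediateField.adjoin.mono
      rintro z (hz | hz)
      · rw [hz]; simp
      · rw [Set.mem_singleton_iff.1 hz]; simp
  obtain ⟨U, hU, hne, hi⟩ := exists_chart f hS
  letI := chartAlg f hU
  haveI := chart_finiteType f hU
  obtain ⟨i, hi, hfrac⟩ := hi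
  have hgood := z3_core m c d₁ d₂ e g α hA hd₂ hCC hD hB hat hQ' F hF hFa p n ζ l η hp hn hq hζ
    hns hf1 hrat hvl hη hηC hrD hDn hmr f i hU.fromSpec (chart_hj f hU) R hR hR3
  exact Gen.global_of_good' f hU 2 R hR (m.comp i) (hinj.comp hi) hgood x y

/-- **Bloch's conjecture with integral coefficients for the surfaces with `ℤ/3`-torsion.** -/
theorem z3_integral (c d₁ d₂ e g α : ℂ) (hA : c * g ^ 2 + e ^ 2 ≠ 0) (hd₂ : d₂ ≠ 0)
    (hCC : d₁ ^ 2 - 4 * c * d₁ - 3 * c * d₂ ^ 2 + 4 * c ^ 2 ≠ 0)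
    (hD : zI c d₁ d₂ e g ≠ 0 ∨ zJ c d₁ d₂ e g ≠ 0)
    (hB : (4 * c - g) ^ 3 ≠ 27 * (c * g ^ 2 + e ^ 2)) (hα : d₂ * α = 2 * c - d₁)
    (hφ : z3phi c d₁ d₂ e g α ≠ 0) (hN : α ^ 2 + c ≠ 0) {v r t θ : K}
    (hind : AlgebraicIndependent ℂ ![v, r])
    (htop : IntermediateField.adjoin ℂ {v, r, t, θ} = ⊤)
    (hQ : z3QR (algebraMap ℂ K c) (algebraMap ℂ K d₁) (algebraMap ℂ K d₂) v r +
      θ ^ 2 * z3Qo (algebraMap ℂ K c) (algebraMap ℂ K d₁) (algebraMap ℂ K d₂) v t = 0)
    (hC : z3CR (algebraMap ℂ K c) (algebraMap ℂ K e) (algebraMap ℂ K g) v r +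
      θ ^ 2 * z3E (algebraMap ℂ K c) (algebraMap ℂ K e) (algebraMap ℂ K g) v r t = 0)
    {S : Scheme.{0}} [IsIntegral S] (f : S ⟶ Spec (.of ℂ)) [IsProper f]
    (hS : IsFunctionFieldOf f K) (x y : ClosedPt S) : RatEquiv f x y := by
  have h2 : ∀ R : AddSubgroup (ZeroCycle S), Rat f ≤ R →
      (∀ x y : closedPoints S, (2 : ℤ) • (Finsupp.single x (1 : ℤ) - Finsupp.single y 1) ∈ R) →
      ∀ x y : closedPoints S, Finsupp.single x (1 : ℤ) - Finsupp.single y 1 ∈ R :=
    fun R hR h x y => half_double f hS (z3_double c d₁ d₂ e g hd₂ hind htop hQ hC) R hR h x y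
  have h3 : ∀ R : AddSubgroup (ZeroCycle S), Rat f ≤ R →
      (∀ x y : closedPoints S, (3 : ℤ) • (Finsupp.single x (1 : ℤ) - Finsupp.single y 1) ∈ R) →
      ∀ x y : closedPoints S, Finsupp.single x (1 : ℤ) - Finsupp.single y 1 ∈ R := by
    intro R hR h x y
    have h4 := z3_half c d₁ d₂ e g α hA hd₂ hCC hD hB hα hφ hN hind htop hQ hC f hS R hR h x y
    have h5 := sub_mem (h x y) h4
    rw [← sub_smul] at h5
    simpa using h5
  have h36 := z3_torsion c d₁ d₂ e g hA hd₂ hCC hD (Or.inl hB) hind htop hQ hC f hS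
  have h18 := kill_factor f 2 h2 18 h36
  have h9 := kill_factor f 2 h2 9 h18
  have h3' := kill_factor f 3 h3 3 h9
  have h1 := kill_factor f 3 h3 1 h3' x y
  rwa [one_smul] at h1

end

end Vale.Agent.P297.H72
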